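import Vale.Agent.P015.Hier

namespace Vale.Agent.P015

open Finset

variable {ι : Type} {P : ι → ℕ}

open Classical in
noncomputable def trunc (S : Finset ι) (y : ∀ i, ZMod (P i)) : ∀ i, ZMod (P i) :=
  fun i => if i ∈ S then y i else 0

noncomputable def res (r : ∀ i, ZMod (P i)) (S : Finset ι) (v : ℤ × ℤ) : ∀ i, ZMod (P i) :=
  trunc S (fun i => rho r i v)

theorem res_add (r : ∀ i, ZMod (P i)) (S : Finset ι) (v w : ℤ × ℤ) :
    res r S (v + w) = res r S v + res r S w := by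
  funext i
  simp only [res, trunc, Pi.add_apply, map_add]
  split_ifs <;> simp

theorem trunc_res (r : ∀ i, ZMod (P i)) {S S' : Finset ι} (h : S ⊆ S') (v : ℤ × ℤ) :
    trunc S (res r S' v) = res r S v := by
  funext i
  simp only [res, trunc]
  by_cases hi : i ∈ S
  · simp [hi, h hi]
  · simp [hi]

theorem rho_eq_of_res {r : ∀ i, ZMod (P i)} {S : Finset ι} {v w : ℤ × ℤ}
    (h : res r S v = res r S w) {i : ι} (hi : i ∈ S) : rho r i v = rho r i w := by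
  have := congrFun h i
  simpa [res, trunc, hi] using this

def leaf (s : ℤ × ℤ) : ℕ → ℤ × ℤ := fun j => if j = 0 then 0 else s

def node (τ : ℕ) (x x' : ℕ → ℤ × ℤ) : ℕ → ℤ × ℤ := fun j => x j + x' (j - 2 ^ τ)

/-- Logarithm of the size of a box. -/
noncomputable def lB (D L : ℕ) : ℝ := Real.log ((Box ((D * 2 ^ L : ℕ) : ℤ)).card)

namespace Cfg

variable (C : Cfg ι P)

def blk (τ u : ℕ) : ℕ → ℤ × ℤ := fun j => C.z (u + min j (2 ^ τ)) - C.z u

theorem blk_of_le {τ j : ℕ} (u : ℕ) (h : j ≤ 2 ^ τ) : C.blk τ u j = C.z (u + j) - C.z u := by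
  simp [blk, h]

theorem blk_zero (u : ℕ) : C.blk 0 u = leaf (C.z (u + 1) - C.z u) := by
  funext j
  rcases j with _ | j <;> simp [blk, leaf]

theorem blk_succ (τ u : ℕ) : C.blk (τ + 1) u = node τ (C.blk τ u) (C.blk τ (u + 2 ^ τ)) := by
  funext j
  simp only [blk, node, pow_succ]
  rcases le_total j (2 ^ τ) with h | h
  · have e1 : min j (2 ^ τ * 2) = j := by omega
    have e2 : min j (2 ^ τ) = j := by omega
    have e3 : min (j - 2 ^ τ) (2 ^ τ) = 0 := by omega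
    rw [e1, e2, e3]; simp
  · have e1 : u + min j (2 ^ τ * 2) = u + 2 ^ τ + min (j - 2 ^ τ) (2 ^ τ) := by omega
    have e2 : min j (2 ^ τ) = 2 ^ τ := by omega
    rw [e1, e2]; abel

noncomputable def Y (τ u : ℕ) : ∀ i, ZMod (P i) := res C.r (C.S τ) (C.z u)

noncomputable def nu (τ : ℕ) (y : ∀ i, ZMod (P i)) : Ex ℕ := (C.mu τ).cond (C.Y τ) 0 y

noncomputable def q (τ : ℕ) (y : ∀ i, ZMod (P i)) : Ex (ℕ → ℤ × ℤ) := (C.nu τ y).map (C.blk τ)

noncomputable def R : ℕ → (∀ i, ZMod (P i)) → Ex (ℕ → ℤ × ℤ)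
  | 0, _ => (Ex.unif (Box C.D) (Box_nonempty _)).map leaf
  | τ + 1, y => (C.q τ y).bind fun x =>
      (C.q τ (y + res C.r (C.S τ) (x (2 ^ τ)))).map (node τ x)

def So : ℕ → Finset ι
  | 0 => ∅
  | τ + 1 => C.S τ

noncomputable def gk (τ : ℕ) (y : ∀ i, ZMod (P i)) (x : ℕ → ℤ × ℤ) : ℝ :=
  Real.log ((C.q τ y).wt x) - Real.log ((C.R τ (trunc (C.So τ) y)).wt x)

noncomputable def kl (τ u : ℕ) : ℝ := (C.q τ (C.Y τ u)).E (C.gk τ (C.Y τ u))

noncomputable def wq (τ u : ℕ) : ℝ := (C.q τ (C.Y τ u)).wt (C.blk τ u)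

noncomputable def wR (τ u : ℕ) : ℝ := (C.R τ (res C.r (C.So τ) (C.z u))).wt (C.blk τ u)

variable {C}

theorem So_sub (hC : C.OK) (τ : ℕ) : C.So τ ⊆ C.S τ := by
  rcases τ with _ | τ
  · exact empty_subset _
  · exact hC.mono τ

theorem trunc_Y (hC : C.OK) (τ u : ℕ) : trunc (C.So τ) (C.Y τ u) = res C.r (C.So τ) (C.z u) :=
  trunc_res _ (So_sub hC τ) _

theorem wq_pos {τ u : ℕ} (h : C.good τ u) : 0 < C.wq τ u :=
  lt_of_lt_of_le (Ex.wt_cond_pos (C.Y τ) 0 h) (Ex.wt_map_ge _ _ _)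

theorem wR_zero (hC : C.OK) (u : ℕ) : 1 / ((Box C.D).card : ℝ) ≤ C.wR 0 u := by
  rw [wR, blk_zero, R, ← Ex.wt_unif (Box_nonempty _) (mem_Box.2 (hC.step u))]
  exact Ex.wt_map_ge _ _ _

theorem wR_succ (τ u : ℕ) : C.wq τ u * C.wq τ (u + 2 ^ τ) ≤ C.wR (τ + 1) u := by
  rw [wR, blk_succ, R, So]
  refine le_trans ?_ (Ex.wt_bind_ge _ _ (C.blk τ u) _)
  refine mul_le_mul_of_nonneg_left ?_ (Ex.wt_nonneg _ _)
  have e : res C.r (C.S τ) (C.z u) + res C.r (C.S τ) (C.blk τ u (2 ^ τ)) = C.Y τ (u + 2 ^ τ) := by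
    rw [← res_add, C.blk_of_le u le_rfl, Y]; congr 1; abel
  rw [e]
  exact Ex.wt_map_ge _ _ _

theorem wR_pos (hC : C.OK) {τ u : ℕ} (hτ : τ ≤ C.tt) (h : C.good τ u) : 0 < C.wR τ u := by
  rcases τ with _ | τ
  · refine lt_of_lt_of_le ?_ (wR_zero hC u)
    have : (0 : ℝ) < (Box C.D).card := by exact_mod_cast (Box_nonempty _).card_pos
    positivity
  · obtain ⟨h1, h2⟩ := C.good_dyadic (by omega) hC.le h
    exact lt_of_lt_of_le (mul_pos (wq_pos h1) (wq_pos h2)) (wR_succ τ u)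

theorem nu_good (hC : C.OK) {τ u : ℕ} (hτ : τ ≤ C.tt) (h : C.good τ u) :
    (C.nu τ (C.Y τ u)).AS (fun u' => C.good τ u' ∧ C.Y τ u' = C.Y τ u) :=
  (C.good_mu (hτ.trans hC.le)).cond 0 (lt_of_lt_of_le h (Ex.wt_map_ge _ _ _))

theorem dv_kl (hC : C.OK) {τ u : ℕ} (hτ : τ ≤ C.tt) (h : C.good τ u) :
    Ex.DV (C.q τ (C.Y τ u)) (C.R τ (res C.r (C.So τ) (C.z u))) (C.kl τ u) := by
  classical
  rw [← trunc_Y hC]
  refine Ex.DV.of_wt (s := (range (0 + 2 ^ C.top + 1)).image (C.blk τ)) ?_ ?_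
  · refine Ex.AS.map (Ex.AS.mono ((C.mu_fin (hτ.trans hC.le)).cond' (C.Y τ) (by simp) _) ?_)
    exact fun x hx => mem_image_of_mem _ hx
  · refine Ex.AS.map ((nu_good hC hτ h).mono fun u' hu' => ?_)
    rw [← hu'.2, trunc_Y hC]
    exact wR_pos hC hτ hu'.1

theorem E_kl (hC : C.OK) {τ : ℕ} (hτ : τ ≤ C.tt) : (C.mu τ).E (C.kl τ) =
    (C.mu τ).E (fun u => Real.log (C.wq τ u)) - (C.mu τ).E (fun u => Real.log (C.wR τ u)) := by
  have := Ex.E_tower (C.mu_fin (hτ.trans hC.le)) (C.Y τ) 0 (fun y u => C.gk τ y (C.blk τ u))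
  rw [← Ex.E_sub]
  refine this.trans ?_
  simp only [gk, trunc_Y hC, wq, wR]

theorem E_kl_nonneg (hC : C.OK) {τ : ℕ} (hτ : τ ≤ C.tt) : 0 ≤ (C.mu τ).E (C.kl τ) :=
  C.good_mu (hτ.trans hC.le) _ fun _ hu => (dv_kl hC hτ hu).nonneg

theorem E_mu_dyadic (hC : C.OK) {τ : ℕ} (hτ : τ < C.tt) (f : ℕ → ℝ) :
    (C.mu τ).E f = (C.mu (τ + 1)).E (fun u => (f u + f (u + 2 ^ τ)) / 2) := by
  rw [C.mu_eq (Nat.le_succ τ) (le_trans hτ hC.le), Ex.E_bind]
  congr 1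
  funext u
  rw [desc_succ _ le_rfl, K, if_pos hτ]
  simp [desc_self]

theorem budget_aux (hC : C.OK) {T : ℕ} (hT : T ≤ C.tt) :
    ∑ τ ∈ range (T + 1), (C.mu τ).E (C.kl τ) / 2 ^ τ ≤
      Real.log (Box C.D).card + (C.mu T).E (fun u => Real.log (C.wq T u)) / 2 ^ T := by
  induction T with
  | zero =>
    have hc : (0 : ℝ) < (Box C.D).card := by exact_mod_cast (Box_nonempty _).card_pos
    have : (C.mu 0).E (fun _ => - Real.log (Box C.D).card) ≤
        (C.mu 0).E (fun u => Real.log (C.wR 0 u)) := by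
      refine Ex.E_mono _ fun u => ?_
      rw [← Real.log_inv, ← one_div]
      exact Real.log_le_log (by positivity) (wR_zero hC u)
    rw [Ex.E_const] at this
    simp only [zero_add, sum_range_one, pow_zero, div_one, E_kl hC hT]
    linarith
  | succ T ih =>
    rw [sum_range_succ, E_kl hC hT]
    have h1 := ih (by omega)
    have h2 : (C.mu (T + 1)).E (fun u => Real.log (C.wq T u) + Real.log (C.wq T (u + 2 ^ T))) ≤
        (C.mu (T + 1)).E (fun u => Real.log (C.wR (T + 1) u)) := by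
      refine (C.good_mu (hT.trans hC.le)).E_le fun u hu => ?_
      obtain ⟨a1, a2⟩ := C.good_dyadic (by omega) hC.le hu
      rw [← Real.log_mul (wq_pos a1).ne' (wq_pos a2).ne']
      exact Real.log_le_log (mul_pos (wq_pos a1) (wq_pos a2)) (wR_succ T u)
    rw [E_mu_dyadic hC hT, Ex.E_div_const] at h1
    have h3 := div_le_div_of_nonneg_right h2 (by positivity : (0 : ℝ) ≤ 2 ^ (T + 1))
    rw [div_div, mul_comm, ← pow_succ] at h1
    rw [sub_div]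
    linarith

theorem budget (hC : C.OK) :
    ∑ τ ∈ range (C.tt + 1), (C.mu τ).E (C.kl τ) / 2 ^ τ ≤ Real.log (Box C.D).card := by
  refine (budget_aux hC le_rfl).trans ?_
  have : (C.mu C.tt).E (fun u => Real.log (C.wq C.tt u)) ≤ (C.mu C.tt).E (fun _ => 0) :=
    Ex.E_mono _ fun u => Real.log_nonpos (Ex.wt_nonneg _ _) (Ex.wt_le_one _ _)
  rw [Ex.E_const] at this
  have := div_nonpos_of_nonpos_of_nonneg this (by positivity : (0 : ℝ) ≤ 2 ^ C.tt)
  linarith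

end Cfg

end Vale.Agent.P015
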