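import Vale.Agent.P015.PhaseB

namespace Vale.Agent.P015

open Finset

def bas (j s : ℕ) : ℕ := 2 ^ j + 12 * j * s

def Valid (j s : ℕ) : Prop := 1 ≤ s ∧ 12 * j * s ≤ 2 ^ j

def geoP (σ : ℕ) : Prop := ∃ j s i, Valid j s ∧ i < 10 ∧ σ = 2 ^ (bas j s + 24 * i) + 1

theorem bas_gap {j s j' s' : ℕ} (h : Valid j s) (h' : Valid j' s') (hlt : bas j' s' < bas j s) :
    j' ≤ j ∧ bas j' s' + 12 * j ≤ bas j s := by
  obtain ⟨h1, h2⟩ := h
  obtain ⟨h3, h4⟩ := h'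
  unfold bas at *
  rcases lt_trichotomy j' j with hj | rfl | hj
  · have a1 : 2 ^ (j' + 1) ≤ 2 ^ j := Nat.pow_le_pow_right (by norm_num) hj
    have a2 : 12 * j * 1 ≤ 12 * j * s := Nat.mul_le_mul_left _ h1
    rw [pow_succ] at a1
    omega
  · have a1 : s' < s := lt_of_mul_lt_mul_left (a := 12 * j') (by omega) (Nat.zero_le _)
    have a2 : 12 * j' * (s' + 1) ≤ 12 * j' * s := Nat.mul_le_mul_left _ a1
    rw [mul_add] at a2
    omega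
  · have a1 : 2 ^ (j + 1) ≤ 2 ^ j' := Nat.pow_le_pow_right (by norm_num) hj
    rw [pow_succ] at a1
    omega

theorem nogeo {j s i f : ℕ} (h : Valid j s) (hj : 22 ≤ j) (hi : i < 10)
    (hf : bas j s + 24 * i ≤ f + 24 ∨ (i = 0 ∧ bas j s + 240 ≤ f + 12 * j)) (σ : ℕ)
    (h1 : 2 ^ f + 1 < σ) (h2 : σ ≤ 2 ^ (bas j s + 24 * i)) : ¬ geoP σ := by
  rintro ⟨j', s', i', h', hi', rfl⟩
  have a1 : f < bas j' s' + 24 * i' :=
    (Nat.pow_lt_pow_iff_right (by norm_num : 1 < 2)).1 (by omega)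
  have a2 : bas j' s' + 24 * i' < bas j s + 24 * i :=
    (Nat.pow_lt_pow_iff_right (by norm_num : 1 < 2)).1 (by omega)
  rcases lt_trichotomy (bas j' s') (bas j s) with hv | hv | hv
  · have := bas_gap h h' hv; omega
  · omega
  · have := bas_gap h' h hv; omega

theorem cube_le_pow {j : ℕ} (h : 10 ≤ j) : j ^ 3 ≤ 2 ^ j := by
  induction j, h using Nat.le_induction with
  | base => norm_num
  | succ j hj ih =>
    have a1 : 10 * j ≤ j * j := Nat.mul_le_mul_right _ hj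
    have a2 : 10 * (j * j) ≤ j * (j * j) := Nat.mul_le_mul_right _ hj
    rw [pow_succ 2]
    nlinarith

theorem exp_le_two_pow {x : ℝ} {u : ℕ} (h : 2 * x ≤ u) : Real.exp x ≤ 2 ^ u := by
  have h1 := Real.log_two_gt_d9
  have h2 : (0 : ℝ) ≤ u := by positivity
  calc Real.exp x ≤ Real.exp (u * Real.log 2) := Real.exp_le_exp.2 (by nlinarith)
    _ = 2 ^ u := by rw [Real.exp_nat_mul, Real.exp_log (by norm_num)]

theorem log_two_pow_le (n : ℕ) : Real.log ((2 : ℝ) ^ n) ≤ n := by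
  rw [Real.log_pow]
  have h1 := Real.log_two_lt_d9
  have h2 : (0 : ℝ) ≤ n := by positivity
  nlinarith

theorem lB_nonneg (D L : ℕ) : 0 ≤ lB D L := Real.log_natCast_nonneg _

theorem lB_le {D L e : ℕ} (h1 : L ≤ 2 ^ e + 1) (h2 : D + 2 ≤ 2 ^ e) : lB D L ≤ 4 * 2 ^ e := by
  have a1 : D < 2 ^ D := Nat.lt_two_pow_self
  have a2 : 0 < 2 ^ L := by positivity
  have a3 : (2 * (D * 2 ^ L) + 1) ^ 2 ≤ 2 ^ (2 * (D + 1 + L)) := by
    rw [mul_comm 2 (D + 1 + L), pow_mul]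
    refine Nat.pow_le_pow_left ?_ 2
    rw [pow_add, pow_succ]
    nlinarith
  have a4 : (((2 * (D * 2 ^ L) + 1) ^ 2 : ℕ) : ℝ) ≤ 2 ^ (2 * (D + 1 + L)) := by exact_mod_cast a3
  rw [lB, card_Box]
  refine (Real.log_le_log (by positivity) a4).trans ((log_two_pow_le _).trans ?_)
  exact_mod_cast (by omega : 2 * (D + 1 + L) ≤ 4 * 2 ^ e)

variable {ι : Type} {P : ι → ℕ} [hP : ∀ i, Fact (P i).Prime]

namespace Cfg

variable {C : Cfg ι P}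

theorem phiA_step2 (hC : C.OK) {Fam : Finset ι} {τ τg M L k : ℕ} (hτL : τ ≤ L) (hLM : L ≤ M)
    (hMg : M ≤ τg) (ht : C.tt ≤ M) (hg : C.geo (τg + 1))
    (hg' : ∀ σ, M < σ → σ ≤ τg → ¬ C.geo σ) (htop : τg + 1 ≤ C.top)
    (hk : 2 * (k + 1) ≤ Fam.card) {Γ : ℝ} (hΓ : 1 ≤ Γ)
    (hE : ∀ a, Equi C.r Fam k (Dset C.z a (2 ^ τg)) Γ) {σ γ ℓ : ℝ}
    (hσ : 0 < σ) (hγ : 0 < γ) (hγ1 : γ ≤ 1 / 2) (hγσ : 2 * γ * σ ≤ ℓ) (hℓ0 : 0 < ℓ)
    (hℓ : ∀ i ∈ Fam, Real.log (P i) ≤ ℓ) :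
    2 * C.Phi Fam τ L σ - 2 * γ * σ - (Real.log Γ + 2 * lB C.D M +
      2 * (ℓ * Real.exp (2 * (1 + 2 * γ) * σ) / (2 * γ ^ 2) + 1) * lB C.D L) / (k + 1) -
      8 * (k + 1) / Fam.card * (2 * σ) ≤ C.Phi Fam τ (τg + 1) (2 * (1 + 2 * γ) * σ) := by
  set σ' := (1 + 2 * γ) * σ with hσ'
  have e : 2 * (1 + 2 * γ) * σ = 2 * σ' := by rw [hσ']; ring
  rw [e]
  have hσ'0 : 0 < σ' := by positivity
  have hex := Real.exp_pos (2 * σ')
  set ρ := ℓ * Real.exp (2 * σ') / (2 * γ ^ 2) with hρ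
  have hρ0 : 0 < ρ := by positivity
  have hr1 : ρ ≤ ⌈ρ⌉₊ := Nat.le_ceil _
  have hr2 : (⌈ρ⌉₊ : ℝ) ≤ ρ + 1 := (Nat.ceil_lt_add_one hρ0.le).le
  have hr0 : (0 : ℝ) < ⌈ρ⌉₊ := lt_of_lt_of_le hρ0 hr1
  set κ := 2 * γ / Real.exp (2 * σ') with hκ
  have hκ0 : 0 < κ := by positivity
  have hθℓ : σ' / (⌈ρ⌉₊ * κ) * ℓ ≤ 2 * γ * σ := by
    have a1 : σ' / (⌈ρ⌉₊ * κ) * ℓ ≤ σ' / (ρ * κ) * ℓ := by gcongr
    have a2 : σ' / (ρ * κ) * ℓ = γ * σ' := by rw [hρ, hκ]; field_simp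
    have a3 : σ' ≤ 2 * σ := by rw [hσ']; nlinarith
    nlinarith
  have h := phiA_step hC (r := ⌈ρ⌉₊) hτL hLM hMg ht hg hg' htop hk hΓ hE (σ := σ) (σ' := σ')
    (κ := κ) (θ := σ' / (⌈ρ⌉₊ * κ)) (γ := γ) hσ.le hσ'0.le hκ0.le (by positivity)
    (le_of_mul_le_mul_right (by linarith) hℓ0) (by field_simp)
    (by
      have : 0 ≤ γ * (1 - 2 * γ) * σ := by have : 0 ≤ 1 - 2 * γ := by linarith
                                           positivity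
      rw [hσ']; nlinarith)
    (by rw [hκ]; field_simp; exact le_rfl) hℓ
  have a4 : (Real.log Γ + 2 * lB C.D M + 2 * ⌈ρ⌉₊ * lB C.D L) / (k + 1) ≤
      (Real.log Γ + 2 * lB C.D M + 2 * (ρ + 1) * lB C.D L) / (k + 1) := by
    have := lB_nonneg C.D L
    gcongr
  linarith

variable (C) in
/-- Hypotheses for one cell. -/
structure Cell (Fam : Finset ι) (j s y τ : ℕ) : Prop where
  ok : C.OK
  geo : C.geo = geoP
  hj : 2000 ≤ j
  hD : C.D ≤ j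
  val : Valid j s
  hy : y = bas j s + 240
  t1 : 3 * y ≤ C.tt
  t2 : C.tt ≤ 2 ^ 2 ^ (j - 3)
  top : 2 ^ y + 1 ≤ C.top
  hF : ∀ i ∈ Fam, 2 ^ y ≤ P i ∧ P i ≤ 2 ^ (y + 5)
  hn : 2 ^ y ≤ y * Fam.card
  τ1 : 2 * τ + 2 * C.D + 1 ≤ y
  τ2 : y ≤ 2 * τ + 2 * C.D + 2
  hS : Fam ⊆ C.S τ

variable {Fam : Finset ι} {j s y τ : ℕ}

omit hP

theorem Cell.big (h : C.Cell Fam j s y τ) : 2000 * (j * j) ≤ 2 ^ j ∧ 2000 * j ≤ j * j := by
  have a1 := cube_le_pow (j := j) (by have := h.hj; omega)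
  have a2 : 2000 * (j * j) ≤ j * (j * j) := Nat.mul_le_mul_right _ h.hj
  refine ⟨a2.trans (le_of_eq_of_le (by ring) a1), Nat.mul_le_mul_right _ h.hj⟩

theorem Cell.yb (h : C.Cell Fam j s y τ) : 2 ^ j + 240 ≤ y ∧ y + 5 ≤ 3 * 2 ^ j := by
  have := h.big
  have := h.hj
  have := h.val.2
  rw [h.hy, bas]; omega

theorem Cell.ne (h : C.Cell Fam j s y τ) : Fam.Nonempty := by
  rw [← card_pos]
  have a1 := h.hn
  have a2 : 0 < 2 ^ y := by positivity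
  exact Nat.pos_of_mul_pos_left (lt_of_lt_of_le a2 a1)

theorem Cell.log_le (h : C.Cell Fam j s y τ) : ∀ i ∈ Fam, Real.log (P i) ≤ 3 * 2 ^ j := by
  intro i hi
  have a1 : (P i : ℝ) ≤ 2 ^ (y + 5) := by exact_mod_cast (h.hF i hi).2
  have a2 : (0 : ℝ) < P i := by
    have := (h.hF i hi).1
    have a2 : 0 < 2 ^ y := by positivity
    exact_mod_cast (by omega : 0 < P i)
  refine (Real.log_le_log a2 a1).trans ((log_two_pow_le _).trans ?_)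
  exact_mod_cast h.yb.2

theorem Cell.small (h : C.Cell Fam j s y τ) : 2 * (C.D * 2 ^ τ) ^ 2 < 2 ^ y := by
  have a1 : C.D < 2 ^ C.D := Nat.lt_two_pow_self
  have a2 : (C.D * 2 ^ τ) ^ 2 < (2 ^ C.D * 2 ^ τ) ^ 2 := by gcongr
  have a3 : 2 ^ (2 * τ + 2 * C.D + 1) ≤ 2 ^ y := Nat.pow_le_pow_right (by norm_num) h.τ1
  have a4 : 2 ^ (2 * τ + 2 * C.D + 1) = 2 * (2 ^ C.D * 2 ^ τ) ^ 2 := by ring
  omega

include hP in
theorem Cell.win (h : C.Cell Fam j s y τ) {e : ℕ} (he1 : j + 3 ≤ e) (he2 : e ≤ y) :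
    ∃ (k : ℕ) (Γ : ℝ), 2 * (k + 1) ≤ Fam.card ∧ 1 ≤ Γ ∧ Real.log Γ ≤ 5 * 2 ^ j ∧
      (∀ a, Equi C.r Fam k (Dset C.z a (2 ^ 2 ^ e)) Γ) ∧
      (2 : ℝ) ^ e / (12 * 2 ^ j) ≤ k + 1 ∧ ((k : ℝ) + 1) / Fam.card ≤ 2 ^ e / (2 * 2 ^ y) := by
  obtain ⟨y1, y2⟩ := h.yb
  have a1 : 2 ^ (j + 3) ≤ 2 ^ e := Nat.pow_le_pow_right (by norm_num) he1
  have a2 : 2 ^ e ≤ 2 ^ y := Nat.pow_le_pow_right (by norm_num) he2
  rw [pow_add] at a1
  obtain ⟨k, hk⟩ : ∃ k, 2 ^ e / (2 * (y + 5)) = k + 1 :=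
    ⟨2 ^ e / (2 * (y + 5)) - 1, by
      have : 0 < 2 ^ e / (2 * (y + 5)) := Nat.div_pos (by omega) (by omega)
      omega⟩
  have a3 : 2 * (y + 5) * (k + 1) ≤ 2 ^ e := hk ▸ Nat.mul_div_le _ _
  have a4 : 2 ^ e < 2 * (y + 5) * (k + 1 + 1) := hk ▸ Nat.lt_mul_div_succ _ (by omega)
  have a5 : 2 * y * (k + 1) ≤ 2 ^ e := le_trans (Nat.mul_le_mul_right _ (by omega)) a3
  have hn := h.hn
  have hn0 : (0 : ℝ) < Fam.card := by exact_mod_cast h.ne.card_pos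
  refine ⟨k, 72 * ((2 ^ (y + 5) : ℕ) : ℝ) * (4 * C.D + 1) ^ 2, ?_, ?_, ?_, fun a => ?_, ?_, ?_⟩
  · refine le_of_mul_le_mul_left (a := y) ?_ (by omega)
    calc y * (2 * (k + 1)) = 2 * y * (k + 1) := by ring
      _ ≤ _ := a5.trans (a2.trans hn)
  · have b1 : (1 : ℝ) ≤ ((2 ^ (y + 5) : ℕ) : ℝ) := by exact_mod_cast Nat.one_le_two_pow
    have b2 : (1 : ℝ) ≤ (4 * C.D + 1) ^ 2 := one_le_pow₀ (by
      have : (0 : ℝ) ≤ C.D := by positivity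
      linarith)
    nlinarith
  · rw [Real.log_mul (by positivity) (by positivity), Real.log_mul (by positivity) (by positivity),
      Real.log_pow, Nat.cast_pow, Nat.cast_ofNat]
    have b1 := Real.log_le_sub_one_of_pos (by norm_num : (0 : ℝ) < 72)
    have b2 := Real.log_le_sub_one_of_pos (by positivity : (0 : ℝ) < 4 * C.D + 1)
    have b3 := log_two_pow_le (y + 5)
    have b4 : ((71 + (y + 5) + 8 * C.D : ℕ) : ℝ) ≤ ((5 * 2 ^ j : ℕ) : ℝ) := by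
      have := h.big; have := h.hD; have := h.hj
      exact_mod_cast (by omega : 71 + (y + 5) + 8 * C.D ≤ 5 * 2 ^ j)
    push_cast at b3 b4 ⊢
    linarith
  · refine equi_Dset h.ok.Pinj h.ok.hr (x := 2 ^ y) ?_ (Nat.pow_le_pow_right (by norm_num)
      (by omega)) ?_ h.hF h.ok.inj h.ok.step a _ k ?_
    · exact le_trans (by norm_num) (Nat.pow_le_pow_right (by norm_num) (by omega : 1 ≤ y))
    · rw [← pow_mul]; exact Nat.pow_le_pow_right (by norm_num) (by omega)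
    · rw [← pow_mul]
      exact Nat.pow_le_pow_right (by norm_num) (le_of_eq_of_le (by ring) a3)
  · rw [div_le_iff₀ (by positivity)]
    have : 2 ^ e ≤ (k + 1) * (12 * 2 ^ j) := by
      have b1 : 2 * (y + 5) * (k + 1 + 1) ≤ 2 * (3 * 2 ^ j) * (2 * (k + 1)) := by gcongr; omega
      calc 2 ^ e ≤ _ := a4.le.trans b1
        _ = _ := by ring
    exact_mod_cast this
  · rw [div_le_div_iff₀ hn0 (by positivity)]
    have : (k + 1) * (2 * 2 ^ y) ≤ 2 ^ e * Fam.card :=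
      calc (k + 1) * (2 * 2 ^ y) ≤ (k + 1) * (2 * (y * Fam.card)) := by gcongr
        _ = 2 * y * (k + 1) * Fam.card := by ring
        _ ≤ _ := Nat.mul_le_mul_right _ a5
    exact_mod_cast this

end Cfg

end Vale.Agent.P015
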