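import Vale.Agent.P015.Cell

namespace Vale.Agent.P015

open Finset

variable {ι : Type} {P : ι → ℕ} [hP : ∀ i, Fact (P i).Prime]

namespace Cfg

variable {C : Cfg ι P} {Fam : Finset ι} {j s y τ : ℕ}

theorem Cell.stepA (h : C.Cell Fam (j + 3) s y τ) {σ Y B : ℝ} (hY : Y = 2 ^ (j + 3))
    (hσ1 : 1 / (64 * Y ^ 5) ≤ σ) (hσ2 : 2 * (1 + 2 * (1 / Y)) * σ ≤ Y / 64) {s' L : ℕ}
    (hτL : τ ≤ L) (hL : L ≤ 2 ^ bas j s' + 1) (hB : ((12 * j * s' : ℕ) : ℝ) ≤ 4 * σ + B)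
    (hB2 : B + 24 * j ≤ Y / 16) :
    ∃ s'' L', τ ≤ L' ∧ L' ≤ 2 ^ bas j s'' + 1 ∧
      ((12 * j * s'' : ℕ) : ℝ) ≤ 4 * (2 * (1 + 2 * (1 / Y)) * σ) + (B + 24 * j) ∧
      2 * C.Phi Fam τ L σ - 4 * (1 / Y) * σ ≤ C.Phi Fam τ L' (2 * (1 + 2 * (1 / Y)) * σ) := by
  obtain ⟨b1, b2⟩ := h.big
  obtain ⟨y1, y2⟩ := h.yb
  have hj := h.hj
  have hD := h.hD
  have ht2 := h.t2
  rw [Nat.add_sub_cancel] at ht2
  rw [pow_add] at b1 y1 y2
  have hY8 : Y = 8 * 2 ^ j := by rw [hY, pow_add]; ring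
  have hY2 : (2 : ℝ) ≤ Y := by
    have : (1 : ℝ) ≤ 2 ^ j := one_le_pow₀ (by norm_num)
    linarith
  have hY0 : 0 < Y := by linarith
  have hγ : 1 / Y ≤ 1 / 2 := one_div_le_one_div_of_le (by norm_num) hY2
  have hγ0 : 0 < 1 / Y := by positivity
  have hσ0 : 0 < σ := lt_of_lt_of_le (by positivity) hσ1
  set σn := 2 * (1 + 2 * (1 / Y)) * σ with hσn
  have hσn2 : 2 * σ ≤ σn := by rw [hσn]; gcongr; linarith
  have hg0 : (0 : ℝ) < 12 * j := by exact_mod_cast (by omega : 0 < 12 * j)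
  set c := ⌈2 * σn / (12 * j)⌉₊ with hc
  have hc1 : 2 * σn ≤ ((12 * j * c : ℕ) : ℝ) := by
    have := Nat.le_ceil (2 * σn / (12 * j))
    rw [div_le_iff₀ hg0] at this
    push_cast; linarith
  have hc2 : ((12 * j * c : ℕ) : ℝ) ≤ 2 * σn + 12 * j := by
    have := (Nat.ceil_lt_add_one (a := 2 * σn / (12 * j)) (by positivity)).le
    rw [← hc, div_add_one hg0.ne', le_div_iff₀ hg0] at this
    push_cast; linarith
  have hs'' : ((12 * j * (s' + c + 1) : ℕ) : ℝ) ≤ 4 * σn + (B + 24 * j) := by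
    push_cast at hB hc2 ⊢; linarith
  have hval : Valid j (s' + c + 1) := by
    refine ⟨by omega, ?_⟩
    have : ((12 * j * (s' + c + 1) : ℕ) : ℝ) ≤ ((2 ^ j : ℕ) : ℝ) := by
      push_cast at hs'' ⊢; linarith
    exact_mod_cast this
  set e := bas j (s' + c + 1) with he
  obtain ⟨f, hf⟩ : ∃ f, f = bas j s' + 12 * j * c + 240 := ⟨_, rfl⟩
  obtain ⟨δ, hδ⟩ : ∃ δ, 12 * j = δ + 240 := ⟨12 * j - 240, by omega⟩
  have hef : e = f + δ := by rw [he, hf, bas, bas, mul_add, mul_add]; omega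
  have he2 : e ≤ 2 * 2 ^ j := by have := hval.2; rw [he, bas]; omega
  have hf1 : 2 ^ j ≤ bas j s' := Nat.le_add_right _ _
  have p1 : ∀ {a b : ℕ}, a ≤ b → 2 ^ a ≤ 2 ^ b := fun hab => Nat.pow_le_pow_right (by norm_num) hab
  have hj2 : j < 2 ^ j := Nat.lt_two_pow_self
  have hj3 : 2 ^ j < 2 ^ 2 ^ j := Nat.lt_two_pow_self
  obtain ⟨k, Γ, k1, k2, k3, k4, k5, k6⟩ := h.win (e := e) (by omega) (by omega)
  have hLM : L ≤ 2 ^ f + 1 := by have := p1 (by omega : bas j s' ≤ f); omega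
  have hMg : 2 ^ f + 1 ≤ 2 ^ e := by
    have a1 := p1 (by omega : f + 1 ≤ e)
    have a2 : 0 < 2 ^ f := by positivity
    rw [pow_succ] at a1; omega
  have key := phiA_step2 h.ok hτL hLM hMg (by have := p1 (by omega : 2 ^ j ≤ f); omega)
    (by rw [h.geo]; exact ⟨j, s' + c + 1, 0, hval, by norm_num, rfl⟩)
    (by rw [h.geo]; exact nogeo (i := 0) hval (by omega) (by norm_num) (Or.inr ⟨rfl, by omega⟩))
    (by have := p1 (by omega : e ≤ y); have := h.top; omega) k1 k2 k4 hσ0 hγ0 hγ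
    (ℓ := 3 * 2 ^ (j + 3)) (by
      have := mul_le_mul_of_nonneg_right hγ hσ0.le
      rw [← hY]; linarith) (by positivity) h.log_le
  refine ⟨s' + c + 1, 2 ^ e + 1, by omega, le_rfl, hs'', le_trans ?_ key⟩
  rw [← hY] at k3 k5 ⊢
  rw [← hσn]
  have l1 : lB C.D (2 ^ f + 1) ≤ 4 * 2 ^ f :=
    lB_le le_rfl (by have := p1 (by omega : 2 ^ j ≤ f); omega)
  have l2 : lB C.D L ≤ 4 * 2 ^ bas j s' := lB_le hL (by have := p1 hf1; omega)
  have l3 : Real.exp σn * 2 ^ bas j s' ≤ 2 ^ f := by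
    calc _ ≤ (2 : ℝ) ^ (12 * j * c) * 2 ^ bas j s' := by gcongr; exact exp_le_two_pow hc1
      _ = 2 ^ (12 * j * c + bas j s') := (pow_add _ _ _).symm
      _ ≤ _ := pow_le_pow_right₀ (by norm_num) (by omega)
  have l4 : (1 : ℝ) ≤ 2 ^ f := one_le_pow₀ (by norm_num)
  have l5 : 1 ≤ Real.exp σn := Real.one_le_exp (by linarith)
  have l6 : Y ≤ Y ^ 3 := le_self_pow₀ (by linarith) (by norm_num)
  have l7 : 2 * (3 * Y * Real.exp σn / (2 * (1 / Y) ^ 2) + 1) * lB C.D L ≤ 24 * Y ^ 3 * 2 ^ f := by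
    have a1 : 3 * Y * Real.exp σn / (2 * (1 / Y) ^ 2) = 3 / 2 * Y ^ 3 * Real.exp σn := by
      field_simp
    have a2 : 3 / 2 * Y ^ 3 * Real.exp σn + 1 ≤ 3 * Y ^ 3 * Real.exp σn := by
      have := mul_le_mul_of_nonneg_left l5 (by positivity : 0 ≤ Y ^ 3)
      linarith
    rw [a1]
    calc _ ≤ 2 * (3 * Y ^ 3 * Real.exp σn) * (4 * 2 ^ bas j s') := by
          have := lB_nonneg C.D L
          gcongr
      _ = 24 * Y ^ 3 * (Real.exp σn * 2 ^ bas j s') := by ring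
      _ ≤ _ := by gcongr
  have l8 : (Real.log Γ + 2 * lB C.D (2 ^ f + 1) +
      2 * (3 * Y * Real.exp σn / (2 * (1 / Y) ^ 2) + 1) * lB C.D L) / (k + 1) ≤ 1 / Y * σ := by
    have a1 : Real.log Γ + 2 * lB C.D (2 ^ f + 1) +
        2 * (3 * Y * Real.exp σn / (2 * (1 / Y) ^ 2) + 1) * lB C.D L ≤ 37 * Y ^ 3 * 2 ^ f := by
      have c1 := mul_le_mul_of_nonneg_left l4 (by positivity : 0 ≤ Y ^ 3)
      have c2 := mul_le_mul_of_nonneg_right (by linarith : 1 ≤ Y ^ 3) (by positivity : (0 : ℝ) ≤ 2 ^ f)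
      linarith
    have a2 : 32768 * Y ^ 10 ≤ 2 ^ δ := by
      rw [hY, ← pow_mul, show (32768 : ℝ) = 2 ^ 15 by norm_num, ← pow_add]
      exact pow_le_pow_right₀ (by norm_num) (by omega)
    calc _ ≤ 37 * Y ^ 3 * 2 ^ f / (2 ^ e / (12 * Y)) := by gcongr
      _ = 444 * Y ^ 4 / 2 ^ δ := by rw [hef, pow_add]; field_simp; norm_num
      _ ≤ 444 * Y ^ 4 / (32768 * Y ^ 10) := by gcongr
      _ = 444 / 512 * (1 / Y * (1 / (64 * Y ^ 5))) := by field_simp; norm_num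
      _ ≤ 1 * (1 / Y * σ) := by gcongr; norm_num
      _ = _ := one_mul _
  have l9 : 8 * ((k : ℝ) + 1) / Fam.card * (2 * σ) ≤ 1 / Y * σ := by
    have a1 : 8 * Y * 2 ^ e ≤ 2 ^ y := by
      rw [hY, show (8 : ℝ) = 2 ^ 3 by norm_num, ← pow_add, ← pow_add]
      exact pow_le_pow_right₀ (by norm_num) (by omega)
    calc _ = 16 * σ * (((k : ℝ) + 1) / Fam.card) := by ring
      _ ≤ 16 * σ * (2 ^ e / (2 * 2 ^ y)) := by gcongr
      _ ≤ 16 * σ * (2 ^ e / (2 * (8 * Y * 2 ^ e))) := by gcongr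
      _ = _ := by field_simp; norm_num
  linarith

theorem Cell.baseA (h : C.Cell Fam j s y τ) {σ : ℝ} (hσ0 : 0 ≤ σ)
    (hσ : σ ≤ 1 / (64 * (2 ^ j) ^ 2)) : 3 / 4 * σ ≤ C.Phi Fam τ (3 * y) σ := by
  obtain ⟨b1, b2⟩ := h.big
  obtain ⟨y1, y2⟩ := h.yb
  have hj := h.hj
  have hs := h.small
  have hτ := h.τ1
  have hn := h.hn
  have hx4 : 2 ^ 2 ≤ 2 ^ y := Nat.pow_le_pow_right (by norm_num) (by omega)
  have ht : 2 ^ τ ≤ 2 ^ y := Nat.pow_le_pow_right (by norm_num) (by omega)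
  have ht1 : 1 ≤ 2 ^ τ := Nat.one_le_two_pow
  refine le_trans ?_ (phiA_base h.ok h.ne (x := 2 ^ y) (X := 2 ^ (y + 5)) (by omega) h.hF
    (by omega) h.t1 ?_ (δ := 5 / 2 ^ y) ?_ hσ0)
  · have hn0 : (0 : ℝ) < Fam.card := by exact_mod_cast h.ne.card_pos
    have a1 : (2 : ℝ) ^ y / Fam.card ≤ y := by
      rw [div_le_iff₀ hn0]; exact_mod_cast hn
    have a2 : (y : ℝ) ≤ 3 * 2 ^ j := by exact_mod_cast (by omega : y ≤ 3 * 2 ^ j)
    have a3 : (26 : ℝ) ≤ 2 ^ j := by exact_mod_cast (by omega : 26 ≤ 2 ^ j)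
    have a4 : ((2 ^ (y + 5) : ℕ) : ℝ) * (5 / 2 ^ y + 7 / Fam.card) =
        160 + 224 * (2 ^ y / Fam.card) := by push_cast; field_simp; ring
    rw [a4]
    set Y : ℝ := 2 ^ j
    have a5 : σ * (160 + 224 * (2 ^ y / Fam.card)) ≤ 1 / (64 * Y ^ 2) * (832 * Y) := by
      gcongr; linarith
    have a6 : 1 / (64 * Y ^ 2) * (832 * Y) ≤ 1 / 2 := by
      rw [one_div_mul_eq_div, div_le_iff₀ (by positivity)]; nlinarith
    nlinarith
  · have a1 : C.D ^ 2 ≤ (C.D * 2 ^ τ) ^ 2 := Nat.pow_le_pow_left (Nat.le_mul_of_pos_right _ ht1) 2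
    rw [mul_comm 3 y, pow_mul]
    set x := 2 ^ y
    have a2 : 8 * C.D ^ 2 < x ^ 2 := by nlinarith
    calc _ = 8 * C.D ^ 2 * x ^ 6 := by ring
      _ < x ^ 2 * x ^ 6 := by gcongr
      _ = _ := by ring
  · have a1 : (2 * (C.D * 2 ^ τ) + 1) ^ 2 ≤ 5 * 2 ^ y := by
      set a := C.D * 2 ^ τ
      zify at hs hx4 ⊢
      nlinarith [sq_nonneg (2 * (a : ℤ) - 1)]
    have a2 : (2 * ((C.D : ℝ) * 2 ^ τ) + 1) ^ 2 ≤ 5 * 2 ^ y := by exact_mod_cast a1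
    have a3 : (2 : ℝ) ^ τ ≤ 2 ^ y := by exact_mod_cast ht
    have a4 : (1 : ℝ) ≤ 2 ^ y := one_le_pow₀ (by norm_num)
    rw [mul_comm 3 y, pow_mul]
    set x : ℝ := 2 ^ y
    calc _ ≤ 5 * x * (x / x ^ 3) := by gcongr
      _ = _ := by field_simp

theorem Cell.phaseA (h : C.Cell Fam j s y τ) : ∃ L, τ ≤ L ∧ L ≤ 2 ^ (2 * 2 ^ (j - 3)) + 1 ∧
    (2 : ℝ) ^ j / 128 ≤ C.Phi Fam τ L (2 ^ j / 64) := by
  obtain ⟨j, rfl⟩ : ∃ j', j = j' + 3 := ⟨j - 3, by have := h.hj; omega⟩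
  obtain ⟨b1, b2⟩ := h.big
  have hj := h.hj
  rw [Nat.add_sub_cancel]
  obtain ⟨Y, hY⟩ : ∃ Y : ℝ, Y = 2 ^ (j + 3) := ⟨_, rfl⟩
  rw [← hY]
  have b3 : 2000 * (((j : ℝ) + 3) * (j + 3)) ≤ Y := by rw [hY]; exact_mod_cast b1
  have b4 : (2000 : ℝ) ≤ j + 3 := by exact_mod_cast hj
  have b5 : 2000 * ((j : ℝ) + 3) ≤ (j + 3) * (j + 3) := by exact_mod_cast b2
  have b6 : (0 : ℝ) ≤ j := by positivity
  clear b1 b2 hj
  have hY2 : (2 : ℝ) ≤ Y := by linarith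
  have hγ : 1 / Y ≤ 1 / 2 := one_div_le_one_div_of_le (by norm_num) hY2
  have hγ0 : 0 < 1 / Y := by positivity
  set lam := 2 * (1 + 2 * (1 / Y)) with hlam
  have hl2 : 2 ≤ lam := by linarith
  have hl4 : lam ≤ 4 := by linarith
  set J := 3 * (j + 3) with hJ
  have hlJ1 : Y ^ 3 ≤ lam ^ J := by
    rw [hY, ← pow_mul, mul_comm]; exact pow_le_pow_left₀ (by norm_num) hl2 _
  have hlJ2 : lam ^ J ≤ Y ^ 6 := by
    refine (pow_le_pow_left₀ (by linarith) hl4 _).trans (le_of_eq ?_)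
    rw [hY, show (4 : ℝ) = 2 ^ 2 by norm_num, ← pow_mul, ← pow_mul]; congr 1; ring
  set σ0 := Y / 64 / lam ^ J with hσ0
  have hσ0a : 1 / (64 * Y ^ 5) ≤ σ0 := by
    calc _ = Y / 64 / Y ^ 6 := by field_simp
      _ ≤ _ := by rw [hσ0]; gcongr
  have hσ0b : σ0 ≤ 1 / (64 * Y ^ 2) := by
    calc _ ≤ Y / 64 / Y ^ 3 := by rw [hσ0]; gcongr
      _ = _ := by field_simp
  have hσ0p : 0 < σ0 := by positivity
  have hσJ : lam ^ J * σ0 = Y / 64 := by rw [hσ0]; field_simp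
  have ind : ∀ i ≤ J, ∃ s' L, τ ≤ L ∧ L ≤ 2 ^ bas j s' + 1 ∧
      ((12 * j * s' : ℕ) : ℝ) ≤ 4 * (lam ^ i * σ0) + 24 * j * i ∧
      (3 / 4 - 4 * (1 / Y) * i) * (lam ^ i * σ0) ≤ C.Phi Fam τ L (lam ^ i * σ0) := by
    intro i hi
    induction i with
    | zero =>
      refine ⟨0, 3 * y, by have := h.τ1; omega, ?_, by simp; positivity, ?_⟩
      · have := h.t1; have := h.t2
        simp only [bas, Nat.add_sub_cancel, mul_zero, add_zero] at *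
        omega
      · simpa using h.baseA hσ0p.le (hY ▸ hσ0b)
    | succ i ih =>
      obtain ⟨s', L, c1, c2, c3, c4⟩ := ih (by omega)
      have c5 : 1 ≤ lam ^ i := one_le_pow₀ (by linarith)
      have c6 : lam * (lam ^ i * σ0) ≤ Y / 64 := by
        rw [← hσJ, ← mul_assoc, ← pow_succ']
        gcongr; linarith
      have c7 : ((i : ℝ) + 1) ≤ 3 * (j + 3) := by exact_mod_cast hi
      obtain ⟨s'', L', d1, d2, d3, d4⟩ := h.stepA hY (σ := lam ^ i * σ0) (by nlinarith) c6 c1 c2 c3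
        (by nlinarith)
      rw [← hlam] at d3 d4
      rw [pow_succ', mul_assoc lam]
      refine ⟨s'', L', d1, d2, by push_cast at d3 ⊢; linarith, le_trans ?_ d4⟩
      set σ := lam ^ i * σ0
      have c8 : 0 ≤ σ := by positivity
      have c9 : (0 : ℝ) ≤ i := by positivity
      push_cast
      have : (3 / 4 - 4 * (1 / Y) * (i + 1)) * lam ≤ 2 * (3 / 4 - 4 * (1 / Y) * i) - 4 * (1 / Y) := by
        rw [hlam]
        set γ := 1 / Y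
        nlinarith [mul_nonneg (mul_nonneg hγ0.le hγ0.le) c9]
      nlinarith
  obtain ⟨s', L, c1, c2, c3, c4⟩ := ind J le_rfl
  rw [hσJ] at c3 c4
  have c7 : (J : ℝ) = 3 * (j + 3) := by rw [hJ]; push_cast; ring
  refine ⟨L, c1, c2.trans ?_, le_trans ?_ c4⟩
  · have : ((12 * j * s' : ℕ) : ℝ) ≤ ((2 ^ j : ℕ) : ℝ) := by
      rw [c7] at c3
      have : Y = 8 * 2 ^ j := by rw [hY]; ring
      push_cast at c3 ⊢; nlinarith
    have : 12 * j * s' ≤ 2 ^ j := by exact_mod_cast this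
    exact Nat.succ_le_succ (Nat.pow_le_pow_right (by norm_num) (by rw [bas]; omega))
  · have : (3 / 4 - 4 * (1 / Y) * J) * (Y / 64) = 3 / 256 * Y - J / 16 := by field_simp; ring
    rw [this, c7]; nlinarith

end Cfg

end Vale.Agent.P015
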