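import Vale.Agent.P015.CellA

namespace Vale.Agent.P015

open Finset

variable {ι : Type} {P : ι → ℕ} [hP : ∀ i, Fact (P i).Prime]

namespace Cfg

variable {C : Cfg ι P} {Fam : Finset ι} {j s y τ : ℕ}

theorem Cell.stepB (h : C.Cell Fam j s y τ) {i f L : ℕ} (hi : i < 10)
    (hf : f + 24 = bas j s + 24 * i) (hL : L ≤ 2 ^ f + 1) {a m : ℝ} (ha : 2 ^ j / 64 ≤ a)
    (ho : C.Obj Fam L (Real.exp (-a)) m (32 * 2 ^ f)) :
    C.Obj Fam (2 ^ (f + 24) + 1) (Real.exp (-(2 * a))) (2 * m + 2 * a / 512)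
      (32 * 2 ^ (f + 24)) := by
  obtain ⟨b1, b2⟩ := h.big
  obtain ⟨y1, y2⟩ := h.yb
  have hj := h.hj
  have hD := h.hD
  have hy := h.hy
  have hv := h.val.1
  have hv2 : 12 * j * 1 ≤ 12 * j * s := Nat.mul_le_mul_left _ hv
  have hf1 : 2 ^ j ≤ f := by rw [bas] at hf; omega
  have p1 : ∀ {a b : ℕ}, a ≤ b → 2 ^ a ≤ 2 ^ b := fun hab => Nat.pow_le_pow_right (by norm_num) hab
  have hj3 : 2 ^ j < 2 ^ 2 ^ j := Nat.lt_two_pow_self
  obtain ⟨k, Γ, k1, k2, k3, k4, k5, k6⟩ := h.win (e := f + 24) (by omega) (by omega)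
  have hMg : 2 ^ f + 1 ≤ 2 ^ (f + 24) := by
    have a2 : 0 < 2 ^ f := by positivity
    rw [pow_add]; omega
  have ha1 : (1 : ℝ) ≤ a := by
    have : ((64 : ℕ) : ℝ) ≤ ((2 ^ j : ℕ) : ℝ) := by exact_mod_cast (by omega : 64 ≤ 2 ^ j)
    push_cast at this; linarith
  have key := objB_step h.ok hL hMg (by
      have := p1 ((p1 (Nat.sub_le j 3)).trans hf1); have := h.t2; omega)
    (by rw [h.geo]; exact ⟨j, s, i, h.val, hi, by rw [hf]⟩)
    (by rw [h.geo, hf]; exact nogeo h.val (by omega) hi (Or.inl hf.ge))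
    (by have := p1 (by omega : f + 24 ≤ y); have := h.top; omega) k1 k2 k4 (Real.exp_pos _)
    (Real.exp_le_one_iff.2 (by linarith)) ho
  have l1 : lB C.D (2 ^ f + 1) ≤ 4 * 2 ^ f := lB_le le_rfl (by have := p1 hf1; omega)
  have l2 : lB C.D (2 ^ (f + 24)) ≤ 4 * 2 ^ (f + 24) :=
    lB_le (Nat.le_succ _) (by have := p1 hf1; omega)
  have l3 : (5 : ℝ) * 2 ^ j ≤ 2 ^ f := by
    have a1 := p1 (by omega : j + 3 ≤ f)
    rw [pow_add] at a1
    exact_mod_cast (by omega : 5 * 2 ^ j ≤ 2 ^ f)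
  have l4 : (2 : ℝ) ^ (f + 24) * 2 ^ 24 ≤ 2 ^ y := by
    rw [← pow_add]; exact pow_le_pow_right₀ (by norm_num) (by omega)
  rw [← Real.exp_nat_mul, Real.log_exp] at key
  have e1 : ((2 : ℕ) : ℝ) * -a = -(2 * a) := by push_cast; ring
  rw [e1] at key
  have hF : (0 : ℝ) < 2 ^ f := by positivity
  refine key.mono ?_ (by have := pow_add (2 : ℝ) f 24; linarith)
  have m1 : (Real.log Γ + 2 * (lB C.D (2 ^ f + 1) + 32 * 2 ^ f)) / (k + 1) ≤
      876 * 64 / 2 ^ 24 * a := by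
    calc _ ≤ (73 : ℝ) * 2 ^ f / (2 ^ (f + 24) / (12 * 2 ^ j)) := by gcongr; linarith
      _ = 876 * 64 / 2 ^ 24 * (2 ^ j / 64) := by rw [pow_add]; field_simp; norm_num
      _ ≤ _ := by gcongr
  have m2 : 8 * ((k : ℝ) + 1) / Fam.card * (Real.log 2 - 2 * -a) ≤ 12 / 2 ^ 24 * a := by
    have := Real.log_two_lt_d9
    have := Real.log_two_gt_d9
    calc _ = 8 * (((k : ℝ) + 1) / Fam.card) * (Real.log 2 - 2 * -a) := by ring
      _ ≤ 8 * (2 ^ (f + 24) / (2 * 2 ^ y)) * (3 * a) := by gcongr <;> linarith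
      _ ≤ 8 * (2 ^ (f + 24) / (2 * (2 ^ (f + 24) * 2 ^ 24))) * (3 * a) := by gcongr
      _ = _ := by field_simp; norm_num
  linarith

theorem Cell.main (h : C.Cell Fam j s y τ) {Vo : Finset (∀ i, ZMod (P i))}
    (hVo : ∀ v, res C.r (C.So τ) v ∈ Vo) (hVc : Real.log Vo.card ≤ 2 ^ (bas j s - 24)) :
    1 / 2 ^ 264 / (3 * 2 ^ j) ≤ (C.mu τ).E (C.kl τ) / 2 ^ τ := by
  by_contra hcon
  push Not at hcon
  obtain ⟨L, c1, c2, c3⟩ := h.phaseA
  obtain ⟨b1, b2⟩ := h.big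
  obtain ⟨y1, y2⟩ := h.yb
  have hj := h.hj
  have hD := h.hD
  have hy := h.hy
  have hτ1 := h.τ1
  have hτ2 := h.τ2
  have hv2 : 12 * j * 1 ≤ 12 * j * s := Nat.mul_le_mul_left _ h.val.1
  have p1 : ∀ {a b : ℕ}, a ≤ b → 2 ^ a ≤ 2 ^ b := fun hab => Nat.pow_le_pow_right (by norm_num) hab
  obtain ⟨W, hW⟩ : ∃ W, W = 2 ^ (j - 3) := ⟨_, rfl⟩
  have hW8 : 2 ^ j = 8 * W := by
    rw [hW, show 8 = 2 ^ 3 by norm_num, ← pow_add]; congr 1; omega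
  rw [← hW] at c2
  obtain ⟨f, hf⟩ : ∃ f, bas j s = f + 24 := ⟨bas j s - 24, by rw [bas]; omega⟩
  have hf1 : 2 ^ j ≤ f := by rw [bas] at hf; omega
  rw [hf, Nat.add_sub_cancel] at hVc
  have hW2 : 2 * W < 2 ^ (2 * W) := Nat.lt_two_pow_self
  have ha4 : (4 : ℝ) ≤ 2 ^ j / 64 := by
    have : ((256 : ℕ) : ℝ) ≤ ((2 ^ j : ℕ) : ℝ) := by exact_mod_cast (by omega : 256 ≤ 2 ^ j)
    push_cast at this; linarith
  have hτy : (2 : ℝ) ^ τ ≤ 2 ^ (y + 5) := pow_le_pow_right₀ (by norm_num) (by omega)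
  have ht0 : (0 : ℝ) < 2 ^ τ := by positivity
  obtain ⟨m, hm1, hm2⟩ : ∃ m : ℕ, (2 : ℝ) ^ j / 64 * 2 ^ (y + 5) ≤ m * 2 ^ τ ∧
      (m : ℝ) ≤ 2 ^ j * 2 ^ y / 2 ^ τ := by
    refine ⟨⌈(2 : ℝ) ^ j / 64 * 2 ^ (y + 5) / 2 ^ τ⌉₊, ?_, ?_⟩
    · rw [← div_le_iff₀ ht0]; exact Nat.le_ceil _
    · refine (Nat.ceil_lt_add_one (by positivity)).le.trans ?_
      have a1 : (1 : ℝ) ≤ 2 ^ j / 64 * 2 ^ (y + 5) / 2 ^ τ := by
        rw [le_div_iff₀ ht0]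
        have := mul_le_mul ha4 hτy ht0.le (by positivity)
        linarith
      have a2 : (2 : ℝ) ^ j * 2 ^ y / 2 ^ τ = 2 * (2 ^ j / 64 * 2 ^ (y + 5) / 2 ^ τ) := by
        rw [pow_add]; ring
      linarith
  have base := objB_base h.ok (by have := h.t1; omega) c1
    (by have := p1 (by omega : 2 * W ≤ y); have := h.top; omega) h.ne h.hS
    (fun i hi => lt_of_lt_of_le h.small (h.hF i hi).1) (σ := 2 ^ j / 64) (m := m)
    (fun i hi => le_trans (by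
      have : (P i : ℝ) ≤ 2 ^ (y + 5) := by exact_mod_cast (h.hF i hi).2
      gcongr) hm1) hVo
  have hx : (2 : ℝ) ^ y = 2 ^ f * 2 ^ 264 := by rw [← pow_add]; congr 1; omega
  have l1 : lB C.D L ≤ 4 * 2 ^ (2 * W) := lB_le c2 (by omega)
  have l2 : (m : ℝ) * lB C.D L ≤ 2 ^ f := by
    have a1 : (2 : ℝ) ^ j * 2 ^ 264 * (4 * 2 ^ (2 * W)) ≤ 2 ^ τ := by
      rw [show (4 : ℝ) = 2 ^ 2 by norm_num, ← pow_add, ← pow_add, ← pow_add]
      exact pow_le_pow_right₀ (by norm_num) (by omega)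
    have := lB_nonneg C.D L
    calc _ ≤ (2 : ℝ) ^ j * 2 ^ y / 2 ^ τ * (4 * 2 ^ (2 * W)) := by gcongr
      _ = 2 ^ f * (2 ^ j * 2 ^ 264 * (4 * 2 ^ (2 * W)) / 2 ^ τ) := by rw [hx]; ring
      _ ≤ 2 ^ f * 1 := by gcongr; exact (div_le_one ht0).2 a1
      _ = _ := mul_one _
  have l3 : (m : ℝ) * (C.mu τ).E (C.kl τ) ≤ 2 ^ f := by
    have := E_kl_nonneg h.ok (by have := h.t1; omega : τ ≤ C.tt)
    calc _ ≤ (2 : ℝ) ^ j * 2 ^ y / 2 ^ τ * (C.mu τ).E (C.kl τ) := by gcongr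
      _ = 2 ^ j * 2 ^ y * ((C.mu τ).E (C.kl τ) / 2 ^ τ) := by ring
      _ ≤ 2 ^ j * 2 ^ y * (1 / 2 ^ 264 / (3 * 2 ^ j)) := by gcongr
      _ = 2 ^ f / 3 := by rw [hx]; field_simp
      _ ≤ _ := div_le_self (by positivity) (by norm_num)
  have ind : ∀ i ≤ 10, ∃ L, L ≤ 2 ^ (f + 24 * i) + 1 ∧
      C.Obj Fam L (Real.exp (-(2 ^ i * (2 ^ j / 64)))) (2 ^ i * (2 ^ j / 64) * (-1 / 4 + i / 512))
        (32 * 2 ^ (f + 24 * i)) := by
    intro i hi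
    induction i with
    | zero =>
      refine ⟨L, by have := p1 (by omega : 2 * W ≤ f + 24 * 0); omega, ?_⟩
      simp only [pow_zero, one_mul, mul_zero, add_zero, Nat.cast_zero, zero_div]
      refine base.mono ?_ ?_
      · have := Real.log_two_lt_d9
        linarith
      · have : (0 : ℝ) < 2 ^ f := by positivity
        rw [mul_add]; linarith
    | succ i ih =>
      obtain ⟨L', d1, d2⟩ := ih (by omega)
      have d3 := h.stepB (i := i) (f := f + 24 * i) (by omega) (by omega) d1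
        (le_mul_of_one_le_left (by positivity) (one_le_pow₀ (by norm_num))) d2
      refine ⟨_, le_rfl, ?_⟩
      rw [pow_succ' 2 i, mul_assoc 2]
      refine d3.mono (le_of_eq ?_) le_rfl
      push_cast; ring
  obtain ⟨L', d1, d2⟩ := ind 10 le_rfl
  have d3 := d2.final h.ne (by have := p1 (by omega : f + 24 * 10 ≤ y); have := h.top; omega)
    (Real.exp_pos _).le h.log_le
  push_cast at d3
  linarith

end Cfg

end Vale.Agent.P015
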