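import Mathlib

namespace Vale.Agent.P015

open Finset

def det2 (u v : ℤ × ℤ) : ℤ := u.1 * v.2 - u.2 * v.1

def dot2 (u v : ℤ × ℤ) : ℤ := u.1 * v.1 + u.2 * v.2

/-- Sup norm at most `R`. -/
def Sm (R : ℤ) (v : ℤ × ℤ) : Prop := |v.1| ≤ R ∧ |v.2| ≤ R

noncomputable def Box (R : ℤ) : Finset (ℤ × ℤ) := Icc (-R) R ×ˢ Icc (-R) R

theorem mem_Box {R : ℤ} {v : ℤ × ℤ} : v ∈ Box R ↔ Sm R v := by
  simp [Box, Sm, abs_le]

theorem card_Box (R : ℕ) : (Box R).card = (2 * R + 1) ^ 2 := by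
  have : ((R : ℤ) + 1 - -(R : ℤ)).toNat = 2 * R + 1 := by omega
  simp only [Box, card_product, Int.card_Icc, this]; ring

theorem Box_nonempty (R : ℕ) : (Box R).Nonempty := ⟨0, by simp [mem_Box, Sm]⟩

theorem Sm.mono {R R' : ℤ} {v : ℤ × ℤ} (h : Sm R v) (hR : R ≤ R') : Sm R' v :=
  ⟨h.1.trans hR, h.2.trans hR⟩

theorem Sm.add {R R' : ℤ} {v w : ℤ × ℤ} (h : Sm R v) (h' : Sm R' w) : Sm (R + R') (v + w) := by
  obtain ⟨h1, h2⟩ := h
  obtain ⟨h3, h4⟩ := h'
  simp only [Sm, Prod.fst_add, Prod.snd_add, abs_le] at *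
  omega

theorem Sm.neg {R : ℤ} {v : ℤ × ℤ} (h : Sm R v) : Sm R (-v) := by
  simpa [Sm] using h

theorem Sm.zero {R : ℤ} (h : 0 ≤ R) : Sm R 0 := by simp [Sm, h]

theorem Sm_path {D : ℤ} {z : ℕ → ℤ × ℤ} (hz : ∀ n, Sm D (z (n + 1) - z n)) (a j : ℕ) :
    Sm (D * j) (z (a + j) - z a) := by
  induction j with
  | zero => simp [Sm]
  | succ j ih =>
    have := (hz (a + j)).add ih
    have e : z (a + j + 1) - z (a + j) + (z (a + j) - z a) = z (a + (j + 1)) - z a := by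
      rw [← add_assoc]; abel
    rw [e] at this
    refine this.mono (le_of_eq ?_)
    push_cast; ring

def ind (x a : ℤ) : ℤ := if x < a then 1 else 0

def flux (A : ℕ → ℤ × ℤ) (N : ℕ) (q : ℤ × ℤ) : ℤ :=
  ∑ i ∈ range N, (ind q.1 (A (i + 1)).1 - ind q.1 (A i).1) * ind q.2 (A i).2

theorem flux_step {D : ℤ} {a a' q q' : ℤ × ℤ} (ha : Sm D (a' - a)) (hq : Sm D (q' - q))
    (hfar : ¬ Sm (2 * D) (a - q)) :
    (ind q.1 a'.1 - ind q.1 a.1) * ind q.2 a.2 - (ind q'.1 a'.1 - ind q'.1 a.1) * ind q'.2 a.2 =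
      (ind q.1 a'.1 - ind q'.1 a'.1) * ind q.2 a'.2 - (ind q.1 a.1 - ind q'.1 a.1) * ind q.2 a.2 := by
  simp only [Sm, Prod.fst_sub, Prod.snd_sub, abs_le, not_and_or, not_le] at ha hq hfar
  unfold ind
  split_ifs <;> omega

theorem crossing {D : ℤ} {A B : ℕ → ℤ × ℤ} {N N' : ℕ}
    (hA : ∀ i, Sm D (A (i + 1) - A i)) (hB : ∀ j, Sm D (B (j + 1) - B j))
    (hcol : ∀ j ≤ N', (A 0).1 ≤ (B j).1 ∧ (B j).1 < (A N).1)
    (hlo : ∀ i, |(A i).1 - (B 0).1| ≤ D → (B 0).2 < (A i).2)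
    (hhi : ∀ i, |(A i).1 - (B N').1| ≤ D → (A i).2 ≤ (B N').2) :
    ∃ i j, Sm (2 * D) (A i - B j) := by
  by_contra hcon
  push Not at hcon
  have hstep : ∀ j, j + 1 ≤ N' → flux A N (B j) = flux A N (B (j + 1)) := by
    intro j hj
    rw [← sub_eq_zero, flux, flux, ← sum_sub_distrib]
    rw [sum_congr rfl fun i _ => flux_step (hA i) (hB j) (hcon i j)]
    rw [sum_range_sub (fun i => (ind (B j).1 (A i).1 - ind (B (j + 1)).1 (A i).1) *
      ind (B j).2 (A i).2)]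
    have h1 := hcol j (by omega)
    have h2 := hcol (j + 1) hj
    simp only [ind, h1.2, h2.2, not_lt.2 h1.1, not_lt.2 h2.1, if_true, if_false]
    simp
  have hall : ∀ j ≤ N', flux A N (B j) = flux A N (B 0) := by
    intro j hj
    induction j with
    | zero => rfl
    | succ j ih => rw [← hstep j hj, ih (by omega)]
  have h0 : flux A N (B 0) = 1 := by
    have : flux A N (B 0) = ∑ i ∈ range N, (ind (B 0).1 (A (i + 1)).1 - ind (B 0).1 (A i).1) := by
      refine sum_congr rfl fun i _ => ?_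
      have h1 := hlo i
      have h2 := hA i
      simp only [Sm, Prod.fst_sub, Prod.snd_sub, abs_le] at h1 h2
      unfold ind
      split_ifs <;> omega
    rw [this, sum_range_sub (fun i => ind (B 0).1 (A i).1)]
    have h1 := hcol 0 (Nat.zero_le _)
    simp [ind, h1.2, not_lt.2 h1.1]
  have h1 : flux A N (B N') = 0 := by
    refine sum_eq_zero fun i _ => ?_
    have h1 := hhi i
    have h2 := hA i
    simp only [Sm, Prod.fst_sub, Prod.snd_sub, abs_le] at h1 h2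
    unfold ind
    split_ifs <;> omega
  have := hall N' le_rfl
  omega

/-- An arc inside `W` with bounded steps and displacement `v`. -/
def Arc (D : ℤ) (W : Finset (ℤ × ℤ)) (v : ℤ × ℤ) : Prop :=
  ∃ (M : ℕ) (α : ℕ → ℤ × ℤ), (∀ i ≤ M, α i ∈ W) ∧ (∀ i < M, Sm D (α (i + 1) - α i)) ∧
    α M = α 0 + v

theorem Arc.neg {D : ℤ} {W : Finset (ℤ × ℤ)} {v : ℤ × ℤ} (h : Arc D W v) : Arc D W (-v) := by
  obtain ⟨M, α, h1, h2, h3⟩ := h
  refine ⟨M, fun i => α (M - i), fun i _ => h1 _ (by omega), fun i hi => ?_, ?_⟩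
  · have := (h2 (M - (i + 1)) (by omega)).neg
    have e : M - (i + 1) + 1 = M - i := by omega
    rw [e, neg_sub] at this
    exact this
  · simp [h3]

theorem Arc.ext {D : ℤ} {W : Finset (ℤ × ℤ)} {v : ℤ × ℤ} (h : Arc D W v) (hv : v ≠ 0) :
    ∃ (M : ℕ) (A : ℕ → ℤ × ℤ), (∀ i, Sm D (A (i + 1) - A i)) ∧
      (∀ i, ∃ w ∈ W, ∃ m : ℤ, A i = w + m • v) ∧ ∀ n : ℕ, A (n * M) = A 0 + (n : ℤ) • v := by
  obtain ⟨M, α, h1, h2, h3⟩ := h
  have hM : 0 < M := by
    rcases Nat.eq_zero_or_pos M with rfl | hM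
    · exact absurd (by simpa using h3) hv
    · exact hM
  refine ⟨M, fun i => α (i % M) + ((i / M : ℕ) : ℤ) • v, fun i => ?_, fun i =>
    ⟨_, h1 _ (Nat.mod_lt _ hM).le, _, rfl⟩, fun n => ?_⟩
  · have hlt := Nat.mod_lt i hM
    by_cases hc : i % M + 1 < M
    · have e1 : (i + 1) % M = i % M + 1 := by
        rw [Nat.add_mod, Nat.mod_eq_of_lt (show 1 < M by omega), Nat.mod_eq_of_lt hc]
      have e2 : (i + 1) / M = i / M := by
        have := Nat.div_add_mod i M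
        have := Nat.div_add_mod (i + 1) M
        apply Nat.eq_of_mul_eq_mul_left hM
        omega
      simp only [e1, e2, add_sub_add_right_eq_sub]
      exact h2 _ (by omega)
    · have e0 : i % M + 1 = M := by omega
      have e3 : i + 1 = M * (i / M + 1) := by
        have := Nat.div_add_mod i M
        rw [mul_add]; omega
      have e1 : (i + 1) % M = 0 := by rw [e3]; simp
      have e2 : (i + 1) / M = i / M + 1 := by rw [e3, Nat.mul_div_cancel_left _ hM]
      have := h2 (i % M) (by omega)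
      rw [e0, h3] at this
      simp only [e1, e2]
      have e4 : α 0 + ((i / M + 1 : ℕ) : ℤ) • v - (α (i % M) + ((i / M : ℕ) : ℤ) • v) =
          α 0 + v - α (i % M) := by
        push_cast; rw [add_smul, one_smul]; abel
      rw [e4]; exact this
  · simp [Nat.mul_div_cancel _ hM]

/-- The differences of `W` are dense modulo the lattice spanned by `u, v`. -/
def Cov (D : ℤ) (W : Finset (ℤ × ℤ)) (u v : ℤ × ℤ) : Prop :=
  ∀ x : ℤ × ℤ, ∃ a ∈ W, ∃ b ∈ W, ∃ m n : ℤ, Sm (2 * D) (a - b + m • u + n • v - x)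

theorem exists_bound (W : Finset (ℤ × ℤ)) (f : ℤ × ℤ → ℤ) : ∃ C : ℕ, ∀ w ∈ W, |f w| ≤ C := by
  obtain ⟨C, hC⟩ := (W.image (fun w => (f w).natAbs)).exists_le
  refine ⟨C, fun w hw => ?_⟩
  have := hC _ (mem_image_of_mem _ hw)
  rw [← Int.natCast_natAbs]; exact_mod_cast this

theorem cov_main {D : ℤ} (hD : 0 ≤ D) {W : Finset (ℤ × ℤ)} {u v : ℤ × ℤ} (hu : Arc D W u)
    (hv : Arc D W v) (h1 : 0 < u.1) (hdet : 0 < det2 u v) : Cov D W u v := by
  intro x
  have hu0 : u ≠ 0 := by rintro rfl; simp at h1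
  have hv0 : v ≠ 0 := by rintro rfl; simp [det2] at hdet
  obtain ⟨M, A, hA1, hA2, hA3⟩ := hu.ext hu0
  obtain ⟨M', B, hB1, hB2, hB3⟩ := hv.ext hv0
  obtain ⟨C, hC⟩ := exists_bound W (det2 u)
  set K : ℕ := C + (|u.2| * D).toNat + (det2 u (B 0 + x)).natAbs + 1 with hK
  let B' : ℕ → ℤ × ℤ := fun j => B j - (K : ℤ) • v + x
  obtain ⟨C', hC'⟩ := exists_bound ((range (2 * K * M' + 1)).image B') (fun w => w.1 - (A 0).1)
  let A' : ℕ → ℤ × ℤ := fun i => A i - ((C' + 1 : ℕ) : ℤ) • u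
  have hdA : ∀ i, |det2 u (A' i)| ≤ C := by
    intro i
    obtain ⟨w, hw, m, hm⟩ := hA2 i
    have : det2 u (A' i) = det2 u w := by
      simp only [A', hm, det2, Prod.fst_sub, Prod.snd_sub, Prod.fst_add, Prod.snd_add,
        Prod.smul_fst, Prod.smul_snd, smul_eq_mul]; ring
    rw [this]; exact hC w hw
  have hKK : (K : ℤ) = C + |u.2| * D + |det2 u (B 0 + x)| + 1 := by
    rw [hK]; push_cast
    rw [Int.toNat_of_nonneg (by positivity)]
  have hside : ∀ (a q : ℤ × ℤ), |a.1 - q.1| ≤ D →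
      |det2 u a - det2 u q - u.1 * (a.2 - q.2)| ≤ |u.2| * D := by
    intro a q h
    have : det2 u a - det2 u q - u.1 * (a.2 - q.2) = -(u.2 * (a.1 - q.1)) := by
      simp only [det2]; ring
    rw [this, abs_neg, abs_mul]
    exact mul_le_mul_of_nonneg_left h (abs_nonneg _)
  have hcr := crossing (D := D) (A := A') (B := B') (N := 2 * (C' + 1) * M) (N' := 2 * K * M')
    (fun i => by simpa [A'] using hA1 i) (fun j => by simpa [B'] using hB1 j) ?_ ?_ ?_
  · obtain ⟨i, j, hij⟩ := hcr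
    obtain ⟨a, ha, m, hm⟩ := hA2 i
    obtain ⟨b, hb, n, hn⟩ := hB2 j
    refine ⟨a, ha, b, hb, m - ((C' + 1 : ℕ) : ℤ), K - n, ?_⟩
    have : a - b + (m - ((C' + 1 : ℕ) : ℤ)) • u + ((K : ℤ) - n) • v - x = A' i - B' j := by
      simp only [A', B', hm, hn, sub_smul]; abel
    rw [this]; exact hij
  · intro j hj
    have h2 := hC' _ (mem_image_of_mem B' (mem_range.2 (Nat.lt_succ_of_le hj)))
    have h3 := hA3 (2 * (C' + 1))
    simp only [A', h3, Prod.fst_sub, Prod.fst_add, Prod.smul_fst, smul_eq_mul]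
    rw [abs_le] at h2
    push_cast
    constructor <;> nlinarith
  · intro i hi
    have h2 := hside (A' i) (B' 0) hi
    have h3 := hdA i
    have h4 : det2 u (B' 0) = det2 u (B 0 + x) - K * det2 u v := by
      simp only [B', det2, Prod.fst_sub, Prod.snd_sub, Prod.fst_add, Prod.snd_add,
        Prod.smul_fst, Prod.smul_snd, smul_eq_mul]; ring
    rw [abs_le] at h2 h3
    have h5 := le_abs_self (det2 u (B 0 + x))
    have h6 : (K : ℤ) ≤ K * det2 u v := le_mul_of_one_le_right (by positivity) hdet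
    have : 0 < u.1 * ((A' i).2 - (B' 0).2) := by linarith
    have := (mul_pos_iff_of_pos_left h1).1 this
    linarith
  · intro i hi
    have h2 := hside (A' i) (B' (2 * K * M')) hi
    have h3 := hdA i
    have h4 : det2 u (B' (2 * K * M')) = det2 u (B 0 + x) + K * det2 u v := by
      simp only [B', hB3 (2 * K), det2, Prod.fst_sub, Prod.snd_sub, Prod.fst_add, Prod.snd_add,
        Prod.smul_fst, Prod.smul_snd, smul_eq_mul]; push_cast; ring
    rw [abs_le] at h2 h3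
    have h5 := neg_abs_le (det2 u (B 0 + x))
    have h6 : (K : ℤ) ≤ K * det2 u v := le_mul_of_one_le_right (by positivity) hdet
    have h7 : u.1 * ((A' i).2 - (B' (2 * K * M')).2) < 0 := by linarith
    by_contra hc
    have : 0 < u.1 * ((A' i).2 - (B' (2 * K * M')).2) := mul_pos h1 (by linarith)
    linarith

theorem Cov.of_neg_left {D : ℤ} {W : Finset (ℤ × ℤ)} {u v : ℤ × ℤ} (h : Cov D W (-u) v) :
    Cov D W u v := by
  intro x
  obtain ⟨a, ha, b, hb, m, n, h⟩ := h x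
  exact ⟨a, ha, b, hb, -m, n, by simpa using h⟩

theorem Cov.of_neg_right {D : ℤ} {W : Finset (ℤ × ℤ)} {u v : ℤ × ℤ} (h : Cov D W u (-v)) :
    Cov D W u v := by
  intro x
  obtain ⟨a, ha, b, hb, m, n, h⟩ := h x
  exact ⟨a, ha, b, hb, m, -n, by simpa using h⟩

theorem Cov.symm {D : ℤ} {W : Finset (ℤ × ℤ)} {u v : ℤ × ℤ} (h : Cov D W u v) :
    Cov D W v u := by
  intro x
  obtain ⟨a, ha, b, hb, m, n, h⟩ := h x
  refine ⟨a, ha, b, hb, n, m, ?_⟩
  have : a - b + n • v + m • u - x = a - b + m • u + n • v - x := by abel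
  rw [this]; exact h

theorem cov_of_pos {D : ℤ} (hD : 0 ≤ D) {W : Finset (ℤ × ℤ)} {u v : ℤ × ℤ} (hu : Arc D W u)
    (hv : Arc D W v) (h1 : 0 < u.1) (hdet : det2 u v ≠ 0) : Cov D W u v := by
  rcases lt_or_gt_of_ne hdet with h | h
  · refine (cov_main hD hu hv.neg h1 ?_).of_neg_right
    simp only [det2, Prod.fst_neg, Prod.snd_neg] at h ⊢; linarith
  · exact cov_main hD hu hv h1 h

theorem cov_of_ne {D : ℤ} (hD : 0 ≤ D) {W : Finset (ℤ × ℤ)} {u v : ℤ × ℤ} (hu : Arc D W u)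
    (hv : Arc D W v) (h1 : u.1 ≠ 0) (hdet : det2 u v ≠ 0) : Cov D W u v := by
  rcases lt_or_gt_of_ne h1 with h | h
  · refine (cov_of_pos hD hu.neg hv (by simpa using h) ?_).of_neg_left
    simp only [det2, Prod.fst_neg, Prod.snd_neg] at hdet ⊢
    intro h; apply hdet; linarith
  · exact cov_of_pos hD hu hv h hdet

theorem cov_of_arcs {D : ℤ} (hD : 0 ≤ D) {W : Finset (ℤ × ℤ)} {u v : ℤ × ℤ} (hu : Arc D W u)
    (hv : Arc D W v) (hdet : det2 u v ≠ 0) : Cov D W u v := by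
  by_cases h1 : u.1 = 0
  · refine (cov_of_ne hD hv hu ?_ ?_).symm
    · intro h; apply hdet; simp [det2, h1, h]
    · simp only [det2] at hdet ⊢
      intro h; apply hdet; linarith
  · exact cov_of_ne hD hu hv h1 hdet

theorem natAbs_det_le_card {u v : ℤ × ℤ} (hdet : det2 u v ≠ 0) (S : Finset (ℤ × ℤ))
    (hS : ∀ x : ℤ × ℤ, ∃ s ∈ S, ∃ m n : ℤ, x = s + m • u + n • v) :
    (det2 u v).natAbs ≤ S.card := by
  let T : (ℤ × ℤ) →ₗ[ℤ] (ℤ × ℤ) :=
    (LinearMap.toSpanSingleton ℤ _ u).coprod (LinearMap.toSpanSingleton ℤ _ v)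
  have hT : ∀ p : ℤ × ℤ, T p = p.1 • u + p.2 • v := fun p => by simp [T]
  have hinj : Function.Injective T := by
    rw [injective_iff_map_eq_zero]
    intro p hp
    rw [hT] at hp
    have e1 := congrArg Prod.fst hp
    have e2 := congrArg Prod.snd hp
    simp only [Prod.fst_add, Prod.snd_add, Prod.smul_fst, Prod.smul_snd, smul_eq_mul,
      Prod.fst_zero, Prod.snd_zero] at e1 e2
    have h1 : p.1 * det2 u v = 0 := by
      simp only [det2]; linear_combination v.2 * e1 - v.1 * e2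
    have h2 : p.2 * det2 u v = 0 := by
      simp only [det2]; linear_combination u.1 * e2 - u.2 * e1
    ext
    · exact (mul_eq_zero.1 h1).resolve_right hdet
    · exact (mul_eq_zero.1 h2).resolve_right hdet
  have key := Submodule.natAbs_det_equiv (LinearMap.range T) (LinearEquiv.ofInjective T hinj)
  have e : (LinearMap.range T).subtype ∘ₗ AddMonoidHom.toIntLinearMap
      ((LinearEquiv.ofInjective T hinj : (ℤ × ℤ) →+ LinearMap.range T)) = T := by
    ext <;> simp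
  rw [e] at key
  have hd : LinearMap.det T = det2 u v := by
    rw [← LinearMap.det_toMatrix (Module.Basis.finTwoProd ℤ), Matrix.det_fin_two]
    simp [LinearMap.toMatrix_apply, hT, det2]; ring
  rw [hd] at key
  rw [key]
  have hsurj : Function.Surjective
      (fun s : S => (Submodule.Quotient.mk (s : ℤ × ℤ) : (ℤ × ℤ) ⧸ LinearMap.range T)) := by
    intro q
    obtain ⟨x, rfl⟩ := Submodule.Quotient.mk_surjective _ q
    obtain ⟨s, hs, m, n, h⟩ := hS x
    refine ⟨⟨s, hs⟩, ?_⟩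
    rw [Submodule.Quotient.eq]
    refine ⟨(-m, -n), ?_⟩
    rw [hT, h]; simp only [neg_smul]; abel
  have := Nat.card_le_card_of_surjective _ hsurj
  simpa using this

theorem det_le_card_diff {D : ℕ} {W Dd : Finset (ℤ × ℤ)} (hW : ∀ a ∈ W, ∀ b ∈ W, a - b ∈ Dd)
    {u v : ℤ × ℤ} (hu : Arc D W u) (hv : Arc D W v) :
    (det2 u v).natAbs ≤ Dd.card * (4 * D + 1) ^ 2 := by
  classical
  by_cases hdet : det2 u v = 0
  · simp [hdet]
  have hc := cov_of_arcs (by positivity) hu hv hdet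
  have h1 := natAbs_det_le_card hdet
    ((Dd ×ˢ Box ((2 * D : ℕ) : ℤ)).image (fun p => p.1 - p.2)) ?_
  · refine h1.trans (card_image_le.trans (le_of_eq ?_))
    rw [card_product, card_Box]; ring
  · intro x
    obtain ⟨a, ha, b, hb, m, n, h⟩ := hc x
    refine ⟨_, mem_image_of_mem _ (mem_product.2 ⟨hW a ha b hb,
      (mem_Box.2 (by push_cast; exact h) :
        a - b + m • u + n • v - x ∈ Box ((2 * D : ℕ) : ℤ))⟩ :
        (a - b, a - b + m • u + n • v - x) ∈ _), m, n, ?_⟩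
    simp only; abel

end Vale.Agent.P015
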