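import Mathlib

namespace Vale.Agent.P015

open Finset

/-- Expectation functionals. -/
structure Ex (α : Type) where
  lin : (α → ℝ) →ₗ[ℝ] ℝ
  pos : ∀ f, (∀ x, 0 ≤ f x) → 0 ≤ lin f
  one : lin (fun _ => 1) = 1

namespace Ex

variable {α β γ : Type}

def E (μ : Ex α) (f : α → ℝ) : ℝ := μ.lin f

theorem E_add (μ : Ex α) (f g : α → ℝ) : μ.E (fun x => f x + g x) = μ.E f + μ.E g :=
  μ.lin.map_add f g

theorem E_sub (μ : Ex α) (f g : α → ℝ) : μ.E (fun x => f x - g x) = μ.E f - μ.E g :=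
  μ.lin.map_sub f g

theorem E_neg (μ : Ex α) (f : α → ℝ) : μ.E (fun x => - f x) = - μ.E f :=
  μ.lin.map_neg f

theorem E_const_mul (μ : Ex α) (c : ℝ) (f : α → ℝ) : μ.E (fun x => c * f x) = c * μ.E f :=
  μ.lin.map_smul c f

theorem E_mul_const (μ : Ex α) (c : ℝ) (f : α → ℝ) : μ.E (fun x => f x * c) = μ.E f * c := by
  rw [mul_comm, ← E_const_mul]; simp only [mul_comm]

theorem E_div_const (μ : Ex α) (c : ℝ) (f : α → ℝ) : μ.E (fun x => f x / c) = μ.E f / c := by
  simp only [div_eq_mul_inv]; exact E_mul_const _ _ _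

theorem E_const (μ : Ex α) (c : ℝ) : μ.E (fun _ => c) = c := by
  have h := μ.E_const_mul c (fun _ => 1)
  have h1 : μ.E (fun _ => 1) = 1 := μ.one
  simp only [mul_one, h1] at h
  exact h

theorem E_sum {ι : Type} (μ : Ex α) (s : Finset ι) (f : ι → α → ℝ) :
    μ.E (fun x => ∑ i ∈ s, f i x) = ∑ i ∈ s, μ.E (f i) := by
  have : (fun x => ∑ i ∈ s, f i x) = ∑ i ∈ s, f i := by
    funext x; simp [Finset.sum_apply]
  rw [this]; exact map_sum μ.lin f s

theorem E_nonneg (μ : Ex α) {f : α → ℝ} (h : ∀ x, 0 ≤ f x) : 0 ≤ μ.E f := μ.pos f h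

theorem E_mono (μ : Ex α) {f g : α → ℝ} (h : ∀ x, f x ≤ g x) : μ.E f ≤ μ.E g := by
  have := μ.E_nonneg (f := fun x => g x - f x) (fun x => sub_nonneg.2 (h x))
  rw [E_sub] at this; linarith

def pure (a : α) : Ex α where
  lin := LinearMap.proj a
  pos _ h := h a
  one := rfl

def bind (μ : Ex α) (k : α → Ex β) : Ex β where
  lin := μ.lin ∘ₗ LinearMap.pi (fun a => (k a).lin)
  pos f h := μ.pos _ (fun a => (k a).pos f h)
  one := by
    have : (LinearMap.pi (fun a => (k a).lin)) (fun _ => (1 : ℝ)) = fun _ => 1 := by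
      funext a; exact (k a).one
    rw [LinearMap.comp_apply, this]; exact μ.one

def map (g : α → β) (μ : Ex α) : Ex β := μ.bind (fun a => pure (g a))

@[simp] theorem E_pure (a : α) (f : α → ℝ) : (pure a).E f = f a := rfl

@[simp] theorem E_bind (μ : Ex α) (k : α → Ex β) (f : β → ℝ) :
    (μ.bind k).E f = μ.E (fun a => (k a).E f) := rfl

@[simp] theorem E_map (g : α → β) (μ : Ex α) (f : β → ℝ) :
    (μ.map g).E f = μ.E (fun a => f (g a)) := rfl

noncomputable def unif (s : Finset α) (hs : s.Nonempty) : Ex α where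
  lin := ((s.card : ℝ)⁻¹) • ∑ x ∈ s, (LinearMap.proj x : (α → ℝ) →ₗ[ℝ] ℝ)
  pos f h := by
    simp only [LinearMap.smul_apply, LinearMap.coe_sum, Finset.sum_apply, LinearMap.proj_apply,
      smul_eq_mul]
    exact mul_nonneg (by positivity) (sum_nonneg fun x _ => h x)
  one := by
    have : (s.card : ℝ) ≠ 0 := by exact_mod_cast hs.card_pos.ne'
    simp [this]

theorem E_unif (s : Finset α) (hs : s.Nonempty) (f : α → ℝ) :
    (unif s hs).E f = (∑ x ∈ s, f x) / s.card := by
  simp [E, unif, div_eq_inv_mul]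

/-- The fair mixture of two laws. -/
noncomputable def half (μ ν : Ex α) : Ex α where
  lin := (1 / 2 : ℝ) • (μ.lin + ν.lin)
  pos f h := by
    simp only [LinearMap.smul_apply, LinearMap.add_apply, smul_eq_mul]
    have := μ.pos f h; have := ν.pos f h; positivity
  one := by
    simp only [LinearMap.smul_apply, LinearMap.add_apply, smul_eq_mul, μ.one, ν.one]; norm_num

@[simp] theorem E_half (μ ν : Ex α) (f : α → ℝ) : (half μ ν).E f = (μ.E f + ν.E f) / 2 := by
  simp only [E, half, LinearMap.smul_apply, LinearMap.add_apply, smul_eq_mul]; ring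

/-- Almost sure statements. -/
def AS (μ : Ex α) (A : α → Prop) : Prop := ∀ f : α → ℝ, (∀ x, A x → 0 ≤ f x) → 0 ≤ μ.E f

theorem AS.of_forall (μ : Ex α) {A : α → Prop} (h : ∀ x, A x) : μ.AS A :=
  fun _ hf => μ.E_nonneg fun x => hf x (h x)

theorem AS.mono {μ : Ex α} {A B : α → Prop} (h : μ.AS A) (hAB : ∀ x, A x → B x) : μ.AS B :=
  fun f hf => h f fun x hx => hf x (hAB x hx)

theorem AS.E_le {μ : Ex α} {A : α → Prop} (h : μ.AS A) {f g : α → ℝ}
    (hfg : ∀ x, A x → f x ≤ g x) : μ.E f ≤ μ.E g := by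
  have := h (fun x => g x - f x) (fun x hx => sub_nonneg.2 (hfg x hx))
  rw [E_sub] at this; linarith

theorem AS.E_eq {μ : Ex α} {A : α → Prop} (h : μ.AS A) {f g : α → ℝ}
    (hfg : ∀ x, A x → f x = g x) : μ.E f = μ.E g :=
  le_antisymm (h.E_le fun x hx => (hfg x hx).le) (h.E_le fun x hx => (hfg x hx).ge)

theorem AS.and {μ : Ex α} {A B : α → Prop} (hA : μ.AS A) (hB : μ.AS B) :
    μ.AS (fun x => A x ∧ B x) := by
  classical
  intro f hf
  have h1 : μ.E f = μ.E (fun x => if A x then f x else 0) :=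
    hA.E_eq fun x hx => by simp [hx]
  rw [h1]
  refine hB _ fun x hx => ?_
  split_ifs with h
  · exact hf x ⟨h, hx⟩
  · exact le_rfl

theorem AS.bind {μ : Ex α} {k : α → Ex β} {A : α → Prop} {B : β → Prop} (h : μ.AS A)
    (hk : ∀ a, A a → (k a).AS B) : (μ.bind k).AS B :=
  fun f hf => h _ fun a ha => hk a ha f hf

theorem AS.bind' {μ : Ex α} {k : α → Ex β} {B : β → Prop}
    (hk : ∀ a, (k a).AS B) : (μ.bind k).AS B :=
  AS.bind (AS.of_forall μ (A := fun _ => True) fun _ => trivial) fun a _ => hk a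

theorem AS.pure {a : α} {A : α → Prop} (h : A a) : (pure a).AS A := fun _ hf => hf a h

theorem AS.map {μ : Ex α} {g : α → β} {B : β → Prop} (h : μ.AS (fun x => B (g x))) :
    (μ.map g).AS B :=
  fun _ hf => h _ fun _ ha => hf _ ha

theorem AS.unif {s : Finset α} (hs : s.Nonempty) : (unif s hs).AS (fun x => x ∈ s) := by
  intro f hf
  rw [E_unif]
  exact div_nonneg (sum_nonneg hf) (by positivity)

theorem AS.half {μ ν : Ex α} {A : α → Prop} (h1 : μ.AS A) (h2 : ν.AS A) : (half μ ν).AS A := by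
  intro f hf
  rw [E_half]
  have := h1 f hf; have := h2 f hf; positivity

theorem AS.forall_finset {ι : Type} {μ : Ex α} (s : Finset ι) {A : ι → α → Prop}
    (h : ∀ i ∈ s, μ.AS (A i)) : μ.AS (fun x => ∀ i ∈ s, A i x) := by
  classical
  induction s using Finset.induction_on with
  | empty => exact AS.of_forall μ (by simp)
  | insert a s ha ih =>
    refine ((h a (mem_insert_self _ _)).and (ih fun i hi => h i (mem_insert_of_mem hi))).mono ?_
    intro x hx i hi
    rcases mem_insert.1 hi with rfl | hi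
    · exact hx.1
    · exact hx.2 i hi

theorem exp_E_le (μ : Ex α) (f : α → ℝ) : Real.exp (μ.E f) ≤ μ.E (fun x => Real.exp (f x)) := by
  set m := μ.E f with hm
  have h : ∀ x, Real.exp m * (1 + (f x - m)) ≤ Real.exp (f x) := by
    intro x
    have := Real.add_one_le_exp (f x - m)
    calc Real.exp m * (1 + (f x - m)) ≤ Real.exp m * Real.exp (f x - m) := by
          gcongr; linarith
      _ = Real.exp (f x) := by rw [← Real.exp_add]; congr 1; ring
  have h2 := μ.E_mono h
  rw [E_const_mul, E_add, E_sub, E_const, E_const] at h2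
  simpa [← hm] using h2

theorem E_exp_pos (μ : Ex α) (f : α → ℝ) : 0 < μ.E (fun x => Real.exp (f x)) :=
  lt_of_lt_of_le (Real.exp_pos _) (μ.exp_E_le f)

theorem E_le_log_E_exp (μ : Ex α) (f : α → ℝ) :
    μ.E f ≤ Real.log (μ.E (fun x => Real.exp (f x))) := by
  rw [Real.le_log_iff_exp_le (μ.E_exp_pos f)]; exact μ.exp_E_le f

theorem AS.E_pos {μ : Ex α} {w : α → ℝ} (h : μ.AS (fun x => 0 < w x)) : 0 < μ.E w := by
  have h1 : μ.E w = μ.E (fun x => Real.exp (Real.log (w x))) :=
    h.E_eq fun x hx => (Real.exp_log hx).symm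
  rw [h1]; exact μ.E_exp_pos _

theorem AS.E_log_le {μ : Ex α} {w : α → ℝ} (h : μ.AS (fun x => 0 < w x)) :
    μ.E (fun x => Real.log (w x)) ≤ Real.log (μ.E w) := by
  have h1 : μ.E w = μ.E (fun x => Real.exp (Real.log (w x))) :=
    h.E_eq fun x hx => (Real.exp_log hx).symm
  rw [h1]; exact μ.E_le_log_E_exp _

theorem E_log_le (μ : Ex α) {w : α → ℝ} (h : ∀ x, 0 < w x) {M : ℝ} (hM : μ.E w ≤ M) :
    μ.E (fun x => Real.log (w x)) ≤ Real.log M :=
  ((AS.of_forall μ h).E_log_le).trans (Real.log_le_log (AS.of_forall μ h).E_pos hM)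

theorem E_rpow_le (μ : Ex α) {X : α → ℝ} (hX : ∀ x, 0 ≤ X x) {θ M : ℝ} (h0 : 0 ≤ θ) (h1 : θ ≤ 1)
    (hM : 0 < M) (hE : μ.E X ≤ M) : μ.E (fun x => X x ^ θ) ≤ M ^ θ := by
  have key : ∀ x, X x ^ θ ≤ (θ * X x + (1 - θ) * M) / M ^ (1 - θ) := by
    intro x
    rw [le_div_iff₀ (Real.rpow_pos_of_pos hM _)]
    exact Real.geom_mean_le_arith_mean2_weighted h0 (by linarith) (hX x) hM.le (by ring)
  refine (μ.E_mono key).trans ?_
  rw [E_div_const, E_add, E_const_mul, E_const, div_le_iff₀ (Real.rpow_pos_of_pos hM _),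
    ← Real.rpow_add hM]
  have : θ + (1 - θ) = 1 := by ring
  rw [this, Real.rpow_one]
  nlinarith

open Classical in
/-- Point mass. -/
noncomputable def wt (μ : Ex α) (x : α) : ℝ := μ.E (fun y => if y = x then 1 else 0)

theorem wt_nonneg (μ : Ex α) (x : α) : 0 ≤ μ.wt x :=
  μ.E_nonneg fun y => by split_ifs <;> norm_num

theorem wt_le_one (μ : Ex α) (x : α) : μ.wt x ≤ 1 := by
  have : μ.wt x ≤ μ.E (fun _ => 1) := μ.E_mono fun y => by split_ifs <;> norm_num
  rwa [E_const] at this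

theorem AS.E_eq_sum {μ : Ex α} {s : Finset α} (h : μ.AS (fun x => x ∈ s)) (f : α → ℝ) :
    μ.E f = ∑ x ∈ s, μ.wt x * f x := by
  classical
  have h1 : μ.E f = μ.E (fun y => ∑ x ∈ s, (if y = x then 1 else 0) * f x) := by
    refine h.E_eq fun y hy => ?_
    simp [hy]
  rw [h1, E_sum]
  refine sum_congr rfl fun x _ => ?_
  rw [E_mul_const, wt]

theorem sum_wt_mul_le (μ : Ex α) (s : Finset α) {f : α → ℝ} (hf : ∀ x, 0 ≤ f x) :
    ∑ x ∈ s, μ.wt x * f x ≤ μ.E f := by
  classical
  have h1 : ∑ x ∈ s, μ.wt x * f x = μ.E (fun y => ∑ x ∈ s, (if y = x then 1 else 0) * f x) := by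
    rw [E_sum]
    refine sum_congr rfl fun x _ => ?_
    rw [E_mul_const, wt]
  rw [h1]
  refine μ.E_mono fun y => ?_
  by_cases hy : y ∈ s
  · simp [hy]
  · simp [hy, hf]

theorem AS.wt_pos {μ : Ex α} {s : Finset α} (h : μ.AS (fun x => x ∈ s)) :
    μ.AS (fun x => 0 < μ.wt x) := by
  intro f hf
  rw [h.E_eq_sum]
  refine sum_nonneg fun x _ => ?_
  rcases (μ.wt_nonneg x).eq_or_lt with h0 | h0
  · rw [← h0, zero_mul]
  · exact mul_nonneg h0.le (hf x h0)

theorem AS.of_wt_pos {μ : Ex α} {A : α → Prop} (h : μ.AS A) {x : α} (hx : 0 < μ.wt x) : A x := by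
  classical
  by_contra hA
  have : μ.wt x ≤ μ.E (fun _ => 0) := by
    refine h.E_le fun y hy => ?_
    have : y ≠ x := fun e => hA (e ▸ hy)
    simp [this]
  rw [E_const] at this; linarith

theorem wt_mul_le_E (μ : Ex α) (x : α) {f : α → ℝ} (hf : ∀ y, 0 ≤ f y) :
    μ.wt x * f x ≤ μ.E f := by
  simpa using μ.sum_wt_mul_le {x} hf

theorem wt_bind_ge (μ : Ex α) (k : α → Ex β) (a : α) (b : β) :
    μ.wt a * (k a).wt b ≤ (μ.bind k).wt b :=
  μ.wt_mul_le_E a (f := fun a => (k a).wt b) fun y => (k y).wt_nonneg b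

theorem wt_pure (a : α) : (pure a).wt a = 1 := by simp [wt]

theorem wt_map_ge (μ : Ex α) (g : α → β) (a : α) : μ.wt a ≤ (μ.map g).wt (g a) := by
  have := wt_bind_ge μ (fun a => pure (g a)) a (g a)
  rwa [wt_pure, mul_one] at this

theorem wt_unif {s : Finset α} (hs : s.Nonempty) {x : α} (hx : x ∈ s) :
    (unif s hs).wt x = 1 / s.card := by
  classical
  rw [wt, E_unif]; simp [hx]

theorem E_ite_mem_le (μ : Ex α) (s : Finset α) {c : ℝ} (h : ∀ x ∈ s, μ.wt x ≤ c)
    {A : α → Prop} [DecidablePred A] (hA : ∀ x, A x → x ∈ s) :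
    μ.E (fun x => if A x then 1 else 0) ≤ s.card * c := by
  classical
  have h1 : μ.E (fun x => if A x then 1 else 0) ≤
      μ.E (fun y => ∑ x ∈ s, (if y = x then (1 : ℝ) else 0)) := by
    refine μ.E_mono fun y => ?_
    split_ifs with hy
    · simp [hA y hy]
    · exact sum_nonneg fun x _ => by split_ifs <;> norm_num
  rw [E_sum] at h1
  refine h1.trans ?_
  have : ∑ x ∈ s, μ.E (fun y => if y = x then (1 : ℝ) else 0) ≤ ∑ _x ∈ s, c :=
    sum_le_sum fun x hx => h x hx
  simpa using this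

/-- The variational (Donsker Varadhan) inequality with cost `c`. -/
def DV (P R : Ex α) (c : ℝ) : Prop :=
  ∀ F : α → ℝ, P.E F ≤ Real.log (R.E (fun x => Real.exp (F x))) + c

theorem DV.mono {P R : Ex α} {c c' : ℝ} (h : DV P R c) (hc : c ≤ c') : DV P R c' :=
  fun F => (h F).trans (by linarith)

theorem DV.nonneg {P R : Ex α} {c : ℝ} (h : DV P R c) : 0 ≤ c := by
  have := h (fun _ => 0)
  simpa [E_const] using this

theorem DV.refl (P : Ex α) : DV P P 0 := fun F => by
  simpa using P.E_le_log_E_exp F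

theorem DV.map {P R : Ex α} {c : ℝ} (h : DV P R c) (g : α → β) : DV (P.map g) (R.map g) c :=
  fun F => h (fun x => F (g x))

theorem DV.of_wt {P R : Ex α} {s : Finset α} (hs : P.AS (fun x => x ∈ s))
    (hR : P.AS (fun x => 0 < R.wt x)) :
    DV P R (P.E (fun x => Real.log (P.wt x) - Real.log (R.wt x))) := by
  intro F
  have hP := hs.wt_pos
  have h1 : P.E (fun x => F x - (Real.log (P.wt x) - Real.log (R.wt x))) =
      P.E (fun x => Real.log (Real.exp (F x) * R.wt x / P.wt x)) := by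
    refine (hP.and hR).E_eq fun x hx => ?_
    rw [Real.log_div (mul_pos (Real.exp_pos _) hx.2).ne' hx.1.ne',
      Real.log_mul (Real.exp_pos _).ne' hx.2.ne', Real.log_exp]
    ring
  have hpos : P.AS (fun x => 0 < Real.exp (F x) * R.wt x / P.wt x) :=
    (hP.and hR).mono fun x hx => div_pos (mul_pos (Real.exp_pos _) hx.2) hx.1
  have h2 := hpos.E_log_le
  have h3 : P.E (fun x => Real.exp (F x) * R.wt x / P.wt x) ≤ R.E (fun x => Real.exp (F x)) := by
    rw [hs.E_eq_sum]
    refine le_trans (sum_le_sum fun x _ => ?_) (R.sum_wt_mul_le s fun x => (Real.exp_pos _).le)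
    rcases (P.wt_nonneg x).eq_or_lt with h0 | h0
    · rw [← h0, zero_mul]; exact mul_nonneg (R.wt_nonneg x) (Real.exp_pos _).le
    · apply le_of_eq; field_simp
  have h4 := Real.log_le_log hpos.E_pos h3
  rw [E_sub] at h1
  linarith

theorem DV.unif {P : Ex α} {V : Finset α} (hV : V.Nonempty) (h : P.AS (fun x => x ∈ V)) :
    DV P (unif V hV) (Real.log V.card) := by
  intro F
  have hc : (0 : ℝ) < V.card := by exact_mod_cast hV.card_pos
  have : P.E F ≤ P.E (fun _ => Real.log ((Ex.unif V hV).E (fun x => Real.exp (F x))) +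
      Real.log V.card) := by
    refine h.E_le fun x hx => ?_
    rw [← Real.log_mul ((Ex.unif V hV).E_exp_pos F).ne' hc.ne', E_unif, div_mul_cancel₀ _ hc.ne',
      Real.le_log_iff_exp_le (sum_pos (fun _ _ => Real.exp_pos _) hV)]
    exact single_le_sum (f := fun x => Real.exp (F x)) (fun _ _ => (Real.exp_pos _).le) hx
  rwa [E_const] at this

theorem DV.mix {P : Ex α} {k : α → Ex β} {R : Ex β} {c : α → ℝ}
    (h : P.AS (fun a => DV (k a) R (c a))) : DV (P.bind k) R (P.E c) := by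
  intro F
  have := h.E_le (f := fun a => (k a).E F)
    (g := fun a => Real.log (R.E (fun x => Real.exp (F x))) + c a) (fun a ha => ha F)
  rwa [E_add, E_const] at this

theorem DV.seq {η : Type} {P : Ex η} {T : η → α} {R : Ex α} {c : ℝ} {k : η → Ex β}
    {k' : α → Ex β} {c' : η → ℝ} (g : α → β → γ) (h : DV (P.map T) R c)
    (hk : P.AS (fun x => DV (k x) (k' (T x)) (c' x))) :
    DV (P.bind fun x => (k x).map (g (T x))) (R.bind fun a => (k' a).map (g a))
      (c + P.E c') := by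
  intro F
  have h1 := hk.E_le (f := fun x => (k x).E (fun b => F (g (T x) b)))
    (g := fun x => Real.log ((k' (T x)).E (fun b => Real.exp (F (g (T x) b)))) + c' x)
    (fun x hx => hx _)
  rw [E_add] at h1
  have h2 := h (fun a => Real.log ((k' a).E (fun b => Real.exp (F (g a b)))))
  have h3 : (fun a => Real.exp (Real.log ((k' a).E (fun b => Real.exp (F (g a b)))))) =
      fun a => (k' a).E (fun b => Real.exp (F (g a b))) := by
    funext a; exact Real.exp_log ((k' a).E_exp_pos _)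
  rw [h3] at h2
  simp only [E_bind, E_map] at *
  linarith

theorem DV.prod {P R : Ex α} {c : ℝ} {P' R' : Ex β} {c' : ℝ} (g : α → β → γ) (h : DV P R c)
    (h' : DV P' R' c') :
    DV (P.bind fun a => P'.map (g a)) (R.bind fun a => R'.map (g a)) (c + c') := by
  have := DV.seq (P := P) (T := id) (k := fun _ => P') (k' := fun _ => R') (c' := fun _ => c')
    g (c := c) (R := R) (fun F => h F) (AS.of_forall P fun _ => h')
  rwa [E_const] at this

/-- Independent samples. -/
def iid (μ : Ex α) : ℕ → Ex (List α)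
  | 0 => pure []
  | r + 1 => μ.bind fun a => (iid μ r).map (fun l => a :: l)

theorem DV.iid {P R : Ex α} {c : ℝ} (h : DV P R c) (r : ℕ) :
    DV (P.iid r) (R.iid r) (r * c) := by
  induction r with
  | zero => simpa [Ex.iid] using DV.refl (Ex.pure ([] : List α))
  | succ r ih =>
    have := DV.prod (fun a l => a :: l) h ih
    refine DV.mono this (le_of_eq ?_)
    push_cast; ring

theorem E_iid_sum (μ : Ex α) (f : α → ℝ) (r : ℕ) :
    (μ.iid r).E (fun l => (l.map f).sum) = r * μ.E f := by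
  induction r with
  | zero => simp [iid]
  | succ r ih =>
    simp only [iid, E_bind, E_map, List.map_cons, List.sum_cons, E_add, E_const, ih]
    push_cast; ring

theorem E_iid_prod (μ : Ex α) (f : α → ℝ) (r : ℕ) :
    (μ.iid r).E (fun l => (l.map f).prod) = (μ.E f) ^ r := by
  induction r with
  | zero => simp [iid]
  | succ r ih =>
    simp only [iid, E_bind, E_map, List.map_cons, List.prod_cons, E_const_mul, E_mul_const, ih]
    ring

theorem AS.iid {μ : Ex α} {A : α → Prop} (h : μ.AS A) (r : ℕ) :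
    (μ.iid r).AS (fun l => ∀ a ∈ l, A a) := by
  induction r with
  | zero => exact AS.pure (by simp)
  | succ r ih =>
    refine h.bind fun a ha => AS.map (ih.mono fun l hl b hb => ?_)
    rcases List.mem_cons.1 hb with rfl | hb
    · exact ha
    · exact hl b hb

open Classical in
/-- Conditioning on the value of a statistic. -/
noncomputable def cond (μ : Ex α) (Y : α → β) (a₀ : α) (y : β) : Ex α :=
  if h : 0 < (μ.map Y).wt y then
    { lin := ((μ.map Y).wt y)⁻¹ • (μ.lin ∘ₗ LinearMap.pi (fun a =>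
        (if Y a = y then (1 : ℝ) else 0) • (LinearMap.proj a : (α → ℝ) →ₗ[ℝ] ℝ)))
      pos := fun f hf => by
        simp only [LinearMap.smul_apply, LinearMap.comp_apply, smul_eq_mul]
        refine mul_nonneg (inv_nonneg.2 h.le) (μ.pos _ fun a => ?_)
        simp only [LinearMap.pi_apply, LinearMap.smul_apply, LinearMap.proj_apply, smul_eq_mul]
        split_ifs
        · simpa using hf a
        · simp
      one := by
        simp only [LinearMap.smul_apply, LinearMap.comp_apply, smul_eq_mul]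
        have : (LinearMap.pi (fun a =>
          (if Y a = y then (1 : ℝ) else 0) • (LinearMap.proj a : (α → ℝ) →ₗ[ℝ] ℝ)))
            (fun _ => (1 : ℝ)) = fun a => if Y a = y then 1 else 0 := by
          funext a; by_cases h1 : Y a = y <;> simp [h1]
        rw [this]
        exact inv_mul_cancel₀ h.ne' }
  else pure a₀

open Classical in
theorem E_cond {μ : Ex α} {Y : α → β} (a₀ : α) {y : β} (h : 0 < (μ.map Y).wt y) (f : α → ℝ) :
    (μ.cond Y a₀ y).E f = μ.E (fun a => if Y a = y then f a else 0) / (μ.map Y).wt y := by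
  rw [cond, dif_pos h]
  simp only [E, LinearMap.smul_apply, LinearMap.comp_apply, smul_eq_mul]
  rw [div_eq_inv_mul]
  congr 2
  funext a; by_cases h1 : Y a = y <;> simp [h1]

theorem AS.cond {μ : Ex α} {A : α → Prop} (hA : μ.AS A) {Y : α → β} (a₀ : α) {y : β}
    (h : 0 < (μ.map Y).wt y) : (μ.cond Y a₀ y).AS (fun a => A a ∧ Y a = y) := by
  intro f hf
  rw [E_cond a₀ h]
  refine div_nonneg (hA _ fun a ha => ?_) h.le
  split_ifs with h1
  · exact hf a ⟨ha, h1⟩
  · exact le_rfl

theorem AS.cond' {μ : Ex α} {A : α → Prop} (hA : μ.AS A) (Y : α → β) {a₀ : α} (h0 : A a₀)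
    (y : β) : (μ.cond Y a₀ y).AS A := by
  by_cases h : 0 < (μ.map Y).wt y
  · exact (hA.cond a₀ h).mono fun _ ha => ha.1
  · rw [Ex.cond, dif_neg h]; exact AS.pure h0

theorem wt_cond_pos {μ : Ex α} (Y : α → β) (a₀ : α) {a : α} (h : 0 < μ.wt a) :
    0 < (μ.cond Y a₀ (Y a)).wt a := by
  classical
  have h1 : 0 < (μ.map Y).wt (Y a) := lt_of_lt_of_le h (μ.wt_map_ge Y a)
  rw [wt, E_cond a₀ h1]
  refine div_pos (lt_of_lt_of_le h (μ.E_mono fun x => ?_)) h1
  by_cases hx : x = a
  · simp [hx]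
  · simp [hx]

theorem E_tower {μ : Ex α} {s : Finset α} (hs : μ.AS (fun x => x ∈ s)) (Y : α → β) (a₀ : α)
    (g : β → α → ℝ) :
    μ.E (fun a => (μ.cond Y a₀ (Y a)).E (g (Y a))) = μ.E (fun a => g (Y a) a) := by
  classical
  have hs' : (μ.map Y).AS (fun y => y ∈ s.image Y) :=
    AS.map (hs.mono fun x hx => mem_image_of_mem Y hx)
  have h1 : μ.E (fun a => (μ.cond Y a₀ (Y a)).E (g (Y a))) =
      (μ.map Y).E (fun y => (μ.cond Y a₀ y).E (g y)) := rfl
  rw [h1, hs'.E_eq_sum]
  have h2 : μ.E (fun a => g (Y a) a) =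
      μ.E (fun a => ∑ y ∈ s.image Y, if Y a = y then g y a else 0) := by
    refine hs.E_eq fun a ha => ?_
    simp [mem_image_of_mem Y ha]
  rw [h2, E_sum]
  refine sum_congr rfl fun y _ => ?_
  rcases ((μ.map Y).wt_nonneg y).eq_or_lt with h0 | h0
  · rw [← h0, zero_mul]
    have hw := hs.wt_pos
    have : μ.E (fun a => if Y a = y then g y a else 0) = μ.E (fun _ => 0) := by
      refine hw.E_eq fun a ha => ?_
      have : Y a ≠ y := by
        rintro rfl
        have := μ.wt_map_ge Y a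
        linarith
      simp [this]
    rw [this, E_const]
  · rw [E_cond a₀ h0]; field_simp

end Ex

end Vale.Agent.P015
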