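import Vale.Agent.P015.Main

namespace Vale.Agent.P015

open Relation

theorem exists_ray {V : Type} (A : V → V → Prop) (hfin : ∀ v, {w | A v w}.Finite) (v0 : V)
    (h0 : {u | ReflTransGen A v0 u}.Infinite) :
    ∃ f : ℕ → V, Function.Injective f ∧ ∀ n, A (f n) (f (n + 1)) := by
  let R : Set V → V → V → Prop := fun F a b => A a b ∧ b ∉ F
  have hins : ∀ (F : Set V) a u, ReflTransGen (R F) a u → ReflTransGen (R (insert a F)) a u := by
    intro F a u h
    induction h with
    | refl => exact ReflTransGen.refl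
    | @tail b c _ hbc ih =>
      by_cases hc : c = a
      · rw [hc]
      · exact ih.tail ⟨hbc.1, fun h => h.elim hc hbc.2⟩
  let σ := {s : V × Set V // s.1 ∈ s.2 ∧ {u | ReflTransGen (R s.2) s.1 u}.Infinite}
  have step : ∀ s : σ, ∃ t : σ, A s.1.1 t.1.1 ∧ t.1.1 ∉ s.1.2 ∧ s.1.2 ⊆ t.1.2 := by
    rintro ⟨⟨v, F⟩, hv, hinf⟩
    by_contra hcon
    refine hinf (((hfin v).biUnion (t := fun w => {u | w ∉ F ∧ ReflTransGen (R (insert w F)) w u})
      fun w hw => ?_).insert v |>.subset fun u hu => ?_)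
    · by_contra hi
      have hwF : w ∉ F := by
        intro hwF
        exact hi (Set.finite_empty.subset fun u hu => hu.1 hwF)
      exact hcon ⟨⟨(w, insert w F), Set.mem_insert _ _, fun hf => hi (hf.subset fun u hu => hu.2)⟩,
        hw, hwF, Set.subset_insert _ _⟩
    · rcases ReflTransGen.cases_head hu with h | ⟨w, hw, h⟩
      · exact Or.inl h.symm
      · exact Or.inr (Set.mem_biUnion hw.1 ⟨hw.2, hins F w u h⟩)
  choose nx h1 h2 h3 using step
  let s0 : σ := ⟨(v0, insert v0 ∅), Set.mem_insert _ _, h0.mono fun u hu =>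
    hins ∅ v0 u (ReflTransGen.mono (r := A) (p := R ∅) (fun a b h => ⟨h, Set.notMem_empty b⟩) v0 u hu)⟩
  have hmono : Monotone fun n => (nx^[n] s0).1.2 := monotone_nat_of_le_succ fun n => by
    rw [Function.iterate_succ_apply']; exact h3 _
  refine ⟨fun n => (nx^[n] s0).1.1, Function.Injective.of_lt_imp_ne fun m n hmn e => ?_, fun n => ?_⟩
  · obtain ⟨k, rfl⟩ : ∃ k, n = k + 1 := ⟨n - 1, by omega⟩
    have a1 := hmono (Nat.lt_succ_iff.1 hmn) (nx^[m] s0).2.1
    rw [Function.iterate_succ_apply'] at e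
    exact h2 _ (e ▸ a1)
  · simp only [Function.iterate_succ_apply']; exact h1 _

theorem norm_le_of_dvd {z : GaussianInt} (hz : Irreducible z) {p : ℕ} (hp : p.Prime)
    (h : (p : ℤ) ∣ z.norm) : z.norm ≤ (p : ℤ) ^ 2 := by
  have hn : (p : GaussianInt).norm = (p : ℤ) ^ 2 := by rw [Zsqrtd.norm_natCast, sq]
  by_cases hd : z ∣ (p : GaussianInt)
  · obtain ⟨c, hc⟩ := hd
    refine Int.le_of_dvd (by have := hp.pos; positivity) ⟨c.norm, ?_⟩
    rw [← hn, hc, Zsqrtd.norm_mul]
  · exfalso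
    have h1 : IsCoprime z (p : GaussianInt) := hz.coprime_iff_not_dvd.2 hd
    have h2 : IsCoprime (star z) (p : GaussianInt) := by
      simpa [starRingEnd_apply] using h1.map (starRingEnd GaussianInt)
    have h3 : (p : GaussianInt) ∣ z * star z := by
      rw [← Zsqrtd.norm_eq_mul_conj]
      simpa using map_dvd (Int.castRingHom GaussianInt) h
    have h4 := (h1.mul_left h2).symm.isUnit_of_dvd h3
    have h5 := Zsqrtd.norm_eq_one_iff.2 h4
    rw [hn] at h5
    have h6 : p ^ 2 = 1 := by exact_mod_cast h5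
    exact hp.one_lt.ne' (pow_eq_one_iff_of_nonneg (Nat.zero_le _) two_ne_zero |>.1 h6)

theorem sm_of_dist {z w : GaussianInt} {D : ℝ} (h : dist (z : ℂ) (w : ℂ) ≤ D) :
    Sm (⌈D⌉₊ : ℕ) ((z.re, z.im) - (w.re, w.im)) := by
  rw [Complex.dist_eq] at h
  have h1 := (Complex.abs_re_le_norm _).trans (h.trans (Nat.le_ceil D))
  have h2 := (Complex.abs_im_le_norm _).trans (h.trans (Nat.le_ceil D))
  rw [Complex.sub_re, ← GaussianInt.intCast_re, ← GaussianInt.intCast_re] at h1
  rw [Complex.sub_im, ← GaussianInt.intCast_im, ← GaussianInt.intCast_im] at h2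
  exact ⟨by exact_mod_cast h1, by exact_mod_cast h2⟩

theorem coord_inj : Function.Injective fun z : GaussianInt => (z.re, z.im) := fun _ _ h =>
  Zsqrtd.ext (congrArg Prod.fst h) (congrArg Prod.snd h)

theorem no_walk (D : ℝ) (z : ℕ → GaussianInt) (hinj : Function.Injective z)
    (hirr : ∀ n, Irreducible (z n)) (hd : ∀ n, dist (z (n + 1) : ℂ) (z n : ℂ) ≤ D) : False := by
  obtain ⟨B, hB⟩ := exists_small_divisor ⌈D⌉₊
  have hf : Function.Injective fun n => ((z n).re, (z n).im) := coord_inj.comp hinj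
  obtain ⟨N, hN⟩ := ((Box B).finite_toSet.preimage hf.injOn).bddAbove
  obtain ⟨n, p, hp, hpB, hdvd⟩ := hB (fun n => ((z (N + 1 + n)).re, (z (N + 1 + n)).im))
    (hf.comp (add_right_injective (N + 1))) (fun n => sm_of_dist (hd (N + 1 + n)))
  have e : dot2 ((z (N + 1 + n)).re, (z (N + 1 + n)).im) ((z (N + 1 + n)).re, (z (N + 1 + n)).im) =
      (z (N + 1 + n)).norm := by simp [dot2, Zsqrtd.norm_def]
  rw [e] at hdvd
  have h1 := norm_le_of_dvd (hirr _) hp hdvd
  have h2 : (p : ℤ) ^ 2 ≤ (B : ℤ) ^ 2 := by gcongr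
  rw [← e, dot2] at h1
  have h3 : N + 1 + n ≤ N := hN (Finset.mem_coe.2 (mem_Box.2
    ⟨abs_le_of_sq_le_sq (by nlinarith [mul_self_nonneg (z (N + 1 + n)).im]) (by positivity),
      abs_le_of_sq_le_sq (by nlinarith [mul_self_nonneg (z (N + 1 + n)).re]) (by positivity)⟩))
  omega

theorem finite_near (D : ℝ) (z : GaussianInt) : {w : GaussianInt | dist (w : ℂ) (z : ℂ) ≤ D}.Finite :=
  ((Box (⌈D⌉₊ : ℕ)).finite_toSet.preimage (f := fun w : GaussianInt => (w.re, w.im) - (z.re, z.im))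
    (sub_left_injective.comp coord_inj).injOn).subset fun _ hw =>
      Finset.mem_coe.2 (mem_Box.2 (sm_of_dist hw))

end Vale.Agent.P015
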