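import Vale.Agent.P015.Ex

namespace Vale.Agent.P015

open Finset

variable {G : Type} [Fintype G]

/-- Density of a law with respect to the uniform law. -/
noncomputable def prof (μ : Ex G) (c : G) : ℝ := Fintype.card G * μ.wt c

noncomputable def Zf (μ : Ex G) (σ : ℝ) : ℝ :=
  (∑ c, Real.exp (-(σ * prof μ c))) / Fintype.card G

noncomputable def ff (μ : Ex G) (σ : ℝ) : ℝ := - Real.log (Zf μ σ)

theorem E_eq_sum_univ (μ : Ex G) (f : G → ℝ) : μ.E f = ∑ c, μ.wt c * f c :=
  (Ex.AS.of_forall μ fun x => mem_univ x).E_eq_sum f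

theorem sum_wt (μ : Ex G) : ∑ c, μ.wt c = 1 := by
  have := E_eq_sum_univ μ (fun _ => 1)
  rw [Ex.E_const] at this
  simpa using this.symm

theorem prof_nonneg (μ : Ex G) (c : G) : 0 ≤ prof μ c :=
  mul_nonneg (by positivity) (μ.wt_nonneg c)

theorem sum_prof (μ : Ex G) : ∑ c, prof μ c = Fintype.card G := by
  simp only [prof, ← mul_sum, sum_wt, mul_one]

variable [Nonempty G]

theorem cardG_pos : (0 : ℝ) < Fintype.card G := by exact_mod_cast Fintype.card_pos

theorem Zf_pos (μ : Ex G) (σ : ℝ) : 0 < Zf μ σ :=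
  div_pos (sum_pos (fun _ _ => Real.exp_pos _) univ_nonempty) cardG_pos

theorem exp_neg_le_Zf (μ : Ex G) (σ : ℝ) : Real.exp (-σ) ≤ Zf μ σ := by
  have h := (Ex.unif (univ : Finset G) univ_nonempty).exp_E_le (fun c => -(σ * prof μ c))
  rw [Ex.E_unif, Ex.E_unif, sum_neg_distrib, ← mul_sum, sum_prof, card_univ, neg_div,
    mul_div_assoc, div_self cardG_pos.ne', mul_one] at h
  exact h

theorem ff_le (μ : Ex G) (σ : ℝ) : ff μ σ ≤ σ := by
  have := Real.log_le_log (Real.exp_pos _) (exp_neg_le_Zf μ σ)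
  rw [Real.log_exp] at this
  unfold ff; linarith

theorem Zf_anti (μ : Ex G) {σ σ' : ℝ} (h : σ ≤ σ') : Zf μ σ' ≤ Zf μ σ := by
  unfold Zf
  gcongr with c
  exact prof_nonneg μ c

theorem ff_mono (μ : Ex G) {σ σ' : ℝ} (h : σ ≤ σ') : ff μ σ ≤ ff μ σ' := by
  have := Real.log_le_log (Zf_pos μ σ') (Zf_anti μ h)
  unfold ff; linarith

theorem ff_nonneg (μ : Ex G) {σ : ℝ} (h : 0 ≤ σ) : 0 ≤ ff μ σ := by
  have h1 := ff_mono μ h
  have h2 : ff μ 0 = 0 := by
    simp [ff, Zf]
  linarith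

theorem exp_neg_le_quad {x : ℝ} (hx : 0 ≤ x) : Real.exp (-x) ≤ 1 - x + x ^ 2 / 2 := by
  have h := Real.quadratic_le_exp_of_nonneg hx
  have hp : 0 < 1 + x + x ^ 2 / 2 := by positivity
  rw [Real.exp_neg, inv_le_iff_one_le_mul₀ (Real.exp_pos _)]
  have h2 : 0 ≤ 1 - x + x ^ 2 / 2 := by nlinarith [sq_nonneg (x - 1)]
  have := mul_le_mul_of_nonneg_left h h2
  nlinarith [sq_nonneg (x ^ 2)]

theorem ff_ge_base (μ : Ex G) {σ : ℝ} (h : 0 ≤ σ) :
    σ - σ ^ 2 / 2 * (Fintype.card G * ∑ c, μ.wt c ^ 2) ≤ ff μ σ := by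
  have h1 : Zf μ σ ≤ 1 - σ + σ ^ 2 / 2 * (Fintype.card G * ∑ c, μ.wt c ^ 2) := by
    rw [Zf, div_le_iff₀ cardG_pos]
    refine (sum_le_sum fun c _ => exp_neg_le_quad (mul_nonneg h (prof_nonneg μ c))).trans
      (le_of_eq ?_)
    rw [sum_add_distrib, sum_sub_distrib, ← mul_sum, sum_prof]
    simp only [prof, sum_const, card_univ, nsmul_eq_mul, mul_one, mul_sum, add_mul, sum_mul]
    congr 1
    · ring
    · exact sum_congr rfl fun c _ => by ring
  have h2 := Real.log_le_sub_one_of_pos (Zf_pos μ σ)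
  unfold ff; linarith

theorem E_exp_neg_le {α : Type} (ν : Ex α) {X : α → ℝ} {cap κ γ : ℝ} (hX : ∀ a, 0 ≤ X a)
    (hc : ∀ a, X a ≤ cap) (hκ : 0 ≤ κ) (hγ : κ * cap ≤ 2 * γ) :
    ν.E (fun a => Real.exp (-(κ * X a))) ≤ Real.exp (-(κ * (1 - γ) * ν.E X)) := by
  have h1 : ν.E (fun a => Real.exp (-(κ * X a))) ≤ ν.E (fun a => 1 - κ * (1 - γ) * X a) := by
    refine ν.E_mono fun a => (exp_neg_le_quad (mul_nonneg hκ (hX a))).trans ?_
    have h2 : κ * X a ≤ 2 * γ := (mul_le_mul_of_nonneg_left (hc a) hκ).trans hγ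
    have h3 := mul_le_mul_of_nonneg_left h2 (mul_nonneg hκ (hX a))
    nlinarith
  rw [Ex.E_sub, Ex.E_const, Ex.E_const_mul] at h1
  have := Real.add_one_le_exp (-(κ * (1 - γ) * ν.E X))
  linarith

/-- The Gibbs density attached to a law. -/
noncomputable def gib (μ : Ex G) (σ : ℝ) (c : G) : ℝ := Real.exp (-(σ * prof μ c)) / Zf μ σ

theorem gib_pos (μ : Ex G) (σ : ℝ) (c : G) : 0 < gib μ σ c := div_pos (Real.exp_pos _) (Zf_pos _ _)

theorem gib_le (μ : Ex G) {σ : ℝ} (h : 0 ≤ σ) (c : G) : gib μ σ c ≤ Real.exp σ := by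
  rw [gib, div_le_iff₀ (Zf_pos _ _)]
  have h1 : Real.exp (-(σ * prof μ c)) ≤ 1 :=
    Real.exp_le_one_iff.2 (neg_nonpos.2 (mul_nonneg h (prof_nonneg μ c)))
  have h2 := mul_le_mul_of_nonneg_left (exp_neg_le_Zf μ σ) (Real.exp_pos σ).le
  rw [← Real.exp_add, add_neg_cancel, Real.exp_zero] at h2
  linarith

theorem sum_gib (μ : Ex G) (σ : ℝ) : ∑ c, gib μ σ c / Fintype.card G = 1 := by
  simp only [gib]
  rw [← sum_div, ← sum_div, div_right_comm]
  exact div_self (Zf_pos μ σ).ne'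

omit [Nonempty G] in
theorem E_shift [AddCommGroup G] (μ : Ex G) (ψ : G → ℝ) (h : G) :
    μ.E (fun c => ψ (c + h)) = ∑ c, ψ c / Fintype.card G * prof μ (c - h) := by
  have : Nonempty G := ⟨0⟩
  rw [E_eq_sum_univ, ← Equiv.sum_comp (Equiv.subRight h)]
  refine sum_congr rfl fun c _ => ?_
  have := cardG_pos (G := G)
  simp only [Equiv.subRight_apply, sub_add_cancel, prof]
  field_simp

omit [Nonempty G] in
theorem gibbs_bound [AddCommGroup G] (μ μs μt : Ex G) (σ σ'' : ℝ) (h h' : G) :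
    Real.exp (-(σ * (μs.E (fun c => gib μ σ'' (c + h)) + μt.E (fun c => gib μ σ'' (c + h'))))) ≤
      Real.exp (-(σ'' * μ.E (gib μ σ''))) / (Fintype.card G * Zf μ σ'') *
        ∑ x, Real.exp (-(σ * prof μs x)) * Real.exp (-(σ * prof μt (x + (h - h')))) := by
  have : Nonempty G := ⟨0⟩
  have hp := cardG_pos (G := G)
  have hZ := Zf_pos μ σ''
  have key := convexOn_exp.map_sum_le (t := univ) (w := fun c => gib μ σ'' c / Fintype.card G)
    (p := fun c => -(σ * (prof μs (c - h) + prof μt (c - h'))) + σ'' * prof μ c)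
    (fun c _ => (div_pos (gib_pos _ _ _) hp).le) (sum_gib μ σ'') (fun _ _ => Set.mem_univ _)
  simp only [smul_eq_mul] at key
  have e0 : μ.E (gib μ σ'') = ∑ c, gib μ σ'' c / Fintype.card G * prof μ c := by
    simpa using E_shift μ (gib μ σ'') 0
  have e1 : ∑ c, gib μ σ'' c / Fintype.card G *
      (-(σ * (prof μs (c - h) + prof μt (c - h'))) + σ'' * prof μ c) =
      -(σ * (μs.E (fun c => gib μ σ'' (c + h)) + μt.E (fun c => gib μ σ'' (c + h')))) +
        σ'' * μ.E (gib μ σ'') := by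
    rw [E_shift, E_shift, e0, ← sum_add_distrib, mul_sum, mul_sum, ← sum_neg_distrib,
      ← sum_add_distrib]
    exact sum_congr rfl fun c _ => by ring
  have e2 : ∑ c, gib μ σ'' c / Fintype.card G *
      Real.exp (-(σ * (prof μs (c - h) + prof μt (c - h'))) + σ'' * prof μ c) =
      (∑ x, Real.exp (-(σ * prof μs x)) * Real.exp (-(σ * prof μt (x + (h - h'))))) /
        (Fintype.card G * Zf μ σ'') := by
    rw [sum_div, ← Equiv.sum_comp (Equiv.addRight h)]
    refine sum_congr rfl fun x _ => ?_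
    have e3 : x + h - h' = x + (h - h') := by abel
    simp only [Equiv.coe_addRight, add_sub_cancel_right, gib, e3]
    rw [Real.exp_add, mul_add, neg_add, Real.exp_add, Real.exp_neg (σ'' * _)]
    have := Real.exp_pos (σ'' * prof μ (x + h))
    field_simp
  rw [e1, e2, Real.exp_add] at key
  rw [Real.exp_neg (σ'' * _)]
  have h3 := Real.exp_pos (σ'' * μ.E (gib μ σ''))
  rw [← le_div_iff₀ h3] at key
  refine key.trans (le_of_eq ?_)
  field_simp

/-- The test weight of the anchored step. -/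
noncomputable def wA [AddCommGroup G] (ψ : G → ℝ) (κ θ : ℝ) (ls lt : List G) (δ : G) : ℝ :=
  (∑ y, Real.exp (-(κ * ((ls.map fun b => ψ (y + δ + b)).sum +
    (lt.map fun b => ψ (y + b)).sum)))) ^ θ

omit [Nonempty G] in
theorem wA_pos [AddCommGroup G] (ψ : G → ℝ) (κ θ : ℝ) (ls lt : List G) (δ : G) :
    0 < wA ψ κ θ ls lt δ :=
  Real.rpow_pos_of_pos (sum_pos (fun _ _ => Real.exp_pos _) ⟨0, mem_univ _⟩) _

omit [Fintype G] [Nonempty G] in
theorem exp_list_sum (l : List G) (κ : ℝ) (f : G → ℝ) :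
    Real.exp (-(κ * (l.map f).sum)) = (l.map fun b => Real.exp (-(κ * f b))).prod := by
  induction l with
  | nil => simp
  | cons a l ih => simp only [List.map_cons, List.sum_cons, List.prod_cons, ← ih, ← Real.exp_add]
                   congr 1; ring

omit [Nonempty G] in
theorem step_group [AddCommGroup G] {α : Type} (μ : Ex G) (νs νt : Ex α) (bs bt : α → G)
    (Ys Yt : G) {σ σ' κ θ γ : ℝ} (r : ℕ) (hσ : 0 ≤ σ) (hσ' : 0 ≤ σ') (hκ : 0 ≤ κ) (hθ : 0 < θ)
    (hθ1 : θ ≤ 1) (h1 : θ * (r * κ) = σ') (h2 : σ ≤ σ' * (1 - γ))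
    (h3 : κ * Real.exp (2 * σ') ≤ 2 * γ) :
    ff (νs.map fun a => Ys + bs a) σ + ff (νt.map fun a => Yt + bt a) σ - ff μ (2 * σ') -
      θ * Real.log (Fintype.card G) + 2 * σ' * μ.E (gib μ (2 * σ')) -
      σ' * (νs.E (fun a => gib μ (2 * σ') (Ys + bs a)) +
        νt.E (fun a => gib μ (2 * σ') (Yt + bt a))) ≤
    (νs.iid r).E (fun ls => (νt.iid r).E (fun lt =>
      Real.log (wA (gib μ (2 * σ')) κ θ (ls.map bs) (lt.map bt) (Ys - Yt)) -
      Real.log ((∑ δ, wA (gib μ (2 * σ')) κ θ (ls.map bs) (lt.map bt) δ) / Fintype.card G))) := by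
  have : Nonempty G := ⟨0⟩
  have hp := cardG_pos (G := G)
  set ψ := gib μ (2 * σ') with hψ
  set μs := νs.map fun a => Ys + bs a with hμs
  set μt := νt.map fun a => Yt + bt a with hμt
  have hA : -(σ' * (νs.E (fun a => ψ (Ys + bs a)) + νt.E (fun a => ψ (Yt + bt a)))) ≤
      (νs.iid r).E (fun ls => (νt.iid r).E (fun lt =>
        Real.log (wA ψ κ θ (ls.map bs) (lt.map bt) (Ys - Yt)))) := by
    have e : ∀ ls lt : List α, -(θ * κ) * ((ls.map fun a => ψ (Ys + bs a)).sum +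
        (lt.map fun a => ψ (Yt + bt a)).sum) ≤
        Real.log (wA ψ κ θ (ls.map bs) (lt.map bt) (Ys - Yt)) := by
      intro ls lt
      rw [wA, Real.log_rpow (sum_pos (fun _ _ => Real.exp_pos _) univ_nonempty)]
      have e1 := single_le_sum (f := fun y => Real.exp (-(κ * (((ls.map bs).map
        fun b => ψ (y + (Ys - Yt) + b)).sum + ((lt.map bt).map fun b => ψ (y + b)).sum))))
        (fun _ _ => (Real.exp_pos _).le) (mem_univ Yt)
      have e2 := Real.log_le_log (Real.exp_pos _) e1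
      rw [Real.log_exp] at e2
      have e3 := mul_le_mul_of_nonneg_left e2 hθ.le
      refine le_trans (le_of_eq ?_) e3
      simp only [List.map_map, Function.comp_def, add_sub_cancel]
      ring
    refine le_trans (le_of_eq ?_) ((νs.iid r).E_mono fun ls => (νt.iid r).E_mono fun lt => e ls lt)
    simp only [Ex.E_const_mul, Ex.E_add, Ex.E_const, Ex.E_iid_sum]
    rw [← h1]; ring
  set Cc : ℝ := Real.exp (-(2 * σ' * μ.E ψ)) / (Fintype.card G * Zf μ (2 * σ')) with hCc
  have hCpos : 0 < Cc := div_pos (Real.exp_pos _) (mul_pos hp (Zf_pos _ _))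
  let C : G → ℝ := fun δ => Cc *
    ∑ x, Real.exp (-(σ * prof μs x)) * Real.exp (-(σ * prof μt (x + (δ - (Ys - Yt)))))
  have hC : ∀ δ, 0 < C δ := fun δ => mul_pos hCpos
    (sum_pos (fun _ _ => mul_pos (Real.exp_pos _) (Real.exp_pos _)) univ_nonempty)
  let J : Ex (List α × List α) := (νs.iid r).bind fun ls => (νt.iid r).map fun lt => (ls, lt)
  have hB1 : ∀ δ, J.E (fun q => wA ψ κ θ (q.1.map bs) (q.2.map bt) δ) ≤
      (Fintype.card G : ℝ) ^ θ * C δ := by
    intro δ
    have hM : (0 : ℝ) < Fintype.card G * C δ ^ (1 / θ) :=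
      mul_pos hp (Real.rpow_pos_of_pos (hC δ) _)
    refine (J.E_rpow_le (fun q => (sum_pos (fun _ _ => Real.exp_pos _) univ_nonempty).le)
      hθ.le hθ1 hM ?_).trans (le_of_eq ?_)
    · rw [Ex.E_sum, ← nsmul_eq_mul, ← card_univ, ← sum_const]
      refine sum_le_sum fun y _ => ?_
      have e1 : J.E (fun q => Real.exp (-(κ * (((q.1.map bs).map fun b => ψ (y + δ + b)).sum +
          ((q.2.map bt).map fun b => ψ (y + b)).sum)))) =
          (νs.E fun a => Real.exp (-(κ * ψ (y + δ + bs a)))) ^ r *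
            (νt.E fun a => Real.exp (-(κ * ψ (y + bt a)))) ^ r := by
        simp only [J, Ex.E_bind, Ex.E_map, mul_add, neg_add, Real.exp_add, exp_list_sum,
          List.map_map, Function.comp_def, Ex.E_const_mul, Ex.E_mul_const, Ex.E_iid_prod]
      rw [e1]
      have hcap : ∀ c, ψ c ≤ Real.exp (2 * σ') := gib_le μ (by positivity)
      have hψ0 : ∀ c, 0 ≤ ψ c := fun c => (gib_pos _ _ _).le
      have e2 := E_exp_neg_le νs (X := fun a => ψ (y + δ + bs a)) (fun a => hψ0 _)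
        (fun a => hcap _) hκ h3
      have e3 := E_exp_neg_le νt (X := fun a => ψ (y + bt a)) (fun a => hψ0 _)
        (fun a => hcap _) hκ h3
      have e4 : νs.E (fun a => ψ (y + δ + bs a)) = μs.E (fun c => ψ (c + (y + δ - Ys))) := by
        simp only [hμs, Ex.E_map]; congr 1; funext a; congr 1; abel
      have e5 : νt.E (fun a => ψ (y + bt a)) = μt.E (fun c => ψ (c + (y - Yt))) := by
        simp only [hμt, Ex.E_map]; congr 1; funext a; congr 1; abel
      rw [e4] at e2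
      rw [e5] at e3
      have e6 := gibbs_bound μ μs μt σ (2 * σ') (y + δ - Ys) (y - Yt)
      have e7 : y + δ - Ys - (y - Yt) = δ - (Ys - Yt) := by abel
      rw [e7] at e6
      set as := μs.E (fun c => ψ (c + (y + δ - Ys))) with has
      set at' := μt.E (fun c => ψ (c + (y - Yt))) with hat
      have has0 : 0 ≤ as := μs.E_nonneg fun _ => hψ0 _
      have hat0 : 0 ≤ at' := μt.E_nonneg fun _ => hψ0 _
      calc _ ≤ Real.exp (-(κ * (1 - γ) * as)) ^ r * Real.exp (-(κ * (1 - γ) * at')) ^ r := by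
            exact mul_le_mul (pow_le_pow_left₀ (νs.E_nonneg fun _ => (Real.exp_pos _).le) e2 r)
              (pow_le_pow_left₀ (νt.E_nonneg fun _ => (Real.exp_pos _).le) e3 r)
              (pow_nonneg (νt.E_nonneg fun _ => (Real.exp_pos _).le) r) (by positivity)
        _ = Real.exp (-(r * κ * (1 - γ) * (as + at'))) := by
            rw [← Real.exp_nat_mul, ← Real.exp_nat_mul, ← Real.exp_add]; congr 1; ring
        _ ≤ Real.exp (-(σ * (as + at'))) ^ (1 / θ) := by
            rw [← Real.exp_mul, Real.exp_le_exp, mul_one_div, le_div_iff₀ hθ]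
            have : σ * (as + at') ≤ σ' * (1 - γ) * (as + at') :=
              mul_le_mul_of_nonneg_right h2 (add_nonneg has0 hat0)
            rw [← h1] at this
            linarith
        _ ≤ C δ ^ (1 / θ) := Real.rpow_le_rpow (Real.exp_pos _).le e6 (by positivity)
    · rw [Real.mul_rpow hp.le (Real.rpow_pos_of_pos (hC δ) _).le, ← Real.rpow_mul (hC δ).le,
        one_div_mul_cancel hθ.ne', Real.rpow_one]
  have hB2 : J.E (fun q => (∑ δ, wA ψ κ θ (q.1.map bs) (q.2.map bt) δ) / Fintype.card G) ≤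
      (Fintype.card G : ℝ) ^ θ * (Real.exp (-(2 * σ' * μ.E ψ)) *
        (Zf μs σ * Zf μt σ / Zf μ (2 * σ'))) := by
    rw [Ex.E_div_const, Ex.E_sum, div_le_iff₀ hp]
    refine (sum_le_sum fun δ _ => hB1 δ).trans (le_of_eq ?_)
    simp only [C]
    rw [← mul_sum, ← mul_sum, sum_comm]
    have e : ∀ x, ∑ δ, Real.exp (-(σ * prof μs x)) *
        Real.exp (-(σ * prof μt (x + (δ - (Ys - Yt))))) =
        Real.exp (-(σ * prof μs x)) * ∑ c, Real.exp (-(σ * prof μt c)) := by
      intro x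
      rw [← mul_sum]
      congr 1
      rw [← Equiv.sum_comp (Equiv.addLeft (x - (Ys - Yt)))
        (fun c => Real.exp (-(σ * prof μt c)))]
      refine sum_congr rfl fun δ _ => ?_
      simp only [Equiv.coe_addLeft]
      congr 4; abel
    simp only [e]
    rw [← sum_mul, hCc]
    have := Zf_pos μ (2 * σ')
    simp only [Zf] at this ⊢
    field_simp
  have hB3 := J.E_log_le (fun q => div_pos (sum_pos (fun δ _ => wA_pos ψ κ θ _ _ δ)
    univ_nonempty) hp) hB2
  have hZs := Zf_pos μs σ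
  have hZt := Zf_pos μt σ
  have hZ := Zf_pos μ (2 * σ')
  rw [Real.log_mul (by positivity) (by positivity), Real.log_mul (by positivity) (by positivity),
    Real.log_div (by positivity) hZ.ne', Real.log_mul hZs.ne' hZt.ne', Real.log_exp,
    Real.log_rpow hp] at hB3
  simp only [J, Ex.E_bind, Ex.E_map] at hB3
  simp only [Ex.E_sub, ff]
  linarith

end Vale.Agent.P015
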