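import Vale.Agent.P015.Window
import Vale.Agent.P015.Group

namespace Vale.Agent.P015

open Finset

namespace Ex

variable {α β : Type}

theorem ext' {μ ν : Ex α} (h : ∀ f, μ.E f = ν.E f) : μ = ν := by
  obtain ⟨l1, _, _⟩ := μ
  obtain ⟨l2, _, _⟩ := ν
  have : l1 = l2 := LinearMap.ext h
  subst this; rfl

theorem AS.of_bind {μ : Ex α} {k : α → Ex β} {A : β → Prop} (h : (μ.bind k).AS A) {a : α}
    (ha : 0 < μ.wt a) : (k a).AS A := by
  classical
  intro f hf
  let g : β → ℝ := fun b => if A b then 0 else |f b|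
  have hg : ∀ b, 0 ≤ g b := fun b => by simp only [g]; split_ifs <;> simp
  have h1 : (μ.bind k).E g ≤ (μ.bind k).E (fun _ => 0) := h.E_le fun b hb => by simp [g, hb]
  rw [E_const] at h1
  have h2 := μ.wt_mul_le_E a (f := fun a => (k a).E g) fun y => (k y).E_nonneg hg
  have h3 : (k a).E g ≤ 0 := by
    by_contra hc
    have := mul_pos ha (not_le.1 hc)
    simp only [E_bind] at h1
    linarith
  have h4 : (k a).E (fun b => - g b) ≤ (k a).E f := by
    refine (k a).E_mono fun b => ?_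
    simp only [g]
    split_ifs with hb
    · simpa using hf b hb
    · exact neg_abs_le _
  rw [E_neg] at h4
  linarith

theorem AS.of_pure {a : α} {A : α → Prop} (h : (Ex.pure a).AS A) : A a :=
  h.of_wt_pos (by rw [wt_pure]; norm_num)

theorem AS.of_half_pure {a b : α} {A : α → Prop} (h : (Ex.half (Ex.pure a) (Ex.pure b)).AS A) :
    A a ∧ A b := by
  classical
  constructor
  · refine h.of_wt_pos ?_
    simp only [wt, E_half, E_pure, if_true]
    split_ifs <;> norm_num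
  · refine h.of_wt_pos ?_
    simp only [wt, E_half, E_pure, if_true]
    split_ifs <;> norm_num

end Ex

/-- The data of the construction. -/
structure Cfg (ι : Type) (P : ι → ℕ) where
  z : ℕ → ℤ × ℤ
  D : ℕ
  r : ∀ i, ZMod (P i)
  tt : ℕ
  top : ℕ
  geo : ℕ → Prop
  S : ℕ → Finset ι

variable {ι : Type} {P : ι → ℕ}

structure Cfg.OK (C : Cfg ι P) : Prop where
  inj : Function.Injective C.z
  step : ∀ n, Sm C.D (C.z (n + 1) - C.z n)
  hr : ∀ i, C.r i ^ 2 = -1
  Pinj : Function.Injective P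
  avoid : ∀ n i, rho C.r i (C.z n) ≠ 0
  le : C.tt ≤ C.top
  mono : ∀ τ, C.S τ ⊆ C.S (τ + 1)

namespace Cfg

variable (C : Cfg ι P)

/-- First time of the pair attached to a difference. -/
noncomputable def ps (τ a : ℕ) (d : ℤ × ℤ) : ℕ := a + (pr C.z a (2 ^ τ) d).1

/-- Second time of the pair attached to a difference. -/
noncomputable def pt (τ a : ℕ) (d : ℤ × ℤ) : ℕ := a + (pr C.z a (2 ^ τ) d).2

noncomputable def Ud (τ a : ℕ) : Ex (ℤ × ℤ) :=
  Ex.unif (Dset C.z a (2 ^ τ)) (Dset_nonempty _ _ _)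

open Classical in
/-- Kernel from level `τ + 1` to level `τ`. -/
noncomputable def K (τ a : ℕ) : Ex ℕ :=
  if τ < C.tt then Ex.half (Ex.pure a) (Ex.pure (a + 2 ^ τ))
  else if C.geo (τ + 1) then
    (C.Ud τ a).bind fun d => Ex.half (Ex.pure (C.ps τ a d)) (Ex.pure (C.pt τ a d))
  else Ex.pure a

noncomputable def dn (L : ℕ) : ℕ → ℕ → Ex ℕ
  | 0, a => Ex.pure a
  | n + 1, a => (C.K (L + n) a).bind (dn L n)

noncomputable def desc (H L a : ℕ) : Ex ℕ := C.dn L (H - L) a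

theorem desc_self (L a : ℕ) : C.desc L L a = Ex.pure a := by simp [desc, dn]

theorem desc_succ {H L : ℕ} (h : L ≤ H) (a : ℕ) :
    C.desc (H + 1) L a = (C.K H a).bind (C.desc H L) := by
  have e : H + 1 - L = (H - L) + 1 := by omega
  have e2 : L + (H - L) = H := by omega
  unfold desc
  rw [e, dn, e2]

theorem desc_trans {H M L : ℕ} (h1 : L ≤ M) (h2 : M ≤ H) (a : ℕ) :
    C.desc H L a = (C.desc H M a).bind (C.desc M L) := by
  induction H, h2 using Nat.le_induction generalizing a with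
  | base => rw [desc_self]; rfl
  | succ H hH ih =>
    rw [desc_succ _ (h1.trans hH), desc_succ _ hH]
    refine Ex.ext' fun f => ?_
    simp only [Ex.E_bind, ih]

theorem ps_pt {τ a : ℕ} {d : ℤ × ℤ} (h : d ∈ Dset C.z a (2 ^ τ)) :
    (a ≤ C.ps τ a d ∧ C.ps τ a d ≤ a + 2 ^ τ) ∧ (a ≤ C.pt τ a d ∧ C.pt τ a d ≤ a + 2 ^ τ) ∧
      C.z (C.ps τ a d) - C.z (C.pt τ a d) = d := by
  obtain ⟨h1, h2, h3⟩ := pr_spec h
  unfold ps pt
  exact ⟨⟨by omega, by omega⟩, ⟨by omega, by omega⟩, h3⟩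

theorem K_offset (τ a : ℕ) : (C.K τ a).AS (fun u => a ≤ u ∧ u ≤ a + 2 ^ τ) := by
  unfold K
  split_ifs
  · exact Ex.AS.half (Ex.AS.pure (by simp)) (Ex.AS.pure (by simp))
  · refine (Ex.AS.unif _).bind fun d hd => ?_
    exact Ex.AS.half (Ex.AS.pure (C.ps_pt hd).1) (Ex.AS.pure (C.ps_pt hd).2.1)
  · exact Ex.AS.pure (by simp)

theorem desc_offset {H L : ℕ} (h : L ≤ H) (a : ℕ) :
    (C.desc H L a).AS (fun u => a ≤ u ∧ u + 2 ^ L ≤ a + 2 ^ H) := by
  induction H, h using Nat.le_induction generalizing a with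
  | base => rw [desc_self]; exact Ex.AS.pure (by simp)
  | succ H hH ih =>
    rw [desc_succ _ hH]
    refine (C.K_offset H a).bind fun b hb => (ih b).mono fun u hu => ?_
    rw [pow_succ]; omega

theorem desc_skip {H M L : ℕ} (h1 : L ≤ M) (h2 : M ≤ H) (ht : C.tt ≤ M)
    (hg : ∀ σ, M < σ → σ ≤ H → ¬ C.geo σ) (a : ℕ) : C.desc H L a = C.desc M L a := by
  induction H, h2 using Nat.le_induction generalizing a with
  | base => rfl
  | succ H hH ih =>
    rw [desc_succ _ (h1.trans hH), K, if_neg (by omega), if_neg (hg _ (by omega) le_rfl)]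
    exact ih (fun σ h h' => hg σ h (by omega)) a

theorem K_geo {τ : ℕ} (ht : C.tt ≤ τ) (hg : C.geo (τ + 1)) (a : ℕ) : C.K τ a =
    (C.Ud τ a).bind fun d => Ex.half (Ex.pure (C.ps τ a d)) (Ex.pure (C.pt τ a d)) := by
  rw [K, if_neg (by omega), if_pos hg]

theorem E_desc_geo {τ M L : ℕ} (h1 : L ≤ M) (h2 : M ≤ τ) (ht : C.tt ≤ M) (hg : C.geo (τ + 1))
    (hg' : ∀ σ, M < σ → σ ≤ τ → ¬ C.geo σ) (a : ℕ) (f : ℕ → ℝ) :
    (C.desc (τ + 1) L a).E f = (C.Ud τ a).E (fun d =>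
      ((C.desc M L (C.ps τ a d)).E f + (C.desc M L (C.pt τ a d)).E f) / 2) := by
  rw [desc_succ _ (h1.trans h2), K_geo _ (ht.trans h2) hg]
  simp only [Ex.E_bind, Ex.E_half, Ex.E_pure, C.desc_skip h1 h2 ht hg']

noncomputable def mu (L : ℕ) : Ex ℕ := C.desc C.top L 0

theorem mu_eq {H L : ℕ} (h1 : L ≤ H) (h2 : H ≤ C.top) :
    C.mu L = (C.mu H).bind (C.desc H L) := C.desc_trans h1 h2 0

def good (L a : ℕ) : Prop := 0 < (C.mu L).wt a

theorem desc_fin {H L : ℕ} (h : L ≤ H) (a : ℕ) :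
    (C.desc H L a).AS (fun u => u ∈ range (a + 2 ^ H + 1)) :=
  (C.desc_offset h a).mono fun u hu => mem_range.2 (by
    have := Nat.zero_le (2 ^ L); omega)

theorem mu_fin {L : ℕ} (h : L ≤ C.top) :
    (C.mu L).AS (fun u => u ∈ range (0 + 2 ^ C.top + 1)) := C.desc_fin h 0

theorem good_mu {L : ℕ} (h : L ≤ C.top) : (C.mu L).AS (C.good L) := (C.mu_fin h).wt_pos

theorem good_desc {H L a : ℕ} (h1 : L ≤ H) (h2 : H ≤ C.top) (ha : C.good H a) :
    (C.desc H L a).AS (C.good L) := by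
  have := C.good_mu (h1.trans h2)
  rw [C.mu_eq h1 h2] at this
  exact this.of_bind ha

theorem good_K {τ a : ℕ} (h2 : τ + 1 ≤ C.top) (ha : C.good (τ + 1) a) :
    (C.K τ a).AS (C.good τ) := by
  have := C.good_desc (Nat.le_succ τ) h2 ha
  rw [desc_succ _ le_rfl] at this
  intro f hf
  have := this f hf
  simpa only [Ex.E_bind, desc_self, Ex.E_pure] using this

theorem good_dyadic {τ a : ℕ} (h1 : τ < C.tt) (h2 : C.tt ≤ C.top) (ha : C.good (τ + 1) a) :
    C.good τ a ∧ C.good τ (a + 2 ^ τ) := by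
  have := C.good_K (by omega) ha
  rw [K, if_pos h1] at this
  exact this.of_half_pure

theorem good_geo {τ M L a : ℕ} (h1 : L ≤ M) (h2 : M ≤ τ) (ht : C.tt ≤ M) (hg : C.geo (τ + 1))
    (hg' : ∀ σ, M < σ → σ ≤ τ → ¬ C.geo σ) (h3 : τ + 1 ≤ C.top) (ha : C.good (τ + 1) a)
    {d : ℤ × ℤ} (hd : d ∈ Dset C.z a (2 ^ τ)) :
    (C.desc M L (C.ps τ a d)).AS (C.good L) ∧ (C.desc M L (C.pt τ a d)).AS (C.good L) := by
  have h4 := C.good_K h3 ha
  rw [K_geo _ (ht.trans h2) hg] at h4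
  have h5 := (h4.of_bind (a := d) (by
    rw [Ud, Ex.wt_unif _ hd]
    have : (0 : ℝ) < (Dset C.z a (2 ^ τ)).card := by exact_mod_cast (Dset_nonempty _ _ _).card_pos
    positivity)).of_half_pure
  rw [← C.desc_skip h1 h2 ht hg', ← C.desc_skip h1 h2 ht hg']
  exact ⟨C.good_desc (h1.trans h2) (by omega) h5.1, C.good_desc (h1.trans h2) (by omega) h5.2⟩

theorem wt_desc_le {H L : ℕ} (h : L ≤ H) (hH : H ≤ C.tt) (a u : ℕ) :
    (C.desc H L a).wt u ≤ 2 ^ L / 2 ^ H := by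
  induction H, h using Nat.le_induction generalizing a with
  | base => rw [div_self (by positivity)]; exact Ex.wt_le_one _ _
  | succ H hLH ih =>
    have e : (C.desc (H + 1) L a).wt u =
        ((C.desc H L a).wt u + (C.desc H L (a + 2 ^ H)).wt u) / 2 := by
      rw [desc_succ _ hLH, K, if_pos (by omega)]
      simp only [Ex.wt, Ex.E_bind, Ex.E_half, Ex.E_pure]
    have h1 := ih (by omega) a
    have h2 := ih (by omega) (a + 2 ^ H)
    have hz : (C.desc H L a).wt u = 0 ∨ (C.desc H L (a + 2 ^ H)).wt u = 0 := by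
      by_contra hc
      push Not at hc
      have a1 := (C.desc_offset hLH a).of_wt_pos (lt_of_le_of_ne (Ex.wt_nonneg _ u) hc.1.symm)
      have a2 := (C.desc_offset hLH (a + 2 ^ H)).of_wt_pos
        (lt_of_le_of_ne (Ex.wt_nonneg _ u) hc.2.symm)
      have : 0 < 2 ^ L := by positivity
      omega
    rw [e, pow_succ, ← div_div]
    rcases hz with h | h <;> rw [h] <;> linarith

end Cfg

end Vale.Agent.P015
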