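import Vale.Agent.P015.Cross

namespace Vale.Agent.P015

open Finset

variable {ι : Type} {P : ι → ℕ}

/-- Reduction of a Gaussian integer modulo a split prime. -/
def rho (r : ∀ i, ZMod (P i)) (i : ι) : ℤ × ℤ →+ ZMod (P i) where
  toFun v := (v.1 : ZMod (P i)) + r i * (v.2 : ZMod (P i))
  map_zero' := by simp
  map_add' v w := by simp only [Prod.fst_add, Prod.snd_add]; push_cast; ring

theorem rho_apply (r : ∀ i, ZMod (P i)) (i : ι) (v : ℤ × ℤ) :
    rho r i v = (v.1 : ZMod (P i)) + r i * (v.2 : ZMod (P i)) := rfl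

theorem rho_dvd_norm {r : ∀ i, ZMod (P i)} {i : ι} (hr : r i ^ 2 = -1) {v : ℤ × ℤ}
    (h : rho r i v = 0) : (P i : ℤ) ∣ dot2 v v := by
  rw [← ZMod.intCast_zmod_eq_zero_iff_dvd]
  rw [rho_apply] at h
  simp only [dot2]; push_cast
  linear_combination ((v.1 : ZMod (P i)) - r i * (v.2 : ZMod (P i))) * h +
    (v.2 : ZMod (P i)) ^ 2 * hr

theorem rho_dvd_det {r : ∀ i, ZMod (P i)} {i : ι} {v w : ℤ × ℤ}
    (h : rho r i v = 0) (h' : rho r i w = 0) : (P i : ℤ) ∣ det2 v w := by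
  rw [← ZMod.intCast_zmod_eq_zero_iff_dvd]
  rw [rho_apply] at h h'
  simp only [det2]; push_cast
  linear_combination (w.2 : ZMod (P i)) * h - (v.2 : ZMod (P i)) * h'

theorem prod_dvd [hP : ∀ i, Fact (P i).Prime] (hinj : Function.Injective P) (S : Finset ι)
    {n : ℤ} (h : ∀ i ∈ S, (P i : ℤ) ∣ n) : (∏ i ∈ S, (P i : ℤ)) ∣ n := by
  refine Finset.prod_dvd_of_coprime (fun i _ j _ hij => ?_) h
  have := (Nat.coprime_primes (hP i).out (hP j).out).2 (fun e => hij (hinj e))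
  exact Nat.isCoprime_iff_coprime.2 this

theorem dot2_self_pos {v : ℤ × ℤ} (hv : v ≠ 0) : 0 < dot2 v v := by
  simp only [dot2]
  by_contra h
  apply hv
  ext
  · simp only [Prod.fst_zero]; nlinarith [mul_self_nonneg v.1, mul_self_nonneg v.2]
  · simp only [Prod.snd_zero]; nlinarith [mul_self_nonneg v.1, mul_self_nonneg v.2]

/-- The lattice of `S` has a short vector in the thin strip along `u`. -/
def Bad (r : ∀ i, ZMod (P i)) (u : ℤ × ℤ) (L G : ℤ) (S : Finset ι) (g : ℤ × ℤ) : Prop :=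
  g ≠ 0 ∧ (∀ i ∈ S, rho r i g = 0) ∧ G * |dot2 g u| ≤ (∏ i ∈ S, (P i : ℤ)) * L ∧ |det2 u g| ≤ L

open Classical in
noncomputable def Tset (r : ∀ i, ZMod (P i)) (Fam : Finset ι) (g : ℤ × ℤ) : Finset ι :=
  Fam.filter (fun i => ∀ w, det2 w g = 0 → rho r i w = 0)

theorem det2_trans {w g g' : ℤ × ℤ} (hg : g ≠ 0) (h1 : det2 w g = 0) (h2 : det2 g g' = 0) :
    det2 w g' = 0 := by
  have e1 : g.1 * det2 w g' = 0 := by
    simp only [det2] at *; linear_combination w.1 * h2 + g'.1 * h1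
  have e2 : g.2 * det2 w g' = 0 := by
    simp only [det2] at *; linear_combination w.2 * h2 + g'.2 * h1
  by_contra h
  apply hg
  ext
  · exact (mul_eq_zero.1 e1).resolve_right h
  · exact (mul_eq_zero.1 e2).resolve_right h

theorem Tset_eq (r : ∀ i, ZMod (P i)) (Fam : Finset ι) {g g' : ℤ × ℤ} (hg : g ≠ 0) (hg' : g' ≠ 0)
    (h : det2 g g' = 0) : Tset r Fam g = Tset r Fam g' := by
  have h' : det2 g' g = 0 := by simp only [det2] at *; linarith
  ext i
  simp only [Tset, mem_filter]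
  exact and_congr_right fun _ => ⟨fun H w hw => H w (det2_trans hg' hw h'),
    fun H w hw => H w (det2_trans hg hw h)⟩

theorem Tset_card [DecidableEq ι] [hP : ∀ i, Fact (P i).Prime] (hinj : Function.Injective P)
    {r : ∀ i, ZMod (P i)} (hr : ∀ i, r i ^ 2 = -1) {Fam S : Finset ι} (hS : S ⊆ Fam)
    (hne : S.Nonempty) {x : ℕ} (hx : 2 ≤ x) (hF : ∀ i ∈ Fam, x ≤ P i ∧ P i ≤ x ^ 2)
    {u g : ℤ × ℤ} {L G : ℤ} (hL : 0 < L) (hU : L ^ 2 ≤ dot2 u u) (hG : 2 ≤ G)
    (hb : Bad r u L G S g) : (Tset r Fam g).card < 4 * (S ∩ Tset r Fam g).card := by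
  obtain ⟨hg0, hg1, hg2, hg3⟩ := hb
  set T := Tset r Fam g with hT
  have hgcd : 0 < Int.gcd g.1 g.2 := by
    rw [Int.gcd_pos_iff]
    by_contra h
    push Not at h
    exact hg0 (Prod.ext h.1 h.2)
  obtain ⟨a, b, hab, ha, hb⟩ := Int.exists_gcd_one hgcd
  set c : ℤ := ((Int.gcd g.1 g.2 : ℕ) : ℤ) with hc
  have hcpos : 0 < c := by rw [hc]; exact_mod_cast hgcd
  have hv0 : ((a, b) : ℤ × ℤ) ≠ 0 := by
    intro h
    simp only [Prod.mk_eq_zero] at h
    apply hg0
    ext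
    · rw [ha, h.1]; simp
    · rw [hb, h.2]; simp
  have hgv : g = c • ((a, b) : ℤ × ℤ) := by
    ext
    · simp only [Prod.smul_fst, smul_eq_mul]; rw [mul_comm]; exact ha
    · simp only [Prod.smul_snd, smul_eq_mul]; rw [mul_comm]; exact hb
  have h2 : (∏ i ∈ T, (P i : ℤ)) ≤ dot2 (a, b) (a, b) := by
    refine Int.le_of_dvd (dot2_self_pos hv0) (prod_dvd hinj T fun i hi => ?_)
    simp only [hT, Tset, mem_filter] at hi
    refine rho_dvd_norm (hr i) (hi.2 _ ?_)
    rw [hgv]; simp only [det2, Prod.smul_fst, Prod.smul_snd, smul_eq_mul]; ring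
  have h1 : (∏ i ∈ S \ T, (P i : ℤ)) ≤ c := by
    refine Int.le_of_dvd hcpos (prod_dvd hinj _ fun i hi => ?_)
    rw [mem_sdiff] at hi
    by_contra hdvd
    apply hi.2
    simp only [hT, Tset, mem_filter]
    refine ⟨hS hi.1, fun w hw => ?_⟩
    have e0 := hg1 i hi.1
    rw [hgv, map_zsmul, zsmul_eq_mul, mul_eq_zero, ZMod.intCast_zmod_eq_zero_iff_dvd] at e0
    have e1 := e0.resolve_left hdvd
    have hbez : a * Int.gcdA a b + b * Int.gcdB a b = 1 := by
      rw [← Int.gcd_eq_gcd_ab, hab]; rfl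
    have hw' : det2 w (a, b) = 0 := by
      rw [hgv] at hw
      simp only [det2, Prod.smul_fst, Prod.smul_snd, smul_eq_mul] at hw ⊢
      have : c * (w.1 * b - w.2 * a) = 0 := by linear_combination hw
      exact (mul_eq_zero.1 this).resolve_left hcpos.ne'
    have : w = (w.1 * Int.gcdA a b + w.2 * Int.gcdB a b) • ((a, b) : ℤ × ℤ) := by
      simp only [det2] at hw'
      ext
      · simp only [Prod.smul_fst, smul_eq_mul]
        linear_combination (-w.1) * hbez + Int.gcdB a b * hw'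
      · simp only [Prod.smul_snd, smul_eq_mul]
        linear_combination (-w.2) * hbez - Int.gcdA a b * hw'
    rw [this, map_zsmul, e1, smul_zero]
  set N : ℤ := ∏ i ∈ S, (P i : ℤ) with hN
  have hN2 : 2 ≤ N := by
    obtain ⟨j, hj⟩ := hne
    have e1 : (P j : ℤ) ≤ N := by
      refine Int.le_of_dvd (prod_pos fun i _ => ?_) (dvd_prod_of_mem _ hj)
      exact_mod_cast (hP i).out.pos
    have e2 : (2 : ℤ) ≤ P j := by exact_mod_cast (hP j).out.two_le
    linarith
  have hUpos : 0 < dot2 u u := lt_of_lt_of_le (by positivity) hU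
  have h3 : dot2 g g < N ^ 2 := by
    have e1 : dot2 u u * dot2 g g = dot2 g u ^ 2 + det2 u g ^ 2 := by
      simp only [dot2, det2]; ring
    have e2 : (G * |dot2 g u|) ^ 2 ≤ (N * L) ^ 2 :=
      pow_le_pow_left₀ (by positivity) hg2 2
    have e3 : |det2 u g| ^ 2 ≤ L ^ 2 := pow_le_pow_left₀ (by positivity) hg3 2
    rw [mul_pow, sq_abs, mul_pow] at e2
    rw [sq_abs] at e3
    have e4 : dot2 u u * (G ^ 2 * dot2 g g) ≤ dot2 u u * (N ^ 2 + G ^ 2) := by
      have : G ^ 2 * det2 u g ^ 2 ≤ G ^ 2 * dot2 u u :=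
        mul_le_mul_of_nonneg_left (e3.trans hU) (by positivity)
      have : N ^ 2 * L ^ 2 ≤ N ^ 2 * dot2 u u := mul_le_mul_of_nonneg_left hU (by positivity)
      nlinarith
    have e5 := le_of_mul_le_mul_left e4 hUpos
    by_contra hcon
    push Not at hcon
    have : G ^ 2 * N ^ 2 ≤ G ^ 2 * dot2 g g := mul_le_mul_of_nonneg_left hcon (by positivity)
    have e6 : 4 ≤ G ^ 2 := by nlinarith
    have e7 : 4 ≤ N ^ 2 := by nlinarith
    nlinarith
  have h4 : dot2 g g = c ^ 2 * dot2 (a, b) (a, b) := by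
    rw [hgv]; simp only [dot2, Prod.smul_fst, Prod.smul_snd, smul_eq_mul]; ring
  have h5 : N = (∏ i ∈ S \ T, (P i : ℤ)) * ∏ i ∈ S ∩ T, (P i : ℤ) := by
    rw [hN, ← prod_union (disjoint_sdiff_inter S T), sdiff_union_inter]
  have hpos1 : 0 < ∏ i ∈ S \ T, (P i : ℤ) := prod_pos fun i _ => by exact_mod_cast (hP i).out.pos
  have hpos2 : 0 < ∏ i ∈ T, (P i : ℤ) := prod_pos fun i _ => by exact_mod_cast (hP i).out.pos
  have h6 : (∏ i ∈ T, (P i : ℤ)) < (∏ i ∈ S ∩ T, (P i : ℤ)) ^ 2 := by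
    have e1 : (∏ i ∈ S \ T, (P i : ℤ)) ^ 2 * (∏ i ∈ T, (P i : ℤ)) ≤ dot2 g g := by
      rw [h4]
      exact mul_le_mul (pow_le_pow_left₀ hpos1.le h1 2) h2 hpos2.le (by positivity)
    have e2 := e1.trans_lt h3
    rw [h5, mul_pow] at e2
    exact lt_of_mul_lt_mul_left e2 (by positivity)
  have h7 : (x : ℤ) ^ T.card ≤ ∏ i ∈ T, (P i : ℤ) := by
    rw [← prod_const]
    refine prod_le_prod (fun _ _ => by positivity) fun i hi => ?_
    simp only [hT, Tset, mem_filter] at hi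
    have := (hF i hi.1).1
    exact_mod_cast this
  have h8 : ∏ i ∈ S ∩ T, (P i : ℤ) ≤ ((x : ℤ) ^ 2) ^ (S ∩ T).card := by
    rw [← prod_const]
    refine prod_le_prod (fun _ _ => by positivity) fun i hi => ?_
    have := (hF i (hS (mem_inter.1 hi).1)).2
    exact_mod_cast this
  have h9 : (x : ℤ) ^ T.card < (x : ℤ) ^ (4 * (S ∩ T).card) := by
    calc (x : ℤ) ^ T.card < (∏ i ∈ S ∩ T, (P i : ℤ)) ^ 2 := h7.trans_lt h6
      _ ≤ (((x : ℤ) ^ 2) ^ (S ∩ T).card) ^ 2 :=
          pow_le_pow_left₀ (prod_nonneg fun _ _ => by positivity) h8 2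
      _ = _ := by rw [← pow_mul, ← pow_mul]; congr 1; ring
  exact (pow_lt_pow_iff_right₀ (by exact_mod_cast hx)).1 h9

theorem Bad.det_eq_zero [DecidableEq ι] [hP : ∀ i, Fact (P i).Prime] (hinj : Function.Injective P)
    {r : ∀ i, ZMod (P i)} {C : Finset ι} {i j : ι} (hi : i ∉ C) (hj : j ∉ C)
    {u g g' : ℤ × ℤ} {L G : ℤ} (hL : 0 < L) (hU : L ^ 2 ≤ dot2 u u) (hG : (P i : ℤ) + P j < G)
    (hb : Bad r u L G (insert i C) g) (hb' : Bad r u L G (insert j C) g') : det2 g g' = 0 := by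
  obtain ⟨-, hg1, hg2, hg3⟩ := hb
  obtain ⟨-, hg1', hg2', hg3'⟩ := hb'
  rw [prod_insert hi] at hg2
  rw [prod_insert hj] at hg2'
  set N : ℤ := ∏ i ∈ C, (P i : ℤ) with hN
  have hNpos : 0 < N := prod_pos fun i _ => by exact_mod_cast (hP i).out.pos
  have hdvd : N ∣ det2 g g' := prod_dvd hinj C fun l hl =>
    rho_dvd_det (hg1 l (mem_insert_of_mem hl)) (hg1' l (mem_insert_of_mem hl))
  have hUpos : 0 < dot2 u u := lt_of_lt_of_le (by positivity) hU
  have hG0 : 0 < G := lt_of_le_of_lt (by positivity) hG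
  have e1 : dot2 u u * det2 g g' = dot2 g u * det2 u g' - dot2 g' u * det2 u g := by
    simp only [dot2, det2]; ring
  have e2 : dot2 u u * |det2 g g'| ≤ |dot2 g u| * L + |dot2 g' u| * L := by
    rw [← abs_of_pos hUpos, ← abs_mul, e1]
    refine (abs_sub _ _).trans ?_
    rw [abs_mul, abs_mul]
    gcongr
  have e3 : dot2 u u * (G * |det2 g g'|) ≤ dot2 u u * ((P i + P j) * N) := by
    have a1 : G * |dot2 g u| * L ≤ P i * N * L * L := mul_le_mul_of_nonneg_right hg2 hL.le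
    have a2 : G * |dot2 g' u| * L ≤ P j * N * L * L := mul_le_mul_of_nonneg_right hg2' hL.le
    have a3 : (P i + P j) * N * L ^ 2 ≤ (P i + P j) * N * dot2 u u :=
      mul_le_mul_of_nonneg_left hU (by positivity)
    have a4 := mul_le_mul_of_nonneg_left e2 hG0.le
    nlinarith
  have e4 := le_of_mul_le_mul_left e3 hUpos
  have e5 : |det2 g g'| < N := by
    by_contra hcon
    push Not at hcon
    have : G * N ≤ G * |det2 g g'| := mul_le_mul_of_nonneg_left hcon hG0.le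
    nlinarith
  exact Int.eq_zero_of_abs_lt_dvd hdvd e5

theorem sum_powersetCard_succ [DecidableEq ι] (Fam : Finset ι) (k : ℕ) (F : Finset ι → ι → ℝ) :
    ∑ S ∈ powersetCard (k + 1) Fam, ∑ i ∈ S, F S i =
      ∑ C ∈ powersetCard k Fam, ∑ i ∈ Fam \ C, F (insert i C) i := by
  rw [sum_sigma', sum_sigma']
  refine sum_nbij' (fun p => ⟨p.1.erase p.2, p.2⟩) (fun p => ⟨insert p.2 p.1, p.2⟩) ?_ ?_ ?_ ?_ ?_
  · rintro ⟨S, i⟩ h
    simp only [mem_sigma, mem_powersetCard, mem_sdiff] at h ⊢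
    refine ⟨⟨(erase_subset _ _).trans h.1.1, ?_⟩, h.1.1 h.2, by simp⟩
    rw [card_erase_of_mem h.2, h.1.2]; rfl
  · rintro ⟨C, i⟩ h
    simp only [mem_sigma, mem_powersetCard, mem_sdiff] at h ⊢
    refine ⟨⟨insert_subset h.2.1 h.1.1, ?_⟩, by simp⟩
    rw [card_insert_of_notMem h.2.2, h.1.2]
  · rintro ⟨S, i⟩ h
    simp only [mem_sigma] at h
    simp [insert_erase h.2]
  · rintro ⟨C, i⟩ h
    simp only [mem_sigma, mem_sdiff] at h
    simp [erase_insert h.2.2]
  · rintro ⟨S, i⟩ h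
    simp only [mem_sigma] at h
    simp [insert_erase h.2]

open Classical in
theorem card_bad_le [hP : ∀ i, Fact (P i).Prime] (hinj : Function.Injective P)
    {r : ∀ i, ZMod (P i)} (hr : ∀ i, r i ^ 2 = -1) {Fam : Finset ι} {x X : ℕ} (hx : 2 ≤ x)
    (hX : X ≤ x ^ 2) (hF : ∀ i ∈ Fam, x ≤ P i ∧ P i ≤ X) {u : ℤ × ℤ} {L G : ℤ} (hL : 0 < L)
    (hU : L ^ 2 ≤ dot2 u u) (hG : 2 * (X : ℤ) < G) (hG2 : 2 ≤ G) (k : ℕ) :
    (((powersetCard (k + 1) Fam).filter (fun S => ∃ g, Bad r u L G S g)).card : ℝ) ≤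
      4 * Fam.card.choose k := by
  let gg : Finset ι → ℤ × ℤ := fun S => Classical.epsilon (Bad r u L G S)
  have hgg : ∀ S, (∃ g, Bad r u L G S g) → Bad r u L G S (gg S) := fun S h =>
    Classical.epsilon_spec h
  let F : Finset ι → ι → ℝ := fun S i =>
    if (∃ g, Bad r u L G S g) ∧ i ∈ Tset r Fam (gg S) then 1 / (Tset r Fam (gg S)).card else 0
  have h1 : (((powersetCard (k + 1) Fam).filter (fun S => ∃ g, Bad r u L G S g)).card : ℝ) ≤
      4 * ∑ S ∈ powersetCard (k + 1) Fam, ∑ i ∈ S, F S i := by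
    rw [card_filter, mul_sum]
    push_cast
    refine sum_le_sum fun S hS => ?_
    rw [mem_powersetCard] at hS
    split_ifs with h
    · have hlt := Tset_card hinj hr hS.1 (card_pos.1 (by omega)) hx
        (fun i hi => ⟨(hF i hi).1, (hF i hi).2.trans hX⟩) hL hU hG2 (hgg S h)
      have e : ∑ i ∈ S, F S i =
          ((S ∩ Tset r Fam (gg S)).card : ℝ) * (1 / (Tset r Fam (gg S)).card) := by
        simp only [F, h, true_and]
        rw [← sum_filter, sum_const, nsmul_eq_mul, filter_mem_eq_inter]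
      have hpos : 0 < (Tset r Fam (gg S)).card :=
        lt_of_lt_of_le (by omega) (card_le_card (inter_subset_right (s₁ := S)))
      rw [e, ← mul_assoc, mul_one_div, le_div_iff₀ (by exact_mod_cast hpos), one_mul]
      exact_mod_cast hlt.le
    · have : 0 ≤ ∑ i ∈ S, F S i := sum_nonneg fun i _ => by
        simp only [F, h, false_and, if_false, le_refl]
      linarith
  rw [sum_powersetCard_succ] at h1
  refine h1.trans (mul_le_mul_of_nonneg_left ?_ (by norm_num))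
  rw [← card_powersetCard, card_eq_sum_ones]
  push_cast
  refine sum_le_sum fun C hC => ?_
  by_cases h : ∃ j ∈ Fam \ C, ∃ g, Bad r u L G (insert j C) g
  · obtain ⟨j, hj, hbj⟩ := h
    set T := Tset r Fam (gg (insert j C)) with hT
    have e : ∀ i ∈ Fam \ C, F (insert i C) i ≤ if i ∈ T then 1 / (T.card : ℝ) else 0 := by
      intro i hi
      simp only [F]
      by_cases hb : ∃ g, Bad r u L G (insert i C) g
      · have hdet := Bad.det_eq_zero hinj (mem_sdiff.1 hi).2 (mem_sdiff.1 hj).2 hL hU (by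
          have a1 : (P i : ℤ) ≤ X := by exact_mod_cast (hF i (mem_sdiff.1 hi).1).2
          have a2 : (P j : ℤ) ≤ X := by exact_mod_cast (hF j (mem_sdiff.1 hj).1).2
          linarith) (hgg _ hb) (hgg _ hbj)
        rw [Tset_eq r Fam (hgg _ hb).1 (hgg _ hbj).1 hdet]
        simp [hb, hT]
      · simp only [hb, false_and, if_false]
        split_ifs <;> positivity
    refine (sum_le_sum e).trans ?_
    rw [← sum_filter, sum_const, nsmul_eq_mul, filter_mem_eq_inter, mul_one_div]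
    refine div_le_one_of_le₀ ?_ (by positivity)
    exact_mod_cast card_le_card inter_subset_right
  · push Not at h
    have : ∑ i ∈ Fam \ C, F (insert i C) i = 0 := by
      refine sum_eq_zero fun i hi => ?_
      have : ¬ ∃ g, Bad r u L G (insert i C) g := fun ⟨g, hg⟩ => h i hi g hg
      simp only [F, this, false_and, if_false]
    rw [this]; norm_num

theorem ediv_mem {m R a : ℤ} (hm : 0 < m) (h : |a| ≤ R) : a / m ∈ Icc (-(R / m) - 1) (R / m) := by
  rw [abs_le] at h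
  rw [mem_Icc]
  refine ⟨?_, Int.ediv_le_ediv hm h.2⟩
  rw [Int.le_ediv_iff_mul_le hm]
  have h1 := Int.emod_add_mul_ediv R m
  have h2 := Int.emod_lt_of_pos R hm
  nlinarith

theorem abs_sub_lt_of_ediv_eq {m a b : ℤ} (hm : 0 < m) (h : a / m = b / m) : |a - b| < m := by
  have h1 := Int.emod_add_mul_ediv a m
  have h2 := Int.emod_add_mul_ediv b m
  have h3 := Int.emod_lt_of_pos a hm
  have h4 := Int.emod_lt_of_pos b hm
  have h5 := Int.emod_nonneg a hm.ne'
  have h6 := Int.emod_nonneg b hm.ne'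
  rw [h] at h1
  rw [abs_lt]; constructor <;> linarith

theorem card_Icc_ediv_le {m R : ℤ} (hm : 0 < m) (hR : 0 ≤ R) :
    ((Icc (-(R / m) - 1) (R / m)).card : ℝ) ≤ 2 * R / m + 2 := by
  have h0 : 0 ≤ R / m := Int.ediv_nonneg hR hm.le
  have h1 : ((Icc (-(R / m) - 1) (R / m)).card : ℤ) = 2 * (R / m) + 2 := by
    rw [Int.card_Icc]; omega
  have h2 : ((Icc (-(R / m) - 1) (R / m)).card : ℝ) = 2 * ((R / m : ℤ) : ℝ) + 2 := by
    exact_mod_cast h1
  have h3 : ((R / m : ℤ) : ℝ) ≤ R / m := by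
    rw [le_div_iff₀ (by exact_mod_cast hm)]
    exact_mod_cast Int.ediv_mul_le R hm.ne'
  rw [h2, mul_div_assoc]; linarith

theorem card_fiber_le [hP : ∀ i, Fact (P i).Prime] {r : ∀ i, ZMod (P i)} {S : Finset ι}
    {u : ℤ × ℤ} {L G Δ : ℤ} (hL : 0 < L) (hΔ : 0 ≤ Δ) (hG : 0 < G) (hu : Sm L u)
    (hgood : ¬ ∃ g, Bad r u L G S g) (hN : (∏ i ∈ S, (P i : ℤ)) ≤ G * L) (F : Finset (ℤ × ℤ))
    (hF1 : ∀ d ∈ F, Sm L d ∧ |det2 u d| ≤ Δ)
    (hF2 : ∀ d ∈ F, ∀ d' ∈ F, ∀ i ∈ S, rho r i d = rho r i d') :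
    (F.card : ℝ) * ∏ i ∈ S, (P i : ℝ) ≤ 12 * G * (Δ + L) := by
  set N : ℤ := ∏ i ∈ S, (P i : ℤ) with hNdef
  have hNpos : 0 < N := prod_pos fun i _ => by exact_mod_cast (hP i).out.pos
  have hNL : 0 < N * L := by positivity
  have h1 : F.card ≤ (Icc (-((G * (2 * L ^ 2)) / (N * L)) - 1) ((G * (2 * L ^ 2)) / (N * L)) ×ˢ
      Icc (-(Δ / L) - 1) (Δ / L)).card := by
    refine card_le_card_of_injOn (fun d => ((G * dot2 d u) / (N * L), det2 u d / L)) ?_ ?_
    · intro d hd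
      have hd' := hF1 d hd
      simp only [coe_product, Set.mem_prod, mem_coe]
      refine ⟨ediv_mem hNL ?_, ediv_mem hL hd'.2⟩
      rw [abs_mul, abs_of_pos hG]
      refine mul_le_mul_of_nonneg_left ?_ hG.le
      refine (abs_add_le _ _).trans ?_
      rw [abs_mul, abs_mul]
      have a1 := mul_le_mul hd'.1.1 hu.1 (abs_nonneg _) hL.le
      have a2 := mul_le_mul hd'.1.2 hu.2 (abs_nonneg _) hL.le
      nlinarith
    · intro d hd d' hd' h
      simp only [Prod.mk.injEq] at h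
      by_contra hne
      refine hgood ⟨d - d', sub_ne_zero.2 hne, fun i hi => ?_, ?_, ?_⟩
      · rw [map_sub, hF2 d hd d' hd' i hi, sub_self]
      · have := abs_sub_lt_of_ediv_eq hNL h.1
        have e : G * dot2 d u - G * dot2 d' u = G * dot2 (d - d') u := by
          simp only [dot2, Prod.fst_sub, Prod.snd_sub]; ring
        rw [e, abs_mul, abs_of_pos hG] at this
        exact this.le
      · have := abs_sub_lt_of_ediv_eq hL h.2
        have e : det2 u d - det2 u d' = det2 u (d - d') := by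
          simp only [det2, Prod.fst_sub, Prod.snd_sub]; ring
        rw [e] at this
        exact this.le
  rw [card_product] at h1
  have h2 := card_Icc_ediv_le hNL (R := G * (2 * L ^ 2)) (by positivity)
  have h3 := card_Icc_ediv_le hL hΔ
  have hNr : (∏ i ∈ S, (P i : ℝ)) = (N : ℝ) := by rw [hNdef]; push_cast; rfl
  have hNp : (0 : ℝ) < N := by exact_mod_cast hNpos
  have hLp : (0 : ℝ) < L := by exact_mod_cast hL
  have hGp : (0 : ℝ) < G := by exact_mod_cast hG
  have hΔp : (0 : ℝ) ≤ Δ := by exact_mod_cast hΔ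
  have hN' : (N : ℝ) ≤ G * L := by exact_mod_cast hN
  have h4 : (F.card : ℝ) ≤ (2 * ((G * (2 * L ^ 2) : ℤ) : ℝ) / ((N * L : ℤ) : ℝ) + 2) *
      (2 * (Δ : ℝ) / L + 2) := by
    refine le_trans ?_ (mul_le_mul h2 h3 (by positivity) (by positivity))
    exact_mod_cast h1
  have h5 : (2 * ((G * (2 * L ^ 2) : ℤ) : ℝ) / ((N * L : ℤ) : ℝ) + 2) ≤ 6 * G * L / N := by
    push_cast
    have : (2 : ℝ) ≤ 2 * G * L / N := by rw [le_div_iff₀ hNp]; linarith
    have e : 2 * ((G : ℝ) * (2 * L ^ 2)) / (N * L) = 4 * G * L / N := by field_simp; ring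
    rw [e]
    have e2 : (6 : ℝ) * G * L / N = 4 * G * L / N + 2 * G * L / N := by ring
    linarith
  rw [hNr]
  have h6 := h4.trans (mul_le_mul_of_nonneg_right h5 (by positivity))
  have e : (6 : ℝ) * G * L / N * (2 * (Δ : ℝ) / L + 2) = 12 * G * (Δ + L) / N := by
    field_simp; ring
  rw [e, le_div_iff₀ hNp] at h6
  exact h6

end Vale.Agent.P015
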