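import Vale.Agent.P015.Cell

namespace Vale.Agent.P015

open Finset ArithmeticFunction

noncomputable def chi : ArithmeticFunction ℝ := ⟨fun n => ((ZMod.χ₄ (n : ZMod 4) : ℤ) : ℝ), by simp⟩

theorem chi_apply (n : ℕ) : chi n = if n % 2 = 0 then 0 else if n % 4 = 1 then 1 else -1 := by
  change ((ZMod.χ₄ (n : ZMod 4) : ℤ) : ℝ) = _
  rw [ZMod.χ₄_nat_eq_if_mod_four]
  split_ifs <;> simp

theorem chi_mul (a b : ℕ) : chi (a * b) = chi a * chi b := by
  change ((ZMod.χ₄ ((a * b : ℕ) : ZMod 4) : ℤ) : ℝ) = ((ZMod.χ₄ (a : ZMod 4) : ℤ) : ℝ) *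
    ((ZMod.χ₄ (b : ZMod 4) : ℤ) : ℝ)
  rw [Nat.cast_mul, map_mul, Int.cast_mul]

theorem sum_chi (u : ℕ) : ∑ m ∈ Ioc 0 u, chi m = if u % 4 = 1 ∨ u % 4 = 2 then 1 else 0 := by
  induction u with
  | zero => simp
  | succ u ih =>
    rw [sum_Ioc_succ_top (Nat.zero_le _), ih, chi_apply]
    split_ifs <;> first | omega | norm_num

theorem sum_chi_log (k : ℕ) :
    -Real.log (4 * k + 1) ≤ ∑ n ∈ Ioc 0 (4 * k), chi n * Real.log n := by
  induction k with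
  | zero => simp
  | succ k ih =>
    rw [show 4 * (k + 1) = 4 * k + 1 + 1 + 1 + 1 by ring, sum_Ioc_succ_top (Nat.zero_le _),
      sum_Ioc_succ_top (Nat.zero_le _), sum_Ioc_succ_top (Nat.zero_le _),
      sum_Ioc_succ_top (Nat.zero_le _)]
    simp only [chi_apply] at ih ⊢
    rw [if_neg (by omega), if_pos (by omega), if_pos (by omega), if_neg (by omega),
      if_neg (by omega), if_pos (by omega)]
    have : Real.log (4 * k + 2 + 1) ≤ Real.log (4 * (k + 1) + 1) :=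
      Real.log_le_log (by positivity) (by linarith)
    push_cast
    linarith

theorem chi_conv (N : ℕ) : ∑ n ∈ Ioc 0 N, chi n * Real.log n =
    ∑ d ∈ Ioc 0 N, vonMangoldt d * chi d * ∑ m ∈ Ioc 0 (N / d), chi m := by
  have := sum_Ioc_mul_eq_sum_sum (pmul vonMangoldt chi) chi N
  simp only [pmul_apply] at this
  rw [← this]
  refine sum_congr rfl fun n _ => ?_
  rw [mul_apply, ← vonMangoldt_sum, mul_sum,
    ← Nat.sum_divisorsAntidiagonal (fun a _ => chi n * vonMangoldt a)]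
  refine sum_congr rfl fun x hx => ?_
  rw [← (Nat.mem_divisorsAntidiagonal.1 hx).1, chi_mul, pmul_apply]
  ring

theorem primes_ineq (k x : ℕ) (hx : 2 ≤ x) (hxN : x ≤ 4 * k) :
    -Real.log (4 * k + 1) + Chebyshev.theta (4 * k : ℕ) - Chebyshev.theta (4 * k / 3 : ℕ) ≤
      2 * (Chebyshev.psi (4 * k : ℕ) - Chebyshev.theta (4 * k : ℕ)) + 2 * Chebyshev.theta x +
      2 * ((Ioc x (4 * k)).filter (fun p => p.Prime ∧ p % 4 = 1)).card * Real.log (4 * k : ℕ) := by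
  have h1 := sum_chi_log k
  set N := 4 * k with hN
  have hth : ∀ M ≤ N, Chebyshev.theta (M : ℕ) =
      ∑ d ∈ Ioc 0 N, if d.Prime ∧ d ≤ M then vonMangoldt d else 0 := by
    intro M hM
    rw [Chebyshev.theta, Nat.floor_natCast, ← sum_filter]
    refine sum_congr ?_ fun d hd => (vonMangoldt_apply_prime (mem_filter.1 hd).2.1).symm
    ext d
    simp only [mem_filter, mem_Ioc]
    constructor
    · rintro ⟨⟨a, b⟩, c⟩; exact ⟨⟨a, b.trans hM⟩, c, b⟩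
    · rintro ⟨⟨a, _⟩, c, b⟩; exact ⟨⟨a, b⟩, c⟩
  have hc : (((Ioc x N).filter (fun p => p.Prime ∧ p % 4 = 1)).card : ℝ) =
      ∑ d ∈ Ioc 0 N, if x < d ∧ d.Prime ∧ d % 4 = 1 then 1 else 0 := by
    rw [sum_boole]
    congr 2
    ext d
    simp only [mem_filter, mem_Ioc]
    constructor
    · rintro ⟨⟨a, b⟩, c⟩; exact ⟨⟨by omega, b⟩, a, c⟩
    · rintro ⟨⟨_, b⟩, a, c⟩; exact ⟨⟨a, b⟩, c⟩
  rw [Chebyshev.psi_sub_theta_eq_sum_not_prime, Nat.floor_natCast, sum_filter, hth N le_rfl,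
    hth (N / 3) (Nat.div_le_self _ _), hth x hxN, hc, mul_assoc, sum_mul, mul_sum, mul_sum, mul_sum,
    ← sum_add_distrib, ← sum_add_distrib, add_sub_assoc, ← sum_sub_distrib]
  rw [chi_conv] at h1
  refine (add_le_add_left h1 _).trans ?_
  rw [← sum_add_distrib]
  refine sum_le_sum fun d hd => ?_
  obtain ⟨d1, d2⟩ := mem_Ioc.1 hd
  have a1 : 0 ≤ vonMangoldt d := vonMangoldt_nonneg
  have a2 : vonMangoldt d ≤ Real.log N :=
    vonMangoldt_le_log.trans (Real.log_le_log (by exact_mod_cast d1) (by exact_mod_cast d2))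
  have a3 : ¬ d ≤ N / 3 → (N / d) % 4 = 1 ∨ (N / d) % 4 = 2 := by
    intro h
    have b1 : 0 < N / d := Nat.div_pos d2 d1
    have b2 : N / d < 3 := by rw [Nat.div_lt_iff_lt_mul d1]; omega
    omega
  have a4 : d.Prime → d % 2 = 0 → d ≤ x := fun hp h2 => by
    rcases hp.eq_two_or_odd with h | h <;> omega
  rw [sum_chi, chi_apply]
  by_cases hp : d.Prime
  · simp only [hp, d2, true_and, not_true_eq_false, if_true, if_false]
    have a5 := a4 hp
    split_ifs <;> first | omega | linarith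
  · simp only [hp, false_and, and_false, not_false_eq_true, if_true, if_false]
    split_ifs <;> linarith

theorem many_primes {y : ℕ} (hy : 5000 ≤ y) :
    2 ^ y ≤ y * ((Ioc (2 ^ y) (2 ^ (y + 5))).filter (fun p => p.Prime ∧ p % 4 = 1)).card := by
  have e : 2 ^ (y + 5) = 4 * (8 * 2 ^ y) := by ring
  have hx2 : 2 ^ 1 ≤ 2 ^ y := Nat.pow_le_pow_right (by norm_num) (by omega)
  have h := primes_ineq (8 * 2 ^ y) (2 ^ y) hx2 (by omega)
  rw [← e] at h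
  set n := ((Ioc (2 ^ y) (2 ^ (y + 5))).filter (fun p => p.Prime ∧ p % 4 = 1)).card
  have h1 := Chebyshev.theta_ge (2 ^ (y + 5))
  have h2 := Chebyshev.theta_le_log4_mul_x (x := ((2 ^ (y + 5) / 3 : ℕ) : ℝ)) (by positivity)
  have h3 := Chebyshev.theta_le_log4_mul_x (x := ((2 ^ y : ℕ) : ℝ)) (by positivity)
  have h4 := Chebyshev.psi_sub_theta_le (x := ((2 ^ (y + 5) : ℕ) : ℝ))
    (by exact_mod_cast Nat.one_le_two_pow)
  have h5 : ((2 ^ (y + 5) / 3 : ℕ) : ℝ) ≤ ((2 ^ (y + 5) : ℕ) : ℝ) / 3 := Nat.cast_div_le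
  have c1 : 1152 * (y + 5) ^ 2 ≤ 2 ^ y := by
    have a1 := cube_le_pow (j := y) (by omega)
    have a2 : (y + 5) ^ 2 ≤ (2 * y) ^ 2 := Nat.pow_le_pow_left (by omega) 2
    have a3 : 4608 * y ^ 2 ≤ y * y ^ 2 := Nat.mul_le_mul_right _ (by omega)
    calc _ ≤ 1152 * (2 * y) ^ 2 := Nat.mul_le_mul_left _ a2
      _ = 4608 * y ^ 2 := by ring
      _ ≤ y * y ^ 2 := a3
      _ = y ^ 3 := by ring
      _ ≤ _ := a1
  have c2 : 2 * (y + 6) ≤ 2 ^ y := by
    have : y + 5 ≤ (y + 5) ^ 2 := Nat.le_self_pow (by norm_num) _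
    omega
  have c3 : ((1152 * (y + 5) ^ 2 : ℕ) : ℝ) ≤ ((2 ^ y : ℕ) : ℝ) := by exact_mod_cast c1
  have c4 : ((2 * (y + 6) : ℕ) : ℝ) ≤ ((2 ^ y : ℕ) : ℝ) := by exact_mod_cast c2
  have c5 : (5 : ℝ) ≤ y := by exact_mod_cast (by omega : 5 ≤ y)
  have c6 : (0 : ℝ) ≤ n := by positivity
  suffices hs : ((2 ^ y : ℕ) : ℝ) ≤ y * n by exact_mod_cast hs
  have l4 : Real.log 4 = 2 * Real.log 2 := by
    rw [show (4 : ℝ) = 2 ^ 2 by norm_num, Real.log_pow]; norm_num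
  have lN : Real.log ((2 ^ (y + 5) : ℕ) : ℝ) = (y + 5) * Real.log 2 := by
    push_cast; rw [Real.log_pow]; push_cast; ring
  have lN1 : Real.log (((2 ^ (y + 5) : ℕ) : ℝ) + 1) ≤ (y + 6) * Real.log 2 := by
    have a1 : (1 : ℝ) ≤ 2 ^ (y + 5) := one_le_pow₀ (by norm_num)
    have a2 : ((2 ^ (y + 5) : ℕ) : ℝ) + 1 ≤ 2 ^ (y + 6) := by
      push_cast; rw [pow_succ _ (y + 5)]; linarith
    refine (Real.log_le_log (by positivity) a2).trans (le_of_eq ?_)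
    rw [Real.log_pow]; push_cast; ring
  have e2 : (4 : ℝ) * ((8 * 2 ^ y : ℕ) : ℝ) = ((2 ^ (y + 5) : ℕ) : ℝ) := by exact_mod_cast e.symm
  have e3 : ((2 ^ (y + 5) : ℕ) : ℝ) = 32 * ((2 ^ y : ℕ) : ℝ) := by push_cast; ring
  have sq : 6 * √((2 ^ (y + 5) : ℕ) : ℝ) * (y + 5) ≤ ((2 ^ y : ℕ) : ℝ) := by
    refine le_of_sq_le_sq ?_ (by positivity)
    rw [mul_pow, mul_pow, Real.sq_sqrt (by positivity), e3]
    have := mul_le_mul_of_nonneg_left c3 (by positivity : (0 : ℝ) ≤ ((2 ^ y : ℕ) : ℝ))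
    push_cast at this ⊢
    linarith
  rw [e2] at h
  rw [lN] at h h1 h4
  rw [l4] at h2 h3
  clear hy c1 c2 hx2 e
  set x : ℝ := ((2 ^ y : ℕ) : ℝ)
  set l := Real.log 2
  have hl : 0 < l := Real.log_pos (by norm_num)
  have m1 := mul_le_mul_of_nonneg_right sq hl.le
  have m2 := mul_le_mul_of_nonneg_left h5 (by positivity : 0 ≤ 2 * l)
  have m3 : ((2 * (y + 6) : ℕ) : ℝ) * l ≤ x * l := mul_le_mul_of_nonneg_right c4 hl.le
  have m4 : 2 * (n : ℝ) * ((y + 5) * l) ≤ 4 * (y * n) * l := by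
    have := mul_le_mul_of_nonneg_right (mul_le_mul_of_nonneg_left c5 c6) hl.le
    linarith
  have hx0 : 0 ≤ x * l := by positivity
  rw [e3] at m2
  nth_rewrite 1 [e3] at h1
  push_cast at m3
  refine le_of_mul_le_mul_right ?_ hl
  linarith

end Vale.Agent.P015
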