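import Vale.Agent.P015.CellB
import Vale.Agent.P015.Primes

namespace Vale.Agent.P015

open Finset

theorem harm {a : ℕ} (ha : 1 ≤ a) (K : ℕ) : (K : ℝ) / 2 ≤ ∑ j ∈ Ico a (2 ^ K * a), 1 / (j : ℝ) := by
  induction K with
  | zero => simp
  | succ K ih =>
    have h1 : a ≤ 2 ^ K * a := Nat.le_mul_of_pos_left _ (by positivity)
    have h2 : 2 ^ (K + 1) * a = 2 * (2 ^ K * a) := by ring
    rw [h2, ← sum_Ico_consecutive _ h1 (by omega)]
    set b := 2 ^ K * a
    have hb : (0 : ℝ) < b := by exact_mod_cast (by omega : 0 < b)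
    have h3 : ∑ _j ∈ Ico b (2 * b), 1 / (2 * b : ℝ) ≤ ∑ j ∈ Ico b (2 * b), 1 / (j : ℝ) := by
      refine sum_le_sum fun j hj => ?_
      obtain ⟨j1, j2⟩ := mem_Ico.1 hj
      exact one_div_le_one_div_of_le (by exact_mod_cast (by omega : 0 < j)) (by exact_mod_cast j2.le)
    rw [sum_const, Nat.card_Ico, nsmul_eq_mul, show 2 * b - b = b by omega] at h3
    have h4 : (b : ℝ) * (1 / (2 * b)) = 1 / 2 := by field_simp
    push_cast
    linarith

theorem exists_Vo {ι : Type} [Fintype ι] {P : ι → ℕ} [hP : ∀ i, Fact (P i).Prime]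
    (hinj : Function.Injective P) (r : ∀ i, ZMod (P i)) (T : Finset ι) {X : ℕ}
    (hX : ∀ i ∈ T, P i ≤ X) :
    ∃ Vo : Finset (∀ i, ZMod (P i)), (∀ v, res r T v ∈ Vo) ∧ Real.log Vo.card ≤ 2 * X := by
  classical
  refine ⟨Fintype.piFinset fun i => if i ∈ T then univ else {0}, fun v => ?_, ?_⟩
  · rw [Fintype.mem_piFinset]
    intro i
    by_cases hi : i ∈ T <;> simp [res, trunc, hi]
  · have h1 : (Fintype.piFinset fun i => if i ∈ T then (univ : Finset (ZMod (P i))) else {0}).card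
        = ∏ p ∈ T.image P, p := by
      rw [Fintype.card_piFinset, prod_image hinj.injOn, ← prod_filter_mul_prod_filter_not _ (· ∈ T),
        prod_eq_one (s := univ.filter (· ∉ T)) (fun i hi => by simp [(mem_filter.1 hi).2]), mul_one]
      refine prod_congr (by simp) fun i hi => by simp [hi]
    have h2 : ∏ p ∈ T.image P, p ≤ primorial X := by
      refine prod_le_prod_of_subset_of_one_le' (fun p hp => ?_) fun p hp _ => (mem_filter.1 hp).2.pos
      obtain ⟨i, hi, rfl⟩ := mem_image.1 hp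
      exact mem_filter.2 ⟨mem_range.2 (Nat.lt_succ_of_le (hX i hi)), (hP i).out⟩
    have h3 : 0 < ∏ p ∈ T.image P, p := prod_pos fun p hp => by
      obtain ⟨i, _, rfl⟩ := mem_image.1 hp
      exact (hP i).out.pos
    have h4 : ((∏ p ∈ T.image P, p : ℕ) : ℝ) ≤ 2 ^ (2 * X) := by
      rw [pow_mul]; exact_mod_cast h2.trans (primorial_le_four_pow X)
    rw [h1]
    refine (Real.log_le_log (by exact_mod_cast h3) h4).trans ((log_two_pow_le _).trans ?_)
    push_cast; exact le_rfl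

theorem bas_inj {j s j' s' : ℕ} (hj : 1 ≤ j) (hj' : 1 ≤ j') (h : Valid j s) (h' : Valid j' s')
    (e : bas j s = bas j' s') : j = j' ∧ s = s' := by
  obtain ⟨h1, h2⟩ := h
  obtain ⟨h3, h4⟩ := h'
  have a2 : 12 * j * 1 ≤ 12 * j * s := Nat.mul_le_mul_left _ h1
  have a3 : 12 * j' * 1 ≤ 12 * j' * s' := Nat.mul_le_mul_left _ h3
  unfold bas at e
  rcases lt_trichotomy j' j with hj | rfl | hj
  · have a1 : 2 ^ (j' + 1) ≤ 2 ^ j := Nat.pow_le_pow_right (by norm_num) hj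
    rw [pow_succ] at a1
    omega
  · exact ⟨rfl, Nat.eq_of_mul_eq_mul_left (by omega : 0 < 12 * j') (by omega)⟩
  · have a1 : 2 ^ (j + 1) ≤ 2 ^ j' := Nat.pow_le_pow_right (by norm_num) hj
    rw [pow_succ] at a1
    omega

def tau (D j s : ℕ) : ℕ := (bas j s + 240 - (2 * D + 1)) / 2

theorem big_pow {j : ℕ} (hj : 2000 ≤ j) : 2000 * j ≤ 2 ^ j := by
  have a1 := cube_le_pow (j := j) (by omega)
  have a2 : 2000 ≤ j ^ 2 := le_trans (by omega) (Nat.le_self_pow (by norm_num) _)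
  exact le_trans (Nat.mul_le_mul_right _ a2) (le_of_eq_of_le (by ring) a1)

theorem sum_cells {D a K : ℕ} (ha : 2000 ≤ a) (hD : D ≤ a) {ε : ℝ} (hε0 : 0 < ε) (g : ℕ → ℝ)
    (hg : ∀ τ ∈ range (9 * 2 ^ (2 ^ K * a) + 1), 0 ≤ g τ)
    (hcell : ∀ j s, a ≤ j → j < 2 ^ K * a → Valid j s → ε / (3 * 2 ^ j) ≤ g (tau D j s)) :
    ε / 72 * (K / 2) ≤ ∑ τ ∈ range (9 * 2 ^ (2 ^ K * a) + 1), g τ := by
  classical
  have h3 := mul_le_mul_of_nonneg_left (harm (a := a) (by omega) K) (by positivity : 0 ≤ ε / 72)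
  generalize 2 ^ K * a = j1 at *
  have p1 : ∀ {a b : ℕ}, a ≤ b → 2 ^ a ≤ 2 ^ b := fun hab => Nat.pow_le_pow_right (by norm_num) hab
  let cells : Finset (Σ _ : ℕ, ℕ) := (Ico a j1).sigma fun j => Icc 1 (2 ^ j / (12 * j))
  have hmem : ∀ c ∈ cells, a ≤ c.1 ∧ c.1 < j1 ∧ Valid c.1 c.2 := by
    intro c hc
    obtain ⟨c1, c2⟩ := mem_sigma.1 hc
    obtain ⟨c3, c4⟩ := mem_Ico.1 c1
    obtain ⟨c5, c6⟩ := mem_Icc.1 c2
    exact ⟨c3, c4, c5, (Nat.mul_le_mul_left _ c6).trans (Nat.mul_div_le _ _)⟩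
  have hinj : Set.InjOn (fun c : (Σ _ : ℕ, ℕ) => tau D c.1 c.2) cells := by
    rintro ⟨j, s⟩ hc ⟨j', s'⟩ hc' e
    obtain ⟨c1, -, c3⟩ := hmem _ hc
    obtain ⟨c1', -, c3'⟩ := hmem _ hc'
    simp only [tau] at e c1 c1' c3 c3'
    have a1 := big_pow (j := j) (by omega)
    have a2 := big_pow (j := j') (by omega)
    have a4 : 2 ^ j ≤ bas j s := Nat.le_add_right _ _
    have a5 : 2 ^ j' ≤ bas j' s' := Nat.le_add_right _ _
    have : bas j s = bas j' s' := by
      rcases lt_trichotomy (bas j s) (bas j' s') with h | h | h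
      · have := bas_gap c3' c3 h; omega
      · exact h
      · have := bas_gap c3 c3' h; omega
    obtain ⟨rfl, rfl⟩ := bas_inj (by omega) (by omega) c3 c3' this
    rfl
  have h1 : ∑ c ∈ cells, ε / (3 * 2 ^ c.1) ≤ ∑ τ ∈ range (9 * 2 ^ j1 + 1), g τ := by
    refine (sum_le_sum fun c hc => hcell c.1 c.2 (hmem c hc).1 (hmem c hc).2.1
      (hmem c hc).2.2).trans ?_
    rw [← sum_image (f := g) hinj]
    refine sum_le_sum_of_subset_of_nonneg (fun τ hτ => ?_) fun τ hτ _ => hg τ hτ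
    obtain ⟨c, hc, rfl⟩ := mem_image.1 hτ
    obtain ⟨c1, c2, c3⟩ := hmem c hc
    have a1 := big_pow (j := c.1) (by omega)
    have a2 := c3.2
    have a3 := p1 c2.le
    refine mem_range.2 ?_
    rw [tau, bas]; omega
  have h2 : ε / 72 * ∑ j ∈ Ico a j1, 1 / (j : ℝ) ≤ ∑ c ∈ cells, ε / (3 * 2 ^ c.1) := by
    rw [sum_sigma, mul_sum]
    refine sum_le_sum fun j hj => ?_
    obtain ⟨c1, -⟩ := mem_Ico.1 hj
    have a1 := big_pow (j := j) (by omega)
    have a2 : 2 ^ j < 12 * j * (2 ^ j / (12 * j) + 1) := Nat.lt_mul_div_succ _ (by omega)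
    have a3 : 0 < 2 ^ j / (12 * j) := Nat.div_pos (by omega) (by omega)
    have a4 : 12 * j * (2 ^ j / (12 * j) + 1) ≤ 12 * j * (2 * (2 ^ j / (12 * j))) :=
      Nat.mul_le_mul_left _ (by omega)
    have a5 : ((2 ^ j : ℕ) : ℝ) ≤ ((12 * j * (2 * (2 ^ j / (12 * j))) : ℕ) : ℝ) := by
      exact_mod_cast a2.le.trans a4
    have a6 : (0 : ℝ) < j := by exact_mod_cast (by omega : 0 < j)
    simp only [sum_const, Nat.card_Icc, Nat.add_sub_cancel, nsmul_eq_mul]
    generalize 2 ^ j / (12 * j) = q at a5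
    push_cast at a5
    have a7 : ε / 72 * (1 / (j : ℝ)) = 2 ^ j / (24 * j) * (ε / (3 * 2 ^ j)) := by
      field_simp; norm_num
    rw [a7]
    gcongr
    rw [div_le_iff₀ (by positivity)]
    linarith
  linarith

/-- Every injective walk with bounded steps meets a point whose norm has a bounded prime factor. -/
theorem exists_small_divisor (D : ℕ) : ∃ B : ℕ, ∀ z : ℕ → ℤ × ℤ, Function.Injective z →
    (∀ n, Sm D (z (n + 1) - z n)) → ∃ n p, p.Prime ∧ p ≤ B ∧ (p : ℤ) ∣ dot2 (z n) (z n) := by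
  classical
  obtain ⟨ε, hε⟩ : ∃ ε : ℝ, ε = 1 / 2 ^ 264 := ⟨_, rfl⟩
  have hε0 : 0 < ε := by rw [hε]; positivity
  obtain ⟨K, hK⟩ := exists_nat_gt (144 * Real.log (Box D).card / ε)
  obtain ⟨N, hN⟩ : ∃ N, N = K + D + 2000 := ⟨_, rfl⟩
  obtain ⟨j1, hj1⟩ : ∃ j1, j1 = 2 ^ K * (2 * N) := ⟨_, rfl⟩
  obtain ⟨B, hB⟩ : ∃ B, B = 2 ^ (3 * 2 ^ j1) := ⟨_, rfl⟩
  refine ⟨B, fun z hz hs => ?_⟩
  by_contra hcon
  push Not at hcon
  have p1 : ∀ {a b : ℕ}, a ≤ b → 2 ^ a ≤ 2 ^ b := fun hab => Nat.pow_le_pow_right (by norm_num) hab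
  let Pr : Finset ℕ := (range (B + 1)).filter (fun p => p.Prime ∧ p % 4 = 1)
  let P : Pr → ℕ := Subtype.val
  have hP : ∀ i, Fact (P i).Prime := fun i => ⟨(mem_filter.1 i.2).2.1⟩
  have hr : ∀ i, ∃ r : ZMod (P i), r ^ 2 = -1 := by
    intro i
    obtain ⟨r, hr⟩ := ZMod.exists_sq_eq_neg_one_iff.2
      (show P i % 4 ≠ 3 by have := (mem_filter.1 i.2).2.2; simp only [P]; omega)
    exact ⟨r, by rw [sq, ← hr]⟩
  choose r hr using hr
  let C : Cfg Pr P :=
    { z := z, D := D, r := r, tt := 9 * 2 ^ j1, top := B + 1, geo := geoP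
      S := fun τ => univ.filter fun i => ∃ j s, Valid j s ∧ tau D j s ≤ τ ∧
        P i ≤ 2 ^ (bas j s + 245) }
  have hj1' : 9 * 2 ^ j1 ≤ 2 ^ (j1 + 4) := by rw [pow_add]; omega
  have hj1'' : j1 < 2 ^ j1 := Nat.lt_two_pow_self
  have hj0 : 2 * N ≤ j1 := hj1 ▸ Nat.le_mul_of_pos_left _ (by positivity)
  have hC : C.OK :=
    { inj := hz, step := hs, hr := hr, Pinj := Subtype.val_injective
      avoid := fun n i h0 => hcon n (P i) (hP i).out
        (Nat.lt_succ_iff.1 (mem_range.1 (mem_filter.1 i.2).1)) (rho_dvd_norm (hr i) h0)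
      le := by
        have := p1 (by omega : j1 + 4 ≤ 3 * 2 ^ j1)
        change 9 * 2 ^ j1 ≤ B + 1
        omega
      mono := fun τ i hi => by
        obtain ⟨j, s, h1, h2, h3⟩ := (mem_filter.1 hi).2
        exact mem_filter.2 ⟨mem_univ _, j, s, h1, by omega, h3⟩ }
  have htt : j1 + 4 ≤ 2 ^ (2 * N - 3) := by
    have a1 := cube_le_pow (j := N - 3) (by omega)
    have a2 : 3 * (N - 3) ≤ (N - 3) ^ 3 := by
      have : 3 ≤ (N - 3) ^ 2 := le_trans (by omega) (Nat.le_self_pow (by norm_num) _)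
      rw [pow_succ]; exact Nat.mul_le_mul_right _ this
    have a3 : 2 ^ (2 * N - 3) = 2 ^ N * 2 ^ (N - 3) := by rw [← pow_add]; congr 1; omega
    have a4 : 2 ^ K * (2 * N + 4) ≤ 2 ^ N * 2 ^ (N - 3) :=
      Nat.mul_le_mul (p1 (by omega)) (by omega)
    have a5 : 0 < 2 ^ K := by positivity
    rw [mul_add] at a4
    omega
  have hcell : ∀ j s, 2 * N ≤ j → j < j1 → Valid j s →
      ε / (3 * 2 ^ j) ≤ (C.mu (tau D j s)).E (C.kl (tau D j s)) / 2 ^ tau D j s := by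
    intro j s h1 h2 h3
    have a1 := big_pow (j := j) (by omega)
    have a2 := h3.2
    have a3 := p1 h2.le
    have a4 : 2 ^ j ≤ bas j s := Nat.le_add_right _ _
    have a5 : bas j s ≤ 2 * 2 ^ j := by rw [bas]; omega
    have a6 : tau D j s = (bas j s + 240 - (2 * D + 1)) / 2 := rfl
    have hcl : C.Cell (univ.filter fun i => 2 ^ (bas j s + 240) < P i ∧
        P i ≤ 2 ^ (bas j s + 240 + 5)) j s (bas j s + 240) (tau D j s) :=
      { ok := hC, geo := rfl, hj := by omega, hD := by change D ≤ j; omega, val := h3, hy := rfl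
        t1 := by change _ ≤ 9 * 2 ^ j1; omega
        t2 := hj1'.trans (p1 (htt.trans (p1 (by omega))))
        top := by
          have := p1 (by omega : bas j s + 240 ≤ 3 * 2 ^ j1)
          change _ ≤ B + 1
          omega
        hF := fun i hi => ⟨(mem_filter.1 hi).2.1.le, (mem_filter.1 hi).2.2⟩
        hn := by
          refine (many_primes (by omega)).trans (Nat.mul_le_mul_left _ ?_)
          refine card_le_card_of_surjOn Subtype.val fun p hp => ?_
          obtain ⟨b1, b2⟩ := mem_filter.1 (mem_coe.1 hp)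
          obtain ⟨b3, b4⟩ := mem_Ioc.1 b1
          have := p1 (by omega : bas j s + 240 + 5 ≤ 3 * 2 ^ j1)
          exact ⟨⟨p, mem_filter.2 ⟨mem_range.2 (by omega), b2⟩⟩,
            mem_coe.2 (mem_filter.2 ⟨mem_univ _, b3, b4⟩), rfl⟩
        τ1 := by change _ + 2 * D + 1 ≤ _; omega
        τ2 := by change _ ≤ _ + 2 * D + 2; omega
        hS := fun i hi => mem_filter.2 ⟨mem_univ _, j, s, h3, le_rfl, (mem_filter.1 hi).2.2⟩ }
    obtain ⟨Vo, v1, v2⟩ := exists_Vo hC.Pinj r (C.So (tau D j s)) (X := 2 ^ (bas j s - 25)) (by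
      obtain ⟨t, ht⟩ : ∃ t, tau D j s = t + 1 := ⟨tau D j s - 1, by omega⟩
      rw [ht]
      intro i hi
      obtain ⟨j', s', c1, c2, c3⟩ := (mem_filter.1 hi).2
      have c4 : tau D j' s' = (bas j' s' + 240 - (2 * D + 1)) / 2 := rfl
      have := bas_gap h3 c1 (by omega)
      exact c3.trans (p1 (by omega)))
    rw [hε]
    refine hcl.main v1 (v2.trans (le_of_eq ?_))
    rw [show bas j s - 24 = bas j s - 25 + 1 by omega, pow_succ]
    push_cast; ring
  have h1 := Cfg.budget hC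
  have h2 := sum_cells (D := D) (a := 2 * N) (K := K) (by omega) (by omega) hε0
    (fun τ => (C.mu τ).E (C.kl τ) / 2 ^ τ) (by
      rw [← hj1]
      exact fun τ hτ => div_nonneg (Cfg.E_kl_nonneg hC (Nat.lt_succ_iff.1 (mem_range.1 hτ)))
        (by positivity)) (by rw [← hj1]; exact hcell)
  rw [← hj1] at h2
  have h3 := h2.trans h1
  rw [div_lt_iff₀ hε0] at hK
  change _ ≤ Real.log (Box D).card at h3
  linarith

end Vale.Agent.P015
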