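import Vale.Agent.P015.Budget

namespace Vale.Agent.P015

open Finset

variable {ι : Type} {P : ι → ℕ}

theorem card_rho_zero_le [hP : ∀ i, Fact (P i).Prime] (hinj : Function.Injective P)
    {r : ∀ i, ZMod (P i)} (hr : ∀ i, r i ^ 2 = -1) {Fam : Finset ι} {x : ℕ} (hx : 2 ≤ x)
    (hF : ∀ i ∈ Fam, x ≤ P i) {w : ℤ × ℤ} (hw : w ≠ 0) (hx8 : dot2 w w < (x : ℤ) ^ 8) :
    (Fam.filter (fun i => rho r i w = 0)).card ≤ 7 := by
  set F := Fam.filter (fun i => rho r i w = 0) with hFd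
  have h1 := prod_dvd hinj F (n := dot2 w w) (fun i hi => rho_dvd_norm (hr i) (mem_filter.1 hi).2)
  have h2 := Int.le_of_dvd (dot2_self_pos hw) h1
  have h3 : (x : ℤ) ^ F.card ≤ ∏ i ∈ F, (P i : ℤ) := by
    rw [← prod_const]
    refine prod_le_prod (fun _ _ => by positivity) fun i hi => ?_
    exact_mod_cast hF i (mem_filter.1 hi).1
  have h4 : (x : ℤ) ^ F.card < (x : ℤ) ^ 8 := by linarith
  have := (pow_lt_pow_iff_right₀ (by exact_mod_cast (by omega : 1 < x))).1 h4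
  omega

theorem dot2_le_of_sm {R : ℤ} {w : ℤ × ℤ} (h : Sm R w) : dot2 w w ≤ 2 * R ^ 2 := by
  have h1 := sq_le_sq' (abs_le.1 h.1).1 (abs_le.1 h.1).2
  have h2 := sq_le_sq' (abs_le.1 h.2).1 (abs_le.1 h.2).2
  simp only [dot2]; nlinarith

namespace Cfg

variable (C : Cfg ι P)

noncomputable def V (τ u : ℕ) : Ex (ℤ × ℤ) :=
  (C.q τ (C.Y τ u)).bind fun x =>
    (Ex.unif (range (2 ^ τ)) (nonempty_range_iff.2 (by positivity))).map fun j => C.z u + x j

noncomputable def Site (τ L a : ℕ) : Ex (ℤ × ℤ) := (C.desc L τ a).bind (C.V τ)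

theorem Site_trans {τ L H : ℕ} (h1 : τ ≤ L) (h2 : L ≤ H) (a : ℕ) :
    C.Site τ H a = (C.desc H L a).bind (C.Site τ L) := by
  rw [Site, C.desc_trans h1 h2]; rfl

variable {C}

theorem sm_diff (hC : C.OK) {a u n : ℕ} (h1 : a ≤ u) (h2 : u ≤ a + n) :
    Sm ((C.D * n : ℕ) : ℤ) (C.z u - C.z a) := by
  have := Sm_path hC.step a (u - a)
  rw [Nat.add_sub_cancel' h1] at this
  refine this.mono ?_
  have : C.D * (u - a) ≤ C.D * n := Nat.mul_le_mul_left _ (by omega)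
  exact_mod_cast this

theorem V_sm (hC : C.OK) (τ u : ℕ) :
    (C.V τ u).AS (fun v => Sm ((C.D * 2 ^ τ : ℕ) : ℤ) (v - C.z u)) := by
  refine Ex.AS.bind (A := fun x => ∀ j, Sm ((C.D * 2 ^ τ : ℕ) : ℤ) (x j))
    (Ex.AS.map (Ex.AS.of_forall _ fun u' j => ?_)) fun x hx =>
      Ex.AS.map (Ex.AS.of_forall _ fun j => by simpa using hx j)
  exact sm_diff hC (Nat.le_add_right _ _) (Nat.add_le_add_left (min_le_right _ _) _)

theorem Site_sm (hC : C.OK) {τ L : ℕ} (h : τ ≤ L) (a : ℕ) :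
    (C.Site τ L a).AS (fun v => Sm ((C.D * 2 ^ L : ℕ) : ℤ) (v - C.z a)) := by
  refine (C.desc_offset h a).bind fun u hu => (V_sm hC τ u).mono fun v hv => ?_
  have h1 := hv.add (sm_diff hC hu.1 (n := 2 ^ L - 2 ^ τ) (by omega))
  rw [sub_add_sub_cancel] at h1
  refine h1.mono (le_of_eq ?_)
  rw [← Nat.cast_add, ← mul_add, Nat.add_sub_cancel' (Nat.pow_le_pow_right (by norm_num) h)]

theorem wt_Site_le (hC : C.OK) {τ L : ℕ} (h : τ ≤ L) (hL : L ≤ C.tt) (a : ℕ) (v : ℤ × ℤ) :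
    (C.Site τ L a).wt v ≤ (2 * (C.D * 2 ^ τ) + 1) ^ 2 * (2 ^ τ / 2 ^ L) := by
  classical
  have hinj : Function.Injective (fun u => v - C.z u) := fun u u' e => hC.inj (sub_right_injective e)
  have h1 : (C.Site τ L a).wt v ≤ (C.desc L τ a).E
      (fun u => if v - C.z u ∈ Box ((C.D * 2 ^ τ : ℕ) : ℤ) then 1 else 0) := by
    refine (C.desc L τ a).E_mono (f := fun u => (C.V τ u).wt v) fun u => ?_
    split_ifs with hu
    · exact Ex.wt_le_one _ _
    · refine le_trans ((V_sm hC τ u).E_le (g := fun _ => 0) fun w hw => ?_) (Ex.E_const _ _).le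
      have : w ≠ v := fun e => hu (mem_Box.2 (e ▸ hw))
      simp [this]
  refine h1.trans ((Ex.E_ite_mem_le _ ((Box ((C.D * 2 ^ τ : ℕ) : ℤ)).preimage _ hinj.injOn)
    (fun u _ => C.wt_desc_le h hL a u) (fun u hu => mem_preimage.2 hu)).trans ?_)
  gcongr
  have := card_le_card_of_injOn (s := (Box ((C.D * 2 ^ τ : ℕ) : ℤ)).preimage _ hinj.injOn)
    (t := Box ((C.D * 2 ^ τ : ℕ) : ℤ)) (fun u => v - C.z u)
    (fun u hu => mem_coe.2 (mem_preimage (f := fun u => v - C.z u).1 (mem_coe.1 hu))) hinj.injOn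
  rw [card_Box] at this
  exact_mod_cast this

variable [hP : ∀ i, Fact (P i).Prime]

variable (C) in
noncomputable def fA (τ L : ℕ) (σ : ℝ) (i : ι) (a : ℕ) : ℝ :=
  ff ((C.Site τ L a).map (rho C.r i)) σ

variable (C) in
noncomputable def Phi (Fam : Finset ι) (τ L : ℕ) (σ : ℝ) : ℝ :=
  (C.mu L).E (fun a => (∑ i ∈ Fam, C.fA τ L σ i a) / Fam.card)

theorem phiA_base (hC : C.OK) {Fam : Finset ι} (hne : Fam.Nonempty) {x X τ L : ℕ} (hx : 2 ≤ x)
    (hF : ∀ i ∈ Fam, x ≤ P i ∧ P i ≤ X) (h : τ ≤ L) (hL : L ≤ C.tt)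
    (h8 : 2 * (2 * (C.D * 2 ^ L)) ^ 2 < x ^ 8) {δ σ : ℝ}
    (hδ : (2 * (C.D * 2 ^ τ) + 1) ^ 2 * (2 ^ τ / 2 ^ L) ≤ δ) (hσ : 0 ≤ σ) :
    σ - σ ^ 2 / 2 * (X * (δ + 7 / Fam.card)) ≤ C.Phi Fam τ L σ := by
  classical
  have hn : (0 : ℝ) < Fam.card := by exact_mod_cast hne.card_pos
  rw [← (C.mu L).E_const (σ - _)]
  refine Ex.E_mono _ fun a => ?_
  set μ := C.Site τ L a with hμ
  have e1 : ∀ i, ∑ c, ((μ.map (rho C.r i)).wt c) ^ 2 =
      μ.E (fun v => μ.E (fun v' => if rho C.r i v' = rho C.r i v then 1 else 0)) := by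
    intro i
    have := E_eq_sum_univ (μ.map (rho C.r i)) (μ.map (rho C.r i)).wt
    simp only [sq, ← this]
    simp only [Ex.E_map, Ex.wt]
    congr 1; funext v; congr 1; funext v'; congr 1
  have e2 : ∑ i ∈ Fam, ∑ c, ((μ.map (rho C.r i)).wt c) ^ 2 ≤ 7 + Fam.card * δ := by
    simp only [e1]
    rw [← Ex.E_sum, ← μ.E_const (7 + _)]
    refine (Site_sm hC h a).E_le fun v hv => ?_
    rw [← Ex.E_sum]
    have e3 : μ.E (fun v' => ∑ i ∈ Fam, if rho C.r i v' = rho C.r i v then (1 : ℝ) else 0) ≤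
        μ.E (fun v' => 7 + Fam.card * if v' = v then 1 else 0) := by
      refine (Site_sm hC h a).E_le fun v' hv' => ?_
      rw [sum_boole]
      split_ifs with hvv
      · have : ((Fam.filter fun i => rho C.r i v' = rho C.r i v).card : ℝ) ≤ Fam.card := by
          exact_mod_cast card_filter_le _ _
        linarith
      · have h1 := hv'.add hv.neg
        have e : v' - C.z a + -(v - C.z a) = v' - v := by abel
        rw [e] at h1
        have h2 := card_rho_zero_le hC.Pinj hC.hr hx (fun i hi => (hF i hi).1)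
          (sub_ne_zero.2 hvv) (lt_of_le_of_lt (dot2_le_of_sm h1) (by
            rw [← two_mul]; exact_mod_cast h8))
        simp only [map_sub, sub_eq_zero] at h2
        simp only [mul_zero, add_zero]
        exact_mod_cast h2
    refine e3.trans ?_
    rw [Ex.E_add, Ex.E_const, Ex.E_const_mul]
    have h3 := (wt_Site_le hC h hL a v).trans hδ
    have h4 : μ.E (fun v' => if v' = v then (1 : ℝ) else 0) = μ.wt v := by
      simp only [Ex.wt]; congr 1; funext v'; congr 1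
    rw [h4]
    gcongr
  have e4 : ∑ i ∈ Fam, (σ - σ ^ 2 / 2 * (X * ∑ c, ((μ.map (rho C.r i)).wt c) ^ 2)) ≤
      ∑ i ∈ Fam, C.fA τ L σ i a := by
    refine sum_le_sum fun i hi => le_trans ?_ (ff_ge_base _ hσ)
    rw [ZMod.card]
    have : (P i : ℝ) ≤ X := by exact_mod_cast (hF i hi).2
    gcongr
  rw [sum_sub_distrib, ← mul_sum, ← mul_sum, sum_const, nsmul_eq_mul] at e4
  rw [le_div_iff₀ hn]
  refine le_trans ?_ e4
  have e5 : σ ^ 2 / 2 * (X * ∑ i ∈ Fam, ∑ c, ((μ.map (rho C.r i)).wt c) ^ 2) ≤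
      σ ^ 2 / 2 * (X * (7 + Fam.card * δ)) := by gcongr
  have e6 : (σ - σ ^ 2 / 2 * (X * (δ + 7 / Fam.card))) * Fam.card =
      Fam.card * σ - σ ^ 2 / 2 * (X * (7 + Fam.card * δ)) := by field_simp; ring
  linarith

theorem phiA_step (hC : C.OK) {Fam : Finset ι} {τ τg M L k r : ℕ} (hτL : τ ≤ L) (hLM : L ≤ M)
    (hMg : M ≤ τg) (ht : C.tt ≤ M) (hg : C.geo (τg + 1))
    (hg' : ∀ σ, M < σ → σ ≤ τg → ¬ C.geo σ) (htop : τg + 1 ≤ C.top)
    (hk : 2 * (k + 1) ≤ Fam.card) {Γ : ℝ} (hΓ : 1 ≤ Γ)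
    (hE : ∀ a, Equi C.r Fam k (Dset C.z a (2 ^ τg)) Γ) {σ σ' κ θ γ ℓ : ℝ}
    (hσ : 0 ≤ σ) (hσ' : 0 ≤ σ') (hκ : 0 ≤ κ) (hθ : 0 < θ)
    (hθ1 : θ ≤ 1) (h1 : θ * (r * κ) = σ') (h2 : σ ≤ σ' * (1 - γ))
    (h3 : κ * Real.exp (2 * σ') ≤ 2 * γ) (hℓ : ∀ i ∈ Fam, Real.log (P i) ≤ ℓ) :
    2 * C.Phi Fam τ L σ - θ * ℓ - (Real.log Γ + 2 * lB C.D M + 2 * r * lB C.D L) / (k + 1) -
      8 * (k + 1) / Fam.card * (2 * σ) ≤ C.Phi Fam τ (τg + 1) (2 * σ') := by
  have hn : (0 : ℝ) < Fam.card := by exact_mod_cast (by omega : 0 < Fam.card)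
  have hLg : L ≤ τg + 1 := by omega
  have key : ∀ a, 2 * (C.desc (τg + 1) L a).E (fun b => (∑ i ∈ Fam, C.fA τ L σ i b) / Fam.card) -
      θ * ℓ - (Real.log Γ + 2 * lB C.D M + 2 * r * lB C.D L) / (k + 1) -
      8 * (k + 1) / Fam.card * (2 * σ) ≤
      (∑ i ∈ Fam, C.fA τ (τg + 1) (2 * σ') i a) / Fam.card := by
    intro a
    let μ : ∀ i, Ex (ZMod (P i)) := fun i => (C.Site τ (τg + 1) a).map (rho C.r i)
    let ν : ℕ → Ex (ℤ × ℤ) := fun b => (C.Site τ L b).map (fun v => v - C.z b)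
    let Q : ℤ × ℤ → Ex (ℕ × ℕ) := fun d => (C.desc M L (C.ps τg a d)).bind fun b =>
      (C.desc M L (C.pt τg a d)).map fun b' => (b, b')
    let T : ℤ × ℤ → ℕ × ℕ → (ℤ × ℤ) × (ℤ × ℤ) := fun d b =>
      (C.z b.1 - C.z (C.ps τg a d), C.z b.2 - C.z (C.pt τg a d))
    let kk : ℕ × ℕ → Ex (List (ℤ × ℤ) × List (ℤ × ℤ)) := fun b =>
      ((ν b.1).iid r).bind fun ls => ((ν b.2).iid r).map fun lt => (ls, lt)
    let U : ℕ → Ex (ℤ × ℤ) := fun l => Ex.unif (Box ((C.D * 2 ^ l : ℕ) : ℤ)) (Box_nonempty _)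
    have hν : ∀ b, Ex.DV ((ν b).iid r) ((U L).iid r) (r * lB C.D L) := fun b =>
      (Ex.DV.unif _ (Ex.AS.map ((Site_sm hC hτL b).mono fun v hv => mem_Box.2 hv))).iid r
    have hd : ∀ s, Ex.DV ((C.desc M L s).map fun b => C.z b - C.z s) (U M) (lB C.D M) := fun s =>
      Ex.DV.unif _ (Ex.AS.map ((C.desc_offset hLM s).mono fun u hu =>
        mem_Box.2 (sm_diff hC hu.1 (by have := Nat.zero_le (2 ^ L); omega))))
    have hDV : ∀ d ∈ Dset C.z a (2 ^ τg), Ex.DV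
        ((Q d).bind fun b => (kk b).map (Prod.mk (T d b)))
        (((U M).bind fun e => (U M).map (Prod.mk e)).bind fun e =>
          (((U L).iid r).bind fun ls => ((U L).iid r).map (Prod.mk ls)).map (Prod.mk e))
        (2 * lB C.D M + 2 * r * lB C.D L) := by
      intro d _
      have a1 := Ex.DV.prod Prod.mk (hd (C.ps τg a d)) (hd (C.pt τg a d))
      have a2 := Ex.DV.seq (P := Q d) (T := T d) (k := kk)
        (k' := fun _ => ((U L).iid r).bind fun ls => ((U L).iid r).map (Prod.mk ls))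
        (c' := fun _ => r * lB C.D L + r * lB C.D L) Prod.mk
        (fun F => a1 F) (Ex.AS.of_forall _ fun b => Ex.DV.prod Prod.mk (hν b.1) (hν b.2))
      rw [Ex.E_const] at a2
      exact a2.mono (le_of_eq (by ring))
    have hm := multi_dv hk (Dset_nonempty _ _ _) hΓ (hE a) hDV
      (fun i s δ => wA (gib (μ i) (2 * σ')) κ θ (s.2.1.map fun v => rho C.r i (s.1.1 + v))
        (s.2.2.map fun v => rho C.r i (s.1.2 + v)) δ)
      (fun i s δ => wA_pos _ _ _ _ _ _)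
      (fun i => 2 * (C.desc (τg + 1) L a).E (C.fA τ L σ i) - C.fA τ (τg + 1) (2 * σ') i a -
        θ * Real.log (P i)) (M := 2 * σ) (by positivity) ?_ ?_
    · rw [Ex.E_const, sum_sub_distrib, sum_sub_distrib, ← mul_sum, ← mul_sum, ← Ex.E_sum] at hm
      have b1 : θ * ∑ i ∈ Fam, Real.log (P i) ≤ θ * (Fam.card * ℓ) := by
        refine mul_le_mul_of_nonneg_left ?_ hθ.le
        rw [← nsmul_eq_mul, ← sum_const]; exact sum_le_sum hℓ
      have b2 := div_le_div_of_nonneg_right b1 hn.le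
      have b3 : θ * (Fam.card * ℓ) / Fam.card = θ * ℓ := by field_simp
      rw [Ex.E_div_const]
      rw [sub_div, sub_div, mul_div_assoc, ← add_assoc] at hm
      linarith
    · intro i _
      set ψ := gib (μ i) (2 * σ') with hψ
      let Ψ : ℕ → ℝ := fun b => (C.Site τ L b).E (fun v => ψ (rho C.r i v))
      have c1 : (μ i).E ψ = (C.desc (τg + 1) L a).E Ψ := by
        simp only [μ, Ex.E_map, C.Site_trans hτL hLg, Ex.E_bind, Ψ]
      have c2 : 2 * (C.desc (τg + 1) L a).E (C.fA τ L σ i) - C.fA τ (τg + 1) (2 * σ') i a -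
          θ * Real.log (P i) = (C.Ud τg a).E (fun d => (C.desc M L (C.ps τg a d)).E fun b =>
            (C.desc M L (C.pt τg a d)).E fun b' =>
            C.fA τ L σ i b + C.fA τ L σ i b' - C.fA τ (τg + 1) (2 * σ') i a -
              θ * Real.log (P i) + 2 * σ' * (μ i).E ψ - σ' * (Ψ b + Ψ b')) := by
        rw [c1, C.E_desc_geo hLM hMg ht hg hg', C.E_desc_geo hLM hMg ht hg hg']
        simp only [Ex.E_add, Ex.E_sub, Ex.E_const, Ex.E_const_mul, Ex.E_div_const]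
        ring
      rw [c2]
      refine (Ex.AS.unif _).E_le fun d hd => Ex.E_mono _ fun b => Ex.E_mono _ fun b' => ?_
      have c3 := step_group (μ i) (ν b) (ν b')
        (fun v => rho C.r i (C.z b - C.z (C.ps τg a d) + v))
        (fun v => rho C.r i (C.z b' - C.z (C.pt τg a d) + v))
        (rho C.r i (C.z (C.ps τg a d))) (rho C.r i (C.z (C.pt τg a d))) r hσ hσ' hκ hθ hθ1 h1 h2 h3
      have c4 : ∀ (s b : ℕ) (v : ℤ × ℤ), rho C.r i (C.z s) +
          rho C.r i (C.z b - C.z s + (v - C.z b)) = rho C.r i v := by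
        intro s b v; rw [← map_add]; congr 1; abel
      have c5 : ∀ s b : ℕ, ((ν b).map fun v => rho C.r i (C.z s) +
          rho C.r i (C.z b - C.z s + v)) = (C.Site τ L b).map (rho C.r i) := by
        intro s b
        refine Ex.ext' fun f => ?_
        simp only [ν, Ex.E_map, c4]
      rw [c5, c5, ← map_sub, (C.ps_pt hd).2.2, ZMod.card] at c3
      simp only [ν, Ex.E_map, c4] at c3
      exact c3
    · intro i _
      have c1 : (C.desc (τg + 1) L a).E (C.fA τ L σ i) ≤ (C.desc (τg + 1) L a).E fun _ => σ :=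
        Ex.E_mono _ fun b => ff_le _ _
      rw [Ex.E_const] at c1
      have c2 : 0 ≤ C.fA τ (τg + 1) (2 * σ') i a := ff_nonneg _ (by positivity)
      have c3 : 0 ≤ θ * Real.log (P i) := mul_nonneg hθ.le (Real.log_natCast_nonneg _)
      linarith
  have := (C.mu (τg + 1)).E_mono key
  simp only [Ex.E_sub, Ex.E_const, Ex.E_const_mul] at this
  rw [Phi, C.mu_eq hLg htop, Ex.E_bind]
  exact this

end Cfg

end Vale.Agent.P015
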