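import Vale.Agent.P015.PhaseA

namespace Vale.Agent.P015

open Finset

section Grp

variable {G : Type} [AddCommGroup G] [DecidableEq G]

def shf (c : G) (N : Finset G) : Finset G := N.map (Equiv.subRight c).toEmbedding

omit [DecidableEq G] in
theorem mem_shf {c y : G} {N : Finset G} : y ∈ shf c N ↔ y + c ∈ N := by
  simp [shf, mem_map_equiv]

omit [DecidableEq G] in
theorem card_shf (c : G) (N : Finset G) : (shf c N).card = N.card := card_map _

def cap (A B : Finset G) (δ : G) : Finset G := A.filter (fun y => y - δ ∈ B)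

theorem sum_card_cap [Fintype G] (A B : Finset G) :
    ∑ δ, ((cap A B δ).card : ℝ) = A.card * B.card := by
  simp only [cap, card_filter, Nat.cast_sum]
  rw [sum_comm, ← nsmul_eq_mul, ← sum_const]
  refine sum_congr rfl fun y _ => ?_
  rw [← Equiv.sum_comp (Equiv.subLeft y)]
  simp

end Grp

theorem ite_forall_list {α : Type} (l : List α) (A : α → Prop) [DecidablePred A] :
    (if ∀ s ∈ l, A s then (1 : ℝ) else 0) = (l.map fun s => if A s then (1 : ℝ) else 0).prod := by
  induction l with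
  | nil => simp
  | cons a l ih =>
    rw [List.map_cons, List.prod_cons, ← ih]
    by_cases h1 : A a <;> by_cases h2 : ∀ s ∈ l, A s <;> simp [h1, h2]

variable {ι : Type} {P : ι → ℕ} [hP : ∀ i, Fact (P i).Prime]

theorem P_pos (i : ι) : (0 : ℝ) < P i := by exact_mod_cast (hP i).out.pos

theorem dens_le_one (i : ι) (N : Finset (ZMod (P i))) : (N.card : ℝ) / P i ≤ 1 := by
  rw [div_le_one (P_pos i)]
  have := card_le_univ N
  rw [ZMod.card] at this
  exact_mod_cast this

namespace Cfg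

variable {C : Cfg ι P}

variable (C) in
/-- A family of laws of residue sets containing the residue of the current point. -/
def Obj (Fam : Finset ι) (L : ℕ) (η m c : ℝ) : Prop :=
  ∃ (Pa : ℕ → Ex (∀ i, Finset (ZMod (P i)))) (R : Ex (∀ i, Finset (ZMod (P i)))) (co : ℕ → ℝ),
    (∀ a, C.good L a → Ex.DV (Pa a) R (co a)) ∧
    (∀ a, C.good L a → (Pa a).AS (fun N => ∀ i ∈ Fam, rho C.r i (C.z a) ∈ N i)) ∧
    (C.mu L).E co ≤ c ∧
    (C.mu L).E (fun a => (∑ i ∈ Fam,
      (Pa a).E (fun N => Real.log (((N i).card : ℝ) / P i + η))) / Fam.card) ≤ m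

omit hP in
theorem Obj.mono {Fam : Finset ι} {L : ℕ} {η m c m' c' : ℝ} (h : C.Obj Fam L η m c)
    (hm : m ≤ m') (hc : c ≤ c') : C.Obj Fam L η m' c' := by
  obtain ⟨Pa, R, co, h1, h2, h3, h4⟩ := h
  exact ⟨Pa, R, co, h1, h2, h3.trans hc, h4.trans hm⟩

theorem Obj.final {Fam : Finset ι} (hne : Fam.Nonempty) {L : ℕ} (hL : L ≤ C.top) {η m c ℓ : ℝ}
    (h : C.Obj Fam L η m c) (hη : 0 ≤ η) (hℓ : ∀ i ∈ Fam, Real.log (P i) ≤ ℓ) : -ℓ ≤ m := by
  obtain ⟨Pa, R, co, -, h2, -, h4⟩ := h
  have hn : (0 : ℝ) < Fam.card := by exact_mod_cast hne.card_pos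
  refine le_trans ?_ h4
  rw [← (C.mu L).E_const (-ℓ)]
  refine (C.good_mu hL).E_le fun a ha => ?_
  rw [le_div_iff₀ hn, mul_comm, ← nsmul_eq_mul, ← sum_const]
  refine sum_le_sum fun i hi => ?_
  rw [← (Pa a).E_const (-ℓ)]
  refine (h2 a ha).E_le fun N hN => ?_
  have h5 : (1 : ℝ) ≤ (N i).card := by exact_mod_cast card_pos.2 ⟨_, hN i hi⟩
  have h6 : (P i : ℝ)⁻¹ ≤ ((N i).card : ℝ) / P i + η := by
    rw [← one_div]
    have := div_le_div_of_nonneg_right h5 (P_pos (P := P) i).le
    linarith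
  have h7 := Real.log_le_log (inv_pos.2 (P_pos i)) h6
  rw [Real.log_inv] at h7
  have := hℓ i hi
  linarith

theorem objB_base (hC : C.OK) {Fam : Finset ι} {τ L m : ℕ} (hτ : τ ≤ C.tt) (hτL : τ ≤ L)
    (hL : L ≤ C.top) (hne : Fam.Nonempty) (hS : Fam ⊆ C.S τ)
    (hinj : ∀ i ∈ Fam, 2 * (C.D * 2 ^ τ) ^ 2 < P i)
    {σ : ℝ} (hm : ∀ i ∈ Fam, σ * P i ≤ m * 2 ^ τ)
    {Vo : Finset (∀ i, ZMod (P i))} (hVo : ∀ v, res C.r (C.So τ) v ∈ Vo) :
    C.Obj Fam L (Real.exp (-σ)) (Real.log 2 - C.Phi Fam τ L σ)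
      (Real.log Vo.card + m * (lB C.D L + (C.mu τ).E (C.kl τ))) := by
  classical
  have hn : (0 : ℝ) < Fam.card := by exact_mod_cast hne.card_pos
  let J : ℕ → Ex ((ℤ × ℤ) × (ℕ → ℤ × ℤ)) := fun a =>
    (C.desc L τ a).bind fun u => (C.q τ (C.Y τ u)).map (Prod.mk (C.z u - C.z a))
  let Jr : (∀ i, ZMod (P i)) → Ex ((ℤ × ℤ) × (ℕ → ℤ × ℤ)) := fun y =>
    (Ex.unif (Box ((C.D * 2 ^ L : ℕ) : ℤ)) (Box_nonempty _)).bind fun β =>
      (C.R τ (y + res C.r (C.So τ) β)).map (Prod.mk β)
  let A : ∀ i, ZMod (P i) → (ℤ × ℤ) × (ℕ → ℤ × ℤ) → Prop := fun i c s =>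
    ∀ j < 2 ^ τ, c + rho C.r i (s.1 + s.2 j) ≠ 0
  let Nof : List ((ℤ × ℤ) × (ℕ → ℤ × ℤ)) → ∀ i, Finset (ZMod (P i)) := fun l i =>
    univ.filter (fun c => ∀ s ∈ l, A i c s)
  refine ⟨fun a => ((J a).iid m).map Nof,
    (Ex.unif Vo ⟨_, hVo 0⟩).bind fun y => ((Jr y).iid m).map Nof,
    fun a => Real.log Vo.card + m * (lB C.D L + (C.desc L τ a).E (C.kl τ)), ?_, ?_, ?_, ?_⟩
  · intro a ha
    have h1 : Ex.DV (J a) (Jr (res C.r (C.So τ) (C.z a)))
        (lB C.D L + (C.desc L τ a).E (C.kl τ)) := by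
      refine Ex.DV.seq (T := fun u => C.z u - C.z a) Prod.mk (Ex.DV.unif _ (Ex.AS.map
        ((C.desc_offset hτL a).mono fun u hu => mem_Box.2
          (sm_diff hC hu.1 (by have := Nat.zero_le (2 ^ τ); omega))))) ?_
      refine (C.good_desc hτL hL ha).mono fun u hu => ?_
      rw [← res_add, add_sub_cancel]
      exact dv_kl hC hτ hu
    have h2 := Ex.DV.seq (P := Ex.pure a) (T := fun a => res C.r (C.So τ) (C.z a))
      (k := fun a => (J a).iid m) (k' := fun y => (Jr y).iid m)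
      (c' := fun a => m * (lB C.D L + (C.desc L τ a).E (C.kl τ))) (fun _ l => Nof l)
      (Ex.DV.unif ⟨_, hVo 0⟩ (Ex.AS.map (Ex.AS.pure (hVo _)))) (Ex.AS.pure (h1.iid m))
    exact fun F => h2 F
  · intro a ha
    have h1 : (J a).AS (fun s => ∀ i ∈ Fam, A i (rho C.r i (C.z a)) s) := by
      refine (C.good_desc hτL hL ha).bind fun u hu => Ex.AS.map (Ex.AS.map
        ((nu_good hC hτ hu).mono fun u' hu' i hi j hj => ?_))
      have e := rho_eq_of_res hu'.2 (hS hi)
      simp only [C.blk_of_le u' hj.le, map_add, map_sub, e]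
      have := hC.avoid (u' + j) i
      intro h0; apply this; rw [← h0]; abel
    exact Ex.AS.map ((h1.iid m).mono fun l hl i hi =>
      mem_filter.2 ⟨mem_univ _, fun s hs => hl s hs i hi⟩)
  · rw [C.mu_eq hτL hL]
    simp only [Ex.E_add, Ex.E_const, Ex.E_const_mul, Ex.E_bind, le_refl]
  · rw [Phi, ← (C.mu L).E_const (Real.log 2), ← Ex.E_sub]
    refine Ex.E_mono _ fun a => ?_
    rw [div_le_iff₀ hn, sub_mul, div_mul_cancel₀ _ hn.ne', mul_comm, ← nsmul_eq_mul, ← sum_const,
      ← sum_sub_distrib]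
    refine sum_le_sum fun i hi => ?_
    set μ := (C.Site τ L a).map (rho C.r i) with hμ
    have hZ := Zf_pos μ σ
    have hone : ∀ c, (J a).E (fun s => if A i c s then (1 : ℝ) else 0) ≤
        Real.exp (-(2 ^ τ * μ.wt (rho C.r i (C.z a) - c))) := by
      intro c
      refine le_trans ?_ (Real.add_one_le_exp _)
      have e1 : 2 ^ τ * μ.wt (rho C.r i (C.z a) - c) = (J a).E (fun s => ∑ j ∈ range (2 ^ τ),
          if c + rho C.r i (s.1 + s.2 j) = 0 then (1 : ℝ) else 0) := by
        simp only [hμ, Ex.wt, Site, V, J, Ex.E_bind, Ex.E_map, Ex.E_unif, ← Ex.E_const_mul,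
          card_range]
        congr 1; funext u; congr 1; funext x
        rw [Nat.cast_pow, Nat.cast_ofNat, mul_div_cancel₀ _ (by positivity)]
        refine sum_congr rfl fun j _ => ?_
        have : rho C.r i (C.z u + x j) = rho C.r i (C.z a) - c ↔
            c + rho C.r i (C.z u - C.z a + x j) = 0 := by
          simp only [map_add, map_sub]
          constructor <;> intro h <;> linear_combination h
        simp only [this]
      have e0 : ∀ f : (ℤ × ℤ) × (ℕ → ℤ × ℤ) → ℝ, -(J a).E f + 1 = (J a).E (fun s => -f s + 1) := by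
        intro f; rw [Ex.E_add, Ex.E_neg, Ex.E_const]
      rw [e1, e0]
      simp only [J, q, Ex.E_bind, Ex.E_map]
      refine (C.desc L τ a).E_mono fun u => (C.nu τ (C.Y τ u)).E_mono fun u' => ?_
      split_ifs with hA
      · rw [sum_eq_zero fun j hj => if_neg (hA j (mem_range.1 hj))]; simp
      · rw [sum_boole]
        have : ((range (2 ^ τ)).filter fun j =>
            c + rho C.r i (C.z u - C.z a + C.blk τ u' j) = 0).card ≤ 1 := by
          refine card_le_one.2 fun j hj j' hj' => ?_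
          by_contra hne'
          obtain ⟨b1, b2⟩ := mem_filter.1 hj
          obtain ⟨b3, b4⟩ := mem_filter.1 hj'
          rw [mem_range] at b1 b3
          rw [C.blk_of_le u' b1.le] at b2
          rw [C.blk_of_le u' b3.le] at b4
          have b5 : rho C.r i (C.z (u' + j) - C.z (u' + j')) = 0 := by
            simp only [map_add, map_sub] at b2 b4 ⊢
            linear_combination b2 - b4
          have b6 : C.z (u' + j) - C.z (u' + j') ≠ 0 :=
            sub_ne_zero.2 fun e => hne' (by have := hC.inj e; omega)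
          have b7 := Int.le_of_dvd (dot2_self_pos b6) (rho_dvd_norm (hC.hr i) b5)
          have b8 : Sm ((C.D : ℤ) * (2 ^ τ : ℕ)) (C.z (u' + j) - C.z (u' + j')) :=
            sm_of_mem_Dset hC.step (mem_Dset.2 ⟨(j, j'), b1.le, b3.le, rfl⟩)
          have b9 := dot2_le_of_sm b8
          have b10 : 2 * ((C.D : ℤ) * (2 ^ τ : ℕ)) ^ 2 < P i := by exact_mod_cast hinj i hi
          linarith
        have : (((range (2 ^ τ)).filter fun j =>
            c + rho C.r i (C.z u - C.z a + C.blk τ u' j) = 0).card : ℝ) ≤ 1 := by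
          exact_mod_cast this
        linarith
    have hd : ((J a).iid m).E (fun l => ((Nof l i).card : ℝ) / P i + Real.exp (-σ)) ≤
        2 * Zf μ σ := by
      rw [Ex.E_add, Ex.E_const, Ex.E_div_const]
      have e2 := exp_neg_le_Zf μ σ
      have e3 : ((J a).iid m).E (fun l => ((Nof l i).card : ℝ)) ≤
          ∑ c, Real.exp (-(σ * prof μ c)) := by
        simp only [Nof, card_filter, Nat.cast_sum, Nat.cast_ite, Nat.cast_one, Nat.cast_zero,
          ite_forall_list, Ex.E_sum, Ex.E_iid_prod]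
        rw [← Equiv.sum_comp (Equiv.subLeft (rho C.r i (C.z a)))
          (fun c => Real.exp (-(σ * prof μ c)))]
        refine sum_le_sum fun c _ => ?_
        refine (pow_le_pow_left₀ ((J a).E_nonneg fun s => by split_ifs <;> norm_num)
          (hone c) m).trans ?_
        rw [← Real.exp_nat_mul, Real.exp_le_exp, prof, ZMod.card, Equiv.subLeft_apply]
        have := mul_le_mul_of_nonneg_right (hm i hi) (μ.wt_nonneg (rho C.r i (C.z a) - c))
        linarith
      have e4 := div_le_div_of_nonneg_right e3 (P_pos (P := P) i).le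
      have e5 : (∑ c, Real.exp (-(σ * prof μ c))) / P i = Zf μ σ := by rw [Zf, ZMod.card]
      linarith
    have := ((J a).iid m).E_log_le (fun l => by positivity) hd
    rw [Real.log_mul (by norm_num) hZ.ne'] at this
    simp only [Ex.E_map, fA, ff, ← hμ]
    linarith

theorem objB_step (hC : C.OK) {Fam : Finset ι} {τg M L k : ℕ} (hLM : L ≤ M)
    (hMg : M ≤ τg) (ht : C.tt ≤ M) (hg : C.geo (τg + 1))
    (hg' : ∀ σ, M < σ → σ ≤ τg → ¬ C.geo σ) (htop : τg + 1 ≤ C.top)
    (hk : 2 * (k + 1) ≤ Fam.card) {Γ : ℝ} (hΓ : 1 ≤ Γ)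
    (hE : ∀ a, Equi C.r Fam k (Dset C.z a (2 ^ τg)) Γ) {η m c : ℝ} (hη : 0 < η) (hη1 : η ≤ 1)
    (h : C.Obj Fam L η m c) :
    C.Obj Fam (τg + 1) (η ^ 2) (2 * m + (Real.log Γ + 2 * (lB C.D M + c)) / (k + 1) +
      8 * (k + 1) / Fam.card * (Real.log 2 - 2 * Real.log η))
      (2 * lB C.D τg + 2 * (lB C.D M + c)) := by
  obtain ⟨Pa, R, co, h1, h2, h3, h4⟩ := h
  have hn : (0 : ℝ) < Fam.card := by exact_mod_cast (by omega : 0 < Fam.card)
  have hLg : L ≤ τg + 1 := by omega
  let sh : ℤ × ℤ → (∀ i, Finset (ZMod (P i))) → ∀ i, Finset (ZMod (P i)) := fun β N i =>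
    shf (rho C.r i β) (N i)
  let U : ℕ → Ex (ℤ × ℤ) := fun l => Ex.unif (Box ((C.D * 2 ^ l : ℕ) : ℤ)) (Box_nonempty _)
  let P' : ℕ → Ex (∀ i, Finset (ZMod (P i))) := fun s =>
    (C.desc M L s).bind fun b => (Pa b).map (sh (C.z b - C.z s))
  let R' : Ex (∀ i, Finset (ZMod (P i))) := (U M).bind fun β => R.map (sh β)
  let Pd : ℕ → ℤ × ℤ → Ex ((∀ i, Finset (ZMod (P i))) × (∀ i, Finset (ZMod (P i)))) := fun a d =>
    (P' (C.ps τg a d)).bind fun N => (P' (C.pt τg a d)).map (Prod.mk N)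
  let cd : ℕ → ℤ × ℤ → ℝ := fun a d => (lB C.D M + (C.desc M L (C.ps τg a d)).E co) +
    (lB C.D M + (C.desc M L (C.pt τg a d)).E co)
  let g : (ℤ × ℤ) × (ℤ × ℤ) → (∀ i, Finset (ZMod (P i))) × (∀ i, Finset (ZMod (P i))) →
      ∀ i, Finset (ZMod (P i)) := fun e N i =>
    shf (rho C.r i e.1) (cap (N.1 i) (N.2 i) (rho C.r i e.2))
  have hP' : ∀ s, (C.desc M L s).AS (C.good L) →
      Ex.DV (P' s) R' (lB C.D M + (C.desc M L s).E co) := fun s hs =>
    Ex.DV.seq (T := fun b => C.z b - C.z s) (k' := fun _ => R) sh (Ex.DV.unif _ (Ex.AS.map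
      ((C.desc_offset hLM s).mono fun u hu => mem_Box.2
        (sm_diff hC hu.1 (by have := Nat.zero_le (2 ^ L); omega))))) (hs.mono h1)
  have hA' : ∀ s, (C.desc M L s).AS (C.good L) →
      (P' s).AS (fun N => ∀ i ∈ Fam, rho C.r i (C.z s) ∈ N i) := fun s hs =>
    hs.bind fun b hb => Ex.AS.map ((h2 b hb).mono fun N hN i hi => mem_shf.2 (by
      rw [← map_add, add_sub_cancel]; exact hN i hi))
  have hPd : ∀ a, C.good (τg + 1) a → ∀ d ∈ Dset C.z a (2 ^ τg),
      Ex.DV (Pd a d) (R'.bind fun N => R'.map (Prod.mk N)) (cd a d) := fun a ha d hd =>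
    Ex.DV.prod Prod.mk (hP' _ (C.good_geo hLM hMg ht hg hg' htop ha hd).1)
      (hP' _ (C.good_geo hLM hMg ht hg hg' htop ha hd).2)
  have hcd : (C.mu (τg + 1)).E (fun a => (C.Ud τg a).E (cd a)) ≤ 2 * (lB C.D M + c) := by
    have e : ∀ a, (C.Ud τg a).E (cd a) = 2 * (lB C.D M + (C.desc (τg + 1) L a).E co) := by
      intro a
      rw [C.E_desc_geo hLM hMg ht hg hg']
      simp only [cd, Ex.E_add, Ex.E_const, Ex.E_div_const]
      ring
    rw [C.mu_eq hLg htop, Ex.E_bind] at h3
    simp only [e, Ex.E_const_mul, Ex.E_add, Ex.E_const]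
    linarith
  refine ⟨fun a => (C.Ud τg a).bind fun d => (Pd a d).map (g (C.z (C.ps τg a d) - C.z a, d)),
    (Ex.unif (Box ((C.D * 2 ^ τg : ℕ) : ℤ) ×ˢ Box ((C.D * 2 ^ τg : ℕ) : ℤ))
      ((Box_nonempty _).product (Box_nonempty _))).bind fun e =>
        (R'.bind fun N => R'.map (Prod.mk N)).map (g e),
    fun a => 2 * lB C.D τg + (C.Ud τg a).E (cd a), ?_, ?_, ?_, ?_⟩
  · intro a ha
    have e := Ex.DV.seq (P := C.Ud τg a) (T := fun d => (C.z (C.ps τg a d) - C.z a, d))
      (k := Pd a) (k' := fun _ => R'.bind fun N => R'.map (Prod.mk N)) (c' := cd a) g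
      (Ex.DV.unif ((Box_nonempty (C.D * 2 ^ τg)).product (Box_nonempty (C.D * 2 ^ τg)))
        (Ex.AS.map ((Ex.AS.unif _).mono fun d hd => mem_product.2
          ⟨mem_Box.2 (sm_diff hC (C.ps_pt hd).1.1 (C.ps_pt hd).1.2),
            mem_Box.2 (by simpa using sm_of_mem_Dset hC.step hd)⟩)))
      ((Ex.AS.unif _).mono (hPd a ha))
    refine e.mono (le_of_eq ?_)
    rw [card_product, Nat.cast_mul, ← sq, Real.log_pow, lB]; norm_num
  · intro a ha
    refine (Ex.AS.unif _).bind fun d hd => Ex.AS.map ?_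
    obtain ⟨g1, g2⟩ := C.good_geo hLM hMg ht hg hg' htop ha hd
    refine (hA' _ g1).bind fun N hN => Ex.AS.map ((hA' _ g2).mono fun N' hN' i hi => ?_)
    simp only [g, mem_shf, cap, mem_filter]
    rw [← map_add, add_sub_cancel, ← map_sub]
    refine ⟨hN i hi, ?_⟩
    have : C.z (C.ps τg a d) - d = C.z (C.pt τg a d) := by
      have := (C.ps_pt hd).2.2
      rw [sub_eq_iff_eq_add] at this ⊢
      rw [this, add_comm]
    rw [this]; exact hN' i hi
  · rw [Ex.E_add, Ex.E_const]; linarith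
  · let φ : ι → ℕ → ℝ := fun i b => (Pa b).E (fun N => Real.log (((N i).card : ℝ) / P i + η))
    have hlog : Real.log η ≤ 0 := Real.log_nonpos hη.le hη1
    have key : ∀ a, C.good (τg + 1) a → (∑ i ∈ Fam, ((C.Ud τg a).bind fun d =>
        (Pd a d).map (g (C.z (C.ps τg a d) - C.z a, d))).E
          (fun N => Real.log (((N i).card : ℝ) / P i + η ^ 2))) / Fam.card ≤
        2 * (C.desc (τg + 1) L a).E (fun b => (∑ i ∈ Fam, φ i b) / Fam.card) +
          (Real.log Γ + (C.Ud τg a).E (cd a)) / (k + 1) +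
          8 * (k + 1) / Fam.card * (Real.log 2 - 2 * Real.log η) := by
      intro a ha
      have hm := multi_dv hk (Dset_nonempty _ _ _) hΓ (hE a) (hPd a ha)
        (fun i s δ => ((cap (s.1 i) (s.2 i) δ).card : ℝ) / P i + η ^ 2)
        (fun i s δ => by positivity)
        (fun i => ((C.Ud τg a).bind fun d => (Pd a d).map (g (C.z (C.ps τg a d) - C.z a, d))).E
          (fun N => Real.log (((N i).card : ℝ) / P i + η ^ 2)) -
            2 * (C.desc (τg + 1) L a).E (φ i))
        (M := Real.log 2 - 2 * Real.log η)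
        (by have := Real.log_nonneg (by norm_num : (1 : ℝ) ≤ 2); linarith) ?_ ?_
      · rw [sum_sub_distrib, ← mul_sum, sub_div, mul_div_assoc] at hm
        rw [Ex.E_div_const, Ex.E_sum]
        change _ ≤ (Real.log Γ + (C.Ud τg a).E (cd a)) / (k + 1) + _ at hm
        linarith
      · intro i _
        have c1 : ∀ s, (C.desc M L s).E (φ i) =
            (P' s).E (fun N => Real.log (((N i).card : ℝ) / P i + η)) := by
          intro s; simp only [P', sh, φ, Ex.E_bind, Ex.E_map, card_shf]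
        have c2 : 2 * (C.desc (τg + 1) L a).E (φ i) = (C.Ud τg a).E fun d => (Pd a d).E fun s =>
            Real.log (((s.1 i).card : ℝ) / P i + η) + Real.log (((s.2 i).card : ℝ) / P i + η) := by
          rw [C.E_desc_geo hLM hMg ht hg hg', ← Ex.E_const_mul]
          congr 1; funext d
          simp only [Pd, c1, Ex.E_bind (P' _), Ex.E_map, Ex.E_add, Ex.E_const]
          ring
        rw [c2, Ex.E_bind, ← Ex.E_sub]
        refine Ex.E_mono _ fun d => ?_
        rw [Ex.E_map, ← Ex.E_sub]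
        refine Ex.E_mono _ fun s => ?_
        simp only [g, card_shf]
        have hp := P_pos (P := P) i
        have c3 : (∑ δ, (((cap (s.1 i) (s.2 i) δ).card : ℝ) / P i + η ^ 2)) / P i =
            ((s.1 i).card : ℝ) / P i * (((s.2 i).card : ℝ) / P i) + η ^ 2 := by
          rw [sum_add_distrib, ← sum_div, sum_card_cap, sum_const, card_univ, ZMod.card,
            nsmul_eq_mul]
          field_simp
        rw [c3, ← Real.log_mul (by positivity) (by positivity)]
        refine sub_le_sub_left (Real.log_le_log (by positivity) ?_) _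
        have c4 : (0 : ℝ) ≤ ((s.1 i).card : ℝ) / P i := by positivity
        have c5 : (0 : ℝ) ≤ ((s.2 i).card : ℝ) / P i := by positivity
        nlinarith
      · intro i _
        have c1 : (C.desc (τg + 1) L a).E (fun _ => Real.log η) ≤ (C.desc (τg + 1) L a).E (φ i) := by
          refine Ex.E_mono _ fun b => ?_
          rw [← (Pa b).E_const (Real.log η)]
          refine Ex.E_mono _ fun N => Real.log_le_log hη ?_
          have : (0 : ℝ) ≤ ((N i).card : ℝ) / P i := by positivity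
          linarith
        have c2 : ((C.Ud τg a).bind fun d => (Pd a d).map (g (C.z (C.ps τg a d) - C.z a, d))).E
            (fun N => Real.log (((N i).card : ℝ) / P i + η ^ 2)) ≤ Real.log 2 := by
          rw [← Ex.E_const _ (Real.log 2)]
          refine Ex.E_mono _ fun N => Real.log_le_log (by positivity) ?_
          have := dens_le_one i (N i)
          nlinarith
        rw [Ex.E_const] at c1
        linarith
    refine ((C.good_mu htop).E_le key).trans ?_
    rw [C.mu_eq hLg htop, Ex.E_bind] at h4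
    simp only [Ex.E_add, Ex.E_const, Ex.E_const_mul, Ex.E_div_const _ ((k : ℝ) + 1)]
    have := div_le_div_of_nonneg_right (add_le_add_right hcd (Real.log Γ))
      (by positivity : (0 : ℝ) ≤ k + 1)
    linarith

end Cfg

end Vale.Agent.P015
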