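import Vale.Agent.P015.Lattice
import Vale.Agent.P015.Ex

namespace Vale.Agent.P015

open Finset

variable {ι : Type} {P : ι → ℕ}

/-- Difference set of a window of the path. -/
noncomputable def Dset (z : ℕ → ℤ × ℤ) (a l : ℕ) : Finset (ℤ × ℤ) :=
  (range (l + 1) ×ˢ range (l + 1)).image (fun p => z (a + p.1) - z (a + p.2))

theorem mem_Dset {z : ℕ → ℤ × ℤ} {a l : ℕ} {d : ℤ × ℤ} :
    d ∈ Dset z a l ↔ ∃ p : ℕ × ℕ, p.1 ≤ l ∧ p.2 ≤ l ∧ z (a + p.1) - z (a + p.2) = d := by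
  simp only [Dset, mem_image, mem_product, mem_range, Nat.lt_succ_iff, and_assoc]

theorem Dset_nonempty (z : ℕ → ℤ × ℤ) (a l : ℕ) : (Dset z a l).Nonempty :=
  ⟨_, mem_Dset.2 ⟨(0, 0), Nat.zero_le _, Nat.zero_le _, rfl⟩⟩

/-- A pair of times realising a difference. -/
noncomputable def pr (z : ℕ → ℤ × ℤ) (a l : ℕ) (d : ℤ × ℤ) : ℕ × ℕ :=
  Classical.epsilon (fun p : ℕ × ℕ => p.1 ≤ l ∧ p.2 ≤ l ∧ z (a + p.1) - z (a + p.2) = d)

theorem pr_spec {z : ℕ → ℤ × ℤ} {a l : ℕ} {d : ℤ × ℤ} (h : d ∈ Dset z a l) :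
    (pr z a l d).1 ≤ l ∧ (pr z a l d).2 ≤ l ∧
      z (a + (pr z a l d).1) - z (a + (pr z a l d).2) = d :=
  Classical.epsilon_spec (mem_Dset.1 h)

/-- Equidistribution of `Dd` modulo most `(k+1)`-subsets of the family. -/
def Equi [∀ i, Fact (P i).Prime] (r : ∀ i, ZMod (P i)) (Fam : Finset ι) (k : ℕ)
    (Dd : Finset (ℤ × ℤ)) (Γ : ℝ) : Prop :=
  ∃ Bd : Finset (Finset ι), (Bd.card : ℝ) ≤ 4 * Fam.card.choose k ∧
    ∀ S ∈ powersetCard (k + 1) Fam, S ∉ Bd → ∀ w : ∀ i, ZMod (P i) → ℝ, (∀ i δ, 0 ≤ w i δ) →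
      ∑ d ∈ Dd, ∏ i ∈ S, w i (rho r i d) ≤ Γ * Dd.card * ∏ i ∈ S, ((∑ δ, w i δ) / P i)

theorem arc_of_mem_Dset {D : ℤ} {z : ℕ → ℤ × ℤ} (hz : ∀ n, Sm D (z (n + 1) - z n)) {a l : ℕ}
    {d : ℤ × ℤ} (h : d ∈ Dset z a l) :
    Arc D ((range (l + 1)).image (fun i => z (a + i))) d := by
  have key : ∀ p q, p ≤ l → q ≤ p →
      Arc D ((range (l + 1)).image (fun i => z (a + i))) (z (a + p) - z (a + q)) := by
    intro p q hp hq
    refine ⟨p - q, fun i => z (a + (q + i)), fun i hi =>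
      mem_image_of_mem (fun i => z (a + i)) (mem_range.2 (by omega)), fun i _ => ?_, ?_⟩
    · exact hz (a + (q + i))
    · have : q + (p - q) = p := by omega
      simp [this]
  obtain ⟨⟨p, q⟩, h1, h2, rfl⟩ := mem_Dset.1 h
  rcases le_total q p with h | h
  · exact key p q h1 h
  · have := (key q p h2 h).neg
    rwa [neg_sub] at this

theorem sm_of_mem_Dset {D : ℕ} {z : ℕ → ℤ × ℤ} (hz : ∀ n, Sm D (z (n + 1) - z n)) {a l : ℕ}
    {d : ℤ × ℤ} (h : d ∈ Dset z a l) : Sm ((D : ℤ) * l) d := by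
  have key : ∀ p q, p ≤ l → q ≤ p → Sm ((D : ℤ) * l) (z (a + p) - z (a + q)) := by
    intro p q hp hq
    have := Sm_path hz (a + q) (p - q)
    have e : a + q + (p - q) = a + p := by omega
    rw [e] at this
    refine this.mono (mul_le_mul_of_nonneg_left ?_ (by positivity))
    exact_mod_cast (by omega : p - q ≤ l)
  obtain ⟨⟨p, q⟩, h1, h2, rfl⟩ := mem_Dset.1 h
  rcases le_total q p with h | h
  · exact key p q h1 h
  · have := (key q p h2 h).neg
    rwa [neg_sub] at this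

theorem card_Dset_ge {z : ℕ → ℤ × ℤ} (hinj : Function.Injective z) (a l : ℕ) :
    l + 1 ≤ (Dset z a l).card := by
  conv_lhs => rw [← card_range (l + 1)]
  refine card_le_card_of_injOn (fun i => z (a + i) - z (a + 0)) (fun i hi => ?_) ?_
  · exact mem_coe.2 (mem_Dset.2 ⟨(i, 0), Nat.lt_succ_iff.1 (mem_range.1 hi), Nat.zero_le _, rfl⟩)
  · intro i _ j _ h
    have := hinj (sub_left_injective h)
    omega

theorem equi_Dset [hP : ∀ i, Fact (P i).Prime] (hPinj : Function.Injective P)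
    {r : ∀ i, ZMod (P i)} (hr : ∀ i, r i ^ 2 = -1) {Fam : Finset ι} {x X : ℕ} (hx : 2 ≤ x)
    (hxX : x ≤ X) (hX : X ≤ x ^ 2) (hF : ∀ i ∈ Fam, x ≤ P i ∧ P i ≤ X) {D : ℕ}
    {z : ℕ → ℤ × ℤ} (hinj : Function.Injective z) (hz : ∀ n, Sm D (z (n + 1) - z n))
    (a l k : ℕ) (hl : X ^ (2 * (k + 1)) ≤ l) :
    Equi r Fam k (Dset z a l) (72 * X * (4 * D + 1) ^ 2) := by
  classical
  set Dd := Dset z a l with hDd
  obtain ⟨u, hu, humax⟩ := exists_max_image Dd (fun v => max |v.1| |v.2|) (Dset_nonempty z a l)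
  set L : ℤ := max |u.1| |u.2| with hL
  have hsm : ∀ d ∈ Dd, Sm L d := fun d hd =>
    ⟨(le_max_left _ _).trans (humax d hd), (le_max_right _ _).trans (humax d hd)⟩
  have hL0 : 0 ≤ L := (abs_nonneg _).trans (le_max_left _ _)
  have hU : L ^ 2 ≤ dot2 u u := by
    simp only [dot2]
    rcases max_choice |u.1| |u.2| with h | h <;> rw [hL, h, sq_abs] <;>
      nlinarith [mul_self_nonneg u.1, mul_self_nonneg u.2]
  have hcard : l + 1 ≤ Dd.card := card_Dset_ge hinj a l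
  have hbox : Dd.card ≤ (2 * L.toNat + 1) ^ 2 := by
    rw [← card_Box]
    refine card_le_card fun d hd => mem_Box.2 ?_
    rw [Int.toNat_of_nonneg hL0]; exact hsm d hd
  have hXk : X ^ (k + 1) < 2 * L.toNat + 1 := by
    have : (X ^ (k + 1)) ^ 2 < (2 * L.toNat + 1) ^ 2 := by
      rw [← pow_mul, mul_comm (k + 1) 2]; omega
    exact lt_of_pow_lt_pow_left₀ 2 (by positivity) this
  have hX2 : 2 ≤ X ^ (k + 1) := le_trans (by omega) (Nat.le_self_pow (by omega) X)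
  have hLpos : 0 < L := by omega
  obtain ⟨g, hg, hgmax⟩ := exists_max_image Dd (fun v => |det2 u v|) (Dset_nonempty z a l)
  have hΔ : |det2 u g| ≤ Dd.card * (4 * D + 1) ^ 2 := by
    have := det_le_card_diff (D := D) (W := (range (l + 1)).image (fun i => z (a + i))) (Dd := Dd)
      (by
        intro p hp q hq
        obtain ⟨i, hi, rfl⟩ := mem_image.1 hp
        obtain ⟨j, hj, rfl⟩ := mem_image.1 hq
        exact mem_Dset.2 ⟨(i, j), Nat.lt_succ_iff.1 (mem_range.1 hi),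
          Nat.lt_succ_iff.1 (mem_range.1 hj), rfl⟩)
      (arc_of_mem_Dset hz hu) (arc_of_mem_Dset hz hg)
    rw [← Int.natCast_natAbs]; exact_mod_cast this
  have hLD : L ≤ Dd.card * (4 * D + 1) ^ 2 := by
    have h1 := sm_of_mem_Dset hz hu
    have h2 : L ≤ (D : ℤ) * l := max_le h1.1 h1.2
    have h3 : (l : ℤ) ≤ Dd.card := by exact_mod_cast (by omega : l ≤ Dd.card)
    have h4 : (D : ℤ) ≤ (4 * D + 1) ^ 2 := by nlinarith
    calc L ≤ (D : ℤ) * l := h2
      _ ≤ (4 * D + 1) ^ 2 * Dd.card := mul_le_mul h4 h3 (by positivity) (by positivity)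
      _ = _ := mul_comm _ _
  refine ⟨_, card_bad_le hPinj hr hx hX hF hLpos hU (G := 2 * X + 1) (by omega) (by omega) k, ?_⟩
  intro S hS hSb w hw
  have hgood : ¬ ∃ g, Bad r u L (2 * X + 1) S g := fun h => hSb (mem_filter.2 ⟨hS, h⟩)
  rw [mem_powersetCard] at hS
  have hN : (∏ i ∈ S, (P i : ℤ)) ≤ (2 * X + 1) * L := by
    have h1 : (∏ i ∈ S, (P i : ℤ)) ≤ (X : ℤ) ^ (k + 1) := by
      rw [← hS.2, ← prod_const]
      refine prod_le_prod (fun _ _ => by positivity) fun i hi => ?_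
      exact_mod_cast (hF i (hS.1 hi)).2
    have h2 : (X : ℤ) ^ (k + 1) < 2 * L + 1 := by
      have : ((X ^ (k + 1) : ℕ) : ℤ) < ((2 * L.toNat + 1 : ℕ) : ℤ) := by exact_mod_cast hXk
      push_cast at this
      rwa [Int.toNat_of_nonneg hL0] at this
    have h3 : (2 : ℤ) ≤ X := by exact_mod_cast (by omega : 2 ≤ X)
    nlinarith
  have hNpos : 0 < ∏ i ∈ S, (P i : ℝ) := prod_pos fun i _ => by exact_mod_cast (hP i).out.pos
  let φ : ℤ × ℤ → ((i : S) → ZMod (P i)) := fun d i => rho r i d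
  have hfib : ∀ c : (i : S) → ZMod (P i), ((Dd.filter (fun d => φ d = c)).card : ℝ) ≤
      72 * X * (4 * D + 1) ^ 2 * Dd.card / ∏ i ∈ S, (P i : ℝ) := by
    intro c
    rw [le_div_iff₀ hNpos]
    refine (card_fiber_le (r := r) hLpos (abs_nonneg (det2 u g)) (G := 2 * X + 1) (by omega)
      (hsm u hu) hgood hN _ (fun d hd => ⟨hsm d (mem_filter.1 hd).1, hgmax d (mem_filter.1 hd).1⟩)
      (fun d hd d' hd' i hi => ?_)).trans ?_
    · have e1 := congrFun (mem_filter.1 hd).2 ⟨i, hi⟩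
      have e2 := congrFun (mem_filter.1 hd').2 ⟨i, hi⟩
      exact e1.trans e2.symm
    · have a1 : ((|det2 u g| : ℤ) : ℝ) ≤ Dd.card * (4 * D + 1) ^ 2 := by exact_mod_cast hΔ
      have a2 : (L : ℝ) ≤ Dd.card * (4 * D + 1) ^ 2 := by exact_mod_cast hLD
      have a3 : (2 : ℝ) ≤ X := by exact_mod_cast (by omega : 2 ≤ X)
      have a4 : (((2 * X + 1 : ℤ)) : ℝ) ≤ 3 * X := by push_cast; linarith
      have a5 : (0 : ℝ) ≤ ((|det2 u g| : ℤ) : ℝ) + L := by positivity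
      calc (12 : ℝ) * ((2 * X + 1 : ℤ) : ℝ) * (((|det2 u g| : ℤ) : ℝ) + L)
          ≤ 12 * (3 * X) * (2 * (Dd.card * (4 * D + 1) ^ 2)) := by gcongr; linarith
        _ = _ := by ring
  have e1 : ∑ d ∈ Dd, ∏ i ∈ S, w i (rho r i d) =
      ∑ c : (i : S) → ZMod (P i), ((Dd.filter (fun d => φ d = c)).card : ℝ) *
        ∏ i : S, w i (c i) := by
    rw [← sum_fiberwise Dd φ]
    refine sum_congr rfl fun c _ => ?_
    rw [← nsmul_eq_mul, ← sum_const]
    refine sum_congr rfl fun d hd => ?_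
    rw [← (mem_filter.1 hd).2, ← prod_coe_sort S]
  rw [e1]
  refine (sum_le_sum fun c _ => mul_le_mul_of_nonneg_right (hfib c)
    (prod_nonneg fun i _ => hw _ _)).trans (le_of_eq ?_)
  rw [← mul_sum, ← Fintype.piFinset_univ, ← prod_univ_sum (fun _ => univ)
    (fun (i : S) (δ : ZMod (P i)) => w i δ), prod_div_distrib,
    prod_coe_sort S (fun i => ∑ δ, w i δ)]
  ring

theorem sum_powersetCard_avg [DecidableEq ι] (Fam : Finset ι) (k : ℕ) (G : ι → ℝ) :
    (Fam.card : ℝ) * ∑ S ∈ powersetCard (k + 1) Fam, ∑ i ∈ S, G i =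
      (Fam.card.choose (k + 1) : ℝ) * (k + 1) * ∑ i ∈ Fam, G i := by
  have e1 : ∑ S ∈ powersetCard (k + 1) Fam, ∑ i ∈ S, G i =
      ∑ i ∈ Fam, (((Fam.card - 1).choose k : ℕ) : ℝ) * G i := by
    rw [sum_comm' (t' := Fam) (s' := fun i => (powersetCard (k + 1) Fam).filter
      (fun S => ({i} : Finset ι) ⊆ S))]
    · refine sum_congr rfl fun i hi => ?_
      rw [sum_const, nsmul_eq_mul, card_filter_powersetCard_subset _ _ _
        (singleton_subset_iff.2 hi) (by simp)]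
      simp
    · intro S i
      simp only [mem_powersetCard, mem_filter, singleton_subset_iff]
      tauto
  rw [e1, ← mul_sum, ← mul_assoc]
  rcases Fam.eq_empty_or_nonempty with rfl | hne
  · simp
  · congr 1
    obtain ⟨m, hm⟩ : ∃ m, Fam.card = m + 1 := ⟨Fam.card - 1, by have := hne.card_pos; omega⟩
    rw [hm, Nat.add_sub_cancel]
    exact_mod_cast Nat.add_one_mul_choose_eq m k

theorem multi_dv [hP : ∀ i, Fact (P i).Prime] {r : ∀ i, ZMod (P i)} {Fam : Finset ι} {k : ℕ}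
    (hk : 2 * (k + 1) ≤ Fam.card) {Dd : Finset (ℤ × ℤ)} (hDd : Dd.Nonempty) {Γ : ℝ} (hΓ : 1 ≤ Γ)
    (hE : Equi r Fam k Dd Γ) {σ : Type} {Pd : ℤ × ℤ → Ex σ} {R : Ex σ} {c : ℤ × ℤ → ℝ}
    (hDV : ∀ d ∈ Dd, Ex.DV (Pd d) R (c d)) (w : ∀ i, σ → ZMod (P i) → ℝ)
    (hw : ∀ i s δ, 0 < w i s δ) (G : ι → ℝ) {M : ℝ} (hM : 0 ≤ M)
    (hG1 : ∀ i ∈ Fam, G i ≤ (Ex.unif Dd hDd).E (fun d => (Pd d).E (fun s =>
      Real.log (w i s (rho r i d)) - Real.log ((∑ δ, w i s δ) / P i))))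
    (hG2 : ∀ i ∈ Fam, G i ≤ M) :
    (∑ i ∈ Fam, G i) / Fam.card ≤
      (Real.log Γ + (Ex.unif Dd hDd).E c) / (k + 1) + 8 * (k + 1) / Fam.card * M := by
  classical
  obtain ⟨Bd, hBd, hgood⟩ := hE
  have hc0 : 0 ≤ (Ex.unif Dd hDd).E c := Ex.AS.unif hDd _ fun d hd => (hDV d hd).nonneg
  have hA0 : 0 ≤ Real.log Γ + (Ex.unif Dd hDd).E c := add_nonneg (Real.log_nonneg hΓ) hc0
  have hDc : (0 : ℝ) < Dd.card := by exact_mod_cast hDd.card_pos
  have hmean : ∀ i s, 0 < (∑ δ, w i s δ) / P i := fun i s =>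
    div_pos (sum_pos (fun δ _ => hw i s δ) univ_nonempty) (by exact_mod_cast (hP i).out.pos)
  have h1 : ∀ S ∈ powersetCard (k + 1) Fam, S ∉ Bd →
      ∑ i ∈ S, G i ≤ Real.log Γ + (Ex.unif Dd hDd).E c := by
    intro S hS hSb
    let F : ℤ × ℤ → σ → ℝ := fun d s =>
      ∑ i ∈ S, (Real.log (w i s (rho r i d)) - Real.log ((∑ δ, w i s δ) / P i))
    have e1 : ∑ i ∈ S, G i ≤ (Ex.unif Dd hDd).E (fun d => (Pd d).E (F d)) := by
      refine (sum_le_sum fun i hi => hG1 i ((mem_powersetCard.1 hS).1 hi)).trans (le_of_eq ?_)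
      rw [← Ex.E_sum]
      congr 1
      funext d
      rw [← Ex.E_sum]
    have e2 : (Ex.unif Dd hDd).E (fun d => (Pd d).E (F d)) ≤
        (Ex.unif Dd hDd).E (fun d => Real.log (R.E (fun s => Real.exp (F d s))) + c d) :=
      (Ex.AS.unif hDd).E_le fun d hd => hDV d hd (F d)
    rw [Ex.E_add] at e2
    have e3 : (Ex.unif Dd hDd).E (fun d => R.E (fun s => Real.exp (F d s))) ≤ Γ := by
      rw [Ex.E_unif, ← Ex.E_sum, div_le_iff₀ hDc, ← R.E_const (Γ * Dd.card)]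
      refine R.E_mono fun s => ?_
      have e4 : ∀ d, Real.exp (F d s) =
          ∏ i ∈ S, (w i s (rho r i d) / ((∑ δ, w i s δ) / P i)) := by
        intro d
        rw [Real.exp_sum]
        refine prod_congr rfl fun i _ => ?_
        rw [Real.exp_sub, Real.exp_log (hw _ _ _), Real.exp_log (hmean i s)]
      simp only [e4]
      refine (hgood S hS hSb (fun i δ => w i s δ / ((∑ δ, w i s δ) / P i))
        (fun i δ => (div_pos (hw _ _ _) (hmean i s)).le)).trans (le_of_eq ?_)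
      rw [prod_eq_one, mul_one]
      intro i _
      rw [← sum_div, div_right_comm, div_self (hmean i s).ne']
    have e5 := (Ex.unif Dd hDd).E_log_le (fun d => R.E_exp_pos (F d)) e3
    linarith
  have h2 : ∑ S ∈ powersetCard (k + 1) Fam, ∑ i ∈ S, G i ≤
      Fam.card.choose (k + 1) * (Real.log Γ + (Ex.unif Dd hDd).E c) +
        4 * Fam.card.choose k * ((k + 1) * M) := by
    have e1 : ∀ S ∈ powersetCard (k + 1) Fam, ∑ i ∈ S, G i ≤
        (Real.log Γ + (Ex.unif Dd hDd).E c) + if S ∈ Bd then ((k : ℝ) + 1) * M else 0 := by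
      intro S hS
      split_ifs with h
      · have : ∑ i ∈ S, G i ≤ ∑ _i ∈ S, M :=
          sum_le_sum fun i hi => hG2 i ((mem_powersetCard.1 hS).1 hi)
        rw [sum_const, (mem_powersetCard.1 hS).2, nsmul_eq_mul] at this
        push_cast at this
        linarith
      · simpa using h1 S hS h
    refine (sum_le_sum e1).trans ?_
    rw [sum_add_distrib, sum_const, card_powersetCard, nsmul_eq_mul, ← sum_filter, sum_const,
      nsmul_eq_mul, filter_mem_eq_inter]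
    gcongr
    refine le_trans ?_ hBd
    exact_mod_cast card_le_card inter_subset_right
  have h3 := sum_powersetCard_avg Fam k G
  have hn : (0 : ℝ) < Fam.card := by exact_mod_cast (by omega : 0 < Fam.card)
  have hC : (0 : ℝ) < Fam.card.choose (k + 1) := by
    exact_mod_cast Nat.choose_pos (by omega)
  have h4 : (Fam.card.choose k : ℝ) * Fam.card ≤ 2 * (Fam.card.choose (k + 1) * (k + 1)) := by
    have := Nat.choose_succ_right_eq Fam.card k
    have e : Fam.card.choose k * Fam.card ≤ 2 * (Fam.card.choose (k + 1) * (k + 1)) := by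
      rw [this, ← mul_assoc, mul_comm 2, mul_assoc]
      exact Nat.mul_le_mul_left _ (by omega)
    exact_mod_cast e
  have hk1 : (0 : ℝ) < k + 1 := by positivity
  have h5 : (∑ i ∈ Fam, G i) / Fam.card =
      (∑ S ∈ powersetCard (k + 1) Fam, ∑ i ∈ S, G i) / (Fam.card.choose (k + 1) * (k + 1)) := by
    rw [div_eq_div_iff hn.ne' (by positivity)]; linarith
  rw [h5, div_le_iff₀ (by positivity)]
  refine h2.trans ?_
  have h6 : (Fam.card.choose k : ℝ) ≤ 2 * (Fam.card.choose (k + 1) * (k + 1)) / Fam.card := by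
    rw [le_div_iff₀ hn]; exact h4
  have h7 : 4 * (Fam.card.choose k : ℝ) * ((k + 1) * M) ≤
      4 * (2 * (Fam.card.choose (k + 1) * (k + 1)) / Fam.card) * ((k + 1) * M) := by gcongr
  refine le_trans (add_le_add le_rfl h7) (le_of_eq ?_)
  field_simp; ring

end Vale.Agent.P015
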